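import Vale.Agent.P011.H219.MeanOp

/-!
# Weakly mixing vectors along quadratic polynomials (module P3a)
-/

open scoped InnerProductSpace
open Module Filter Topology

namespace Vale.Agent.P011.H219

noncomputable section

section bessel

variable {X : Type*} {m : (X → ℝ) → ℝ}
variable {H : Type*} [NormedAddCommGroup H] [InnerProductSpace ℂ H]

/-- The pointwise Bessel type inequality: `P = ∑ |⟨u_j, z⟩|²`, `P² ≤ ‖z‖² ‖∑ ⟨u_j, z⟩ u_j‖²`. -/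
theorem bessel_pointwise {J : Type*} (s : Finset J) (u : J → H) (z : H) {R : ℝ}
    (hu : ∀ j ∈ s, ‖u j‖ ≤ R) :
    (∑ j ∈ s, ‖⟪u j, z⟫_ℂ‖ ^ 2) ^ 2 ≤ ‖z‖ ^ 2 * (R ^ 2 * ∑ j ∈ s, ‖⟪u j, z⟫_ℂ‖ ^ 2 +
      R ^ 2 * ‖z‖ ^ 2 * ∑ p ∈ s.offDiag, ‖⟪u p.1, u p.2⟫_ℂ‖) := by
  classical
  set w : H := ∑ j ∈ s, ⟪u j, z⟫_ℂ • u j with hw
  have h1 : ⟪w, z⟫_ℂ = ((∑ j ∈ s, ‖⟪u j, z⟫_ℂ‖ ^ 2 : ℝ) : ℂ) := by
    rw [hw, sum_inner]
    push_cast
    refine Finset.sum_congr rfl fun j _ => ?_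
    rw [inner_smul_left, ← Complex.normSq_eq_conj_mul_self, Complex.normSq_eq_norm_sq]
    push_cast
    rfl
  have hP0 : 0 ≤ ∑ j ∈ s, ‖⟪u j, z⟫_ℂ‖ ^ 2 := Finset.sum_nonneg fun j _ => sq_nonneg _
  have h2 : ∑ j ∈ s, ‖⟪u j, z⟫_ℂ‖ ^ 2 ≤ ‖w‖ * ‖z‖ := by
    have h3 := norm_inner_le_norm (𝕜 := ℂ) w z
    rw [h1, Complex.norm_real, Real.norm_of_nonneg hP0] at h3
    exact h3
  have h4 : ‖w‖ ^ 2 ≤ R ^ 2 * ∑ j ∈ s, ‖⟪u j, z⟫_ℂ‖ ^ 2 +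
      R ^ 2 * ‖z‖ ^ 2 * ∑ p ∈ s.offDiag, ‖⟪u p.1, u p.2⟫_ℂ‖ := by
    have h5 : (‖w‖ ^ 2 : ℝ) = ‖⟪w, w⟫_ℂ‖ := by
      rw [inner_self_eq_norm_sq_to_K]
      norm_cast
      rw [abs_of_nonneg (sq_nonneg _)]
    have h6 : ⟪w, w⟫_ℂ = ∑ p ∈ s ×ˢ s, starRingEnd ℂ ⟪u p.1, z⟫_ℂ * (⟪u p.2, z⟫_ℂ *
        ⟪u p.1, u p.2⟫_ℂ) := by
      rw [Finset.sum_product]
      conv_lhs => rw [hw, sum_inner]
      refine Finset.sum_congr rfl fun i _ => ?_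
      rw [inner_smul_left, inner_sum, Finset.mul_sum]
      refine Finset.sum_congr rfl fun j _ => ?_
      rw [inner_smul_right]
    rw [h5, h6]
    refine (norm_sum_le _ _).trans ?_
    have hdj : s ×ˢ s = s.diag ∪ s.offDiag := (Finset.diag_union_offDiag s).symm
    rw [hdj, Finset.sum_union (Finset.disjoint_diag_offDiag s), Finset.sum_diag]
    refine add_le_add ?_ ?_
    · rw [Finset.mul_sum]
      refine Finset.sum_le_sum fun j hj => ?_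
      rw [norm_mul, norm_mul, RCLike.norm_conj]
      have h7 : ‖⟪u j, u j⟫_ℂ‖ ≤ R ^ 2 := by
        refine (norm_inner_le_norm _ _).trans ?_
        rw [← sq]
        exact pow_le_pow_left₀ (norm_nonneg _) (hu j hj) 2
      calc ‖⟪u j, z⟫_ℂ‖ * (‖⟪u j, z⟫_ℂ‖ * ‖⟪u j, u j⟫_ℂ‖)
          ≤ ‖⟪u j, z⟫_ℂ‖ * (‖⟪u j, z⟫_ℂ‖ * R ^ 2) := by gcongr
        _ = R ^ 2 * ‖⟪u j, z⟫_ℂ‖ ^ 2 := by ring
    · rw [Finset.mul_sum]
      refine Finset.sum_le_sum fun p hp => ?_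
      rw [Finset.mem_offDiag] at hp
      rw [norm_mul, norm_mul, RCLike.norm_conj]
      have h8 : ∀ j ∈ s, ‖⟪u j, z⟫_ℂ‖ ≤ R * ‖z‖ := fun j hj =>
        (norm_inner_le_norm _ _).trans (mul_le_mul_of_nonneg_right (hu j hj) (norm_nonneg _))
      have hR : 0 ≤ R := (norm_nonneg _).trans (hu _ hp.1)
      calc ‖⟪u p.1, z⟫_ℂ‖ * (‖⟪u p.2, z⟫_ℂ‖ * ‖⟪u p.1, u p.2⟫_ℂ‖)
          ≤ (R * ‖z‖) * ((R * ‖z‖) * ‖⟪u p.1, u p.2⟫_ℂ‖) := by
            gcongr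
            · exact h8 _ hp.1
            · exact h8 _ hp.2.1
        _ = R ^ 2 * ‖z‖ ^ 2 * ‖⟪u p.1, u p.2⟫_ℂ‖ := by ring
  calc (∑ j ∈ s, ‖⟪u j, z⟫_ℂ‖ ^ 2) ^ 2 ≤ (‖w‖ * ‖z‖) ^ 2 := pow_le_pow_left₀ hP0 h2 2
    _ = ‖z‖ ^ 2 * ‖w‖ ^ 2 := by ring
    _ ≤ _ := by gcongr

/-- **Bessel's inequality for asymptotically orthogonal families of equal mean.**  If the `u j`
are bounded by `R`, the mixed means vanish and every `mean |⟨u_j, z⟩|²` equals `M`, then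
`|s| M ≤ ‖z‖² R²`. -/
theorem mean_bessel (h : Mn m) {J : Type*} (s : Finset J) (u : J → X → H) (z : H) {R M : ℝ}
    (hu : ∀ j ∈ s, ∀ b, ‖u j b‖ ≤ R)
    (hoff : ∀ i ∈ s, ∀ j ∈ s, i ≠ j → (m fun b => ‖⟪u i b, u j b⟫_ℂ‖) = 0)
    (hM : ∀ j ∈ s, (m fun b => ‖⟪u j b, z⟫_ℂ‖ ^ 2) = M) :
    s.card * M ≤ ‖z‖ ^ 2 * R ^ 2 := by
  classical
  rcases s.eq_empty_or_nonempty with rfl | ⟨j₀, hj₀⟩
  · simp; positivity
  have hR : 0 ≤ R ∨ IsEmpty X := by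
    by_cases hX : IsEmpty X
    · exact Or.inr hX
    · rw [not_isEmpty_iff] at hX
      obtain ⟨b⟩ := hX
      exact Or.inl ((norm_nonneg _).trans (hu j₀ hj₀ b))
  have hXne : ¬ IsEmpty X := by
    intro hX
    have h1 := h.one
    have h2 := h.zero
    have h3 : (fun _ : X => (1 : ℝ)) = fun _ => 0 := by
      funext x
      exact (IsEmpty.false x).elim
    rw [h3, h2] at h1
    exact zero_ne_one h1
  have hR0 : 0 ≤ R := hR.resolve_right hXne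
  have hbd1 : ∀ j ∈ s, Bd fun b => ‖⟪u j b, z⟫_ℂ‖ := fun j hj =>
    ⟨R * ‖z‖, fun b => by
      rw [abs_norm]
      exact (norm_inner_le_norm _ _).trans
        (mul_le_mul_of_nonneg_right (hu j hj b) (norm_nonneg _))⟩
  have hbd2 : ∀ p ∈ s.offDiag, Bd fun b => ‖⟪u p.1 b, u p.2 b⟫_ℂ‖ := fun p hp =>
    ⟨R * R, fun b => by
      rw [Finset.mem_offDiag] at hp
      rw [abs_norm]
      exact (norm_inner_le_norm _ _).trans
        (mul_le_mul (hu _ hp.1 b) (hu _ hp.2.1 b) (norm_nonneg _) hR0)⟩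
  have hbdP : Bd fun b => ∑ j ∈ s, ‖⟪u j b, z⟫_ℂ‖ ^ 2 := Bd.sum s fun j hj => (hbd1 j hj).pow 2
  have hbdO : Bd fun b => ∑ p ∈ s.offDiag, ‖⟪u p.1 b, u p.2 b⟫_ℂ‖ := Bd.sum _ hbd2
  set P : ℝ := m fun b => ∑ j ∈ s, ‖⟪u j b, z⟫_ℂ‖ ^ 2 with hP
  have hPM : P = s.card * M := by
    rw [hP, h.sum s fun j hj => (hbd1 j hj).pow 2, Finset.sum_congr rfl hM, Finset.sum_const,
      nsmul_eq_mul]
  have hO : (m fun b => ∑ p ∈ s.offDiag, ‖⟪u p.1 b, u p.2 b⟫_ℂ‖) = 0 := by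
    rw [h.sum _ hbd2]
    refine Finset.sum_eq_zero fun p hp => ?_
    rw [Finset.mem_offDiag] at hp
    exact hoff _ hp.1 _ hp.2.1 hp.2.2
  have h1 : P ^ 2 ≤ ‖z‖ ^ 2 * R ^ 2 * P := by
    refine (h.sq_le hbdP).trans ?_
    have h2 : (m fun b => (∑ j ∈ s, ‖⟪u j b, z⟫_ℂ‖ ^ 2) ^ 2) ≤
        m (((‖z‖ ^ 2 * R ^ 2) • fun b => ∑ j ∈ s, ‖⟪u j b, z⟫_ℂ‖ ^ 2) +
          (‖z‖ ^ 2 * (R ^ 2 * ‖z‖ ^ 2)) • fun b =>
            ∑ p ∈ s.offDiag, ‖⟪u p.1 b, u p.2 b⟫_ℂ‖) := by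
      refine h.mono (hbdP.pow 2) ((hbdP.smul _).add (hbdO.smul _)) fun b => ?_
      refine (bessel_pointwise s (fun j => u j b) z fun j hj => hu j hj b).trans (le_of_eq ?_)
      simp only [Pi.add_apply, Pi.smul_apply, smul_eq_mul]
      ring
    refine h2.trans (le_of_eq ?_)
    rw [h.add _ _ (hbdP.smul _) (hbdO.smul _), h.smul _ _ hbdP, h.smul _ _ hbdO, hO, mul_zero,
      add_zero]
  rw [← hPM]
  by_cases hP0 : P ≤ 0
  · exact hP0.trans (by positivity)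
  · push Not at hP0
    nlinarith

end bessel

section quadratic

variable {k : Type*} [Field k] [Infinite k] {m : (k → ℝ) → ℝ}
variable {H : Type*} [NormedAddCommGroup H] [InnerProductSpace ℂ H] [CompleteSpace H]
variable {τ : k → H ≃ₗᵢ[ℂ] H}

omit [Infinite k] in
/-- The linear case with coefficients. -/
theorem mean_affine (h : Mn m) (hinv : ∀ (b : k) f, Bd f → (m fun x => f (x + b)) = m f)
    (hτ : ∀ a b x, τ (a + b) x = τ a (τ b x)) {x : H}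
    (hx : ∀ y, (∀ b, ∃ c : ℂ, τ b y = c • y) → ⟪y, x⟫_ℂ = 0) (z : H) {c : k} (hc : c ≠ 0) (e : k) :
    (m fun b => ‖⟪τ (c * b + e) x, z⟫_ℂ‖ ^ 2) = 0 := by
  -- the rescaled action
  let σ : k → H ≃ₗᵢ[ℂ] H := fun b => τ (c * b)
  have hσ : ∀ a b x, σ (a + b) x = σ a (σ b x) := fun a b x => by
    show τ (c * (a + b)) x = τ (c * a) (τ (c * b) x)
    rw [mul_add, hτ]
  have hxσ : ∀ y, (∀ b, ∃ r : ℂ, σ b y = r • y) → ⟪y, τ e x⟫_ℂ = 0 := by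
    intro y hy
    have hy' : ∀ b, ∃ r : ℂ, τ b y = r • y := by
      intro b
      obtain ⟨r, hr⟩ := hy (c⁻¹ * b)
      refine ⟨r, ?_⟩
      rw [← hr]
      show τ b y = τ (c * (c⁻¹ * b)) y
      rw [mul_inv_cancel_left₀ hc]
    obtain ⟨r, hr⟩ := hy' e
    have h1 : ⟪τ e y, τ e x⟫_ℂ = 0 := by
      rw [(τ e).inner_map_map]
      exact hx y hy'
    rw [hr, inner_smul_left] at h1
    rcases mul_eq_zero.1 h1 with h2 | h2
    · have h3 : r = 0 := by simpa using h2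
      have h4 : y = 0 := by
        have h5 : ‖τ e y‖ = 0 := by rw [hr, h3, zero_smul, norm_zero]
        rw [LinearIsometryEquiv.norm_map] at h5
        exact norm_eq_zero.1 h5
      rw [h4, inner_zero_left]
    · exact h2
  have h1 := mean_linear h hinv hσ hxσ z
  refine Eq.trans ?_ h1
  congr 1
  funext b
  show _ = ‖⟪τ (c * b) (τ e x), z⟫_ℂ‖ ^ 2
  rw [← hτ]

/-- **P3a.** -/
theorem mean_quadratic (h2 : (2 : k) ≠ 0) (h : Mn m)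
    (hinv : ∀ (b : k) f, Bd f → (m fun x => f (x + b)) = m f)
    (hτ : ∀ a b x, τ (a + b) x = τ a (τ b x)) {x : H}
    (hx : ∀ y, (∀ b, ∃ c : ℂ, τ b y = c • y) → ⟪y, x⟫_ℂ = 0) (z : H) (a c e : k)
    (hac : a ≠ 0 ∨ c ≠ 0) :
    (m fun b => ‖⟪τ (a * b ^ 2 + c * b + e) x, z⟫_ℂ‖ ^ 2) = 0 := by
  by_cases ha : a = 0
  · subst ha
    have hc : c ≠ 0 := hac.resolve_left (fun h => h rfl)
    have := mean_affine h hinv hτ hx z hc e
    simpa using this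
  have hbd : ∀ (p : k → k) (z : H), BdC fun b => ⟪τ (p b) x, z⟫_ℂ := fun p z =>
    ⟨‖x‖ * ‖z‖, fun b => by
      refine (norm_inner_le_norm _ _).trans ?_
      rw [LinearIsometryEquiv.norm_map]⟩
  set q : k → k := fun b => a * b ^ 2 + c * b + e with hq
  set M := m fun b => ‖⟪τ (q b) x, z⟫_ℂ‖ ^ 2 with hM
  have hM0 : 0 ≤ M := h.nonneg _ ((hbd q z).norm.pow 2) fun b => sq_nonneg _
  have hτneg : ∀ a v w, ⟪τ a v, w⟫_ℂ = ⟪v, τ (-a) w⟫_ℂ := by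
    intro a v w
    have h0 : τ 0 w = w := by
      have h1 := hτ 0 0 w
      rw [add_zero] at h1
      exact ((τ 0).injective h1).symm
    have h1 : w = τ a (τ (-a) w) := by
      rw [← hτ, add_neg_cancel, h0]
    conv_lhs => rw [h1]
    exact (τ a).inner_map_map _ _
  have key : ∀ N : ℕ, (N : ℝ) * M ≤ ‖z‖ ^ 2 * ‖x‖ ^ 2 := by
    intro N
    obtain ⟨s, hs⟩ := Infinite.exists_subset_card_eq k N
    rw [← hs]
    refine mean_bessel h s (fun t b => τ (q (b + t)) x) z (fun j _ b => ?_) ?_ ?_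
    · rw [LinearIsometryEquiv.norm_map]
    · intro i _ j _ hij
      have hb : BdC fun b => ⟪τ (q (b + i)) x, τ (q (b + j)) x⟫_ℂ :=
        ⟨‖x‖ * ‖x‖, fun b => by
          refine (norm_inner_le_norm _ _).trans ?_
          rw [LinearIsometryEquiv.norm_map, LinearIsometryEquiv.norm_map]⟩
      refine h.eq_zero_of_sq hb.norm ?_
      have h3 := mean_affine h hinv hτ hx x (c := 2 * a * (i - j))
        (mul_ne_zero (mul_ne_zero h2 ha) (sub_ne_zero.2 hij)) (q i - q j)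
      refine Eq.trans ?_ h3
      congr 1
      funext b
      congr 2
      have e1 : τ (q (b + j)) x = τ (q (b + j)) (τ 0 x) := by
        rw [← hτ, add_zero]
      have e2 : ⟪τ (q (b + i)) x, τ (q (b + j)) x⟫_ℂ =
          ⟪τ (-(q (b + j)) + q (b + i)) x, x⟫_ℂ := by
        rw [hτ (-(q (b + j))) (q (b + i)) x, hτneg (-(q (b + j))), neg_neg]
      rw [e2]
      congr 3
      simp only [hq]
      ring
    · intro j _
      exact hinv j (fun b => ‖⟪τ (q b) x, z⟫_ℂ‖ ^ 2) ((hbd q z).norm.pow 2)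
  by_contra hne
  have hMpos : 0 < M := lt_of_le_of_ne hM0 (Ne.symm hne)
  obtain ⟨N, hN⟩ := exists_nat_gt (‖z‖ ^ 2 * ‖x‖ ^ 2 / M)
  rw [div_lt_iff₀ hMpos] at hN
  exact absurd (key N) (not_le.2 hN)

end quadratic

end

end Vale.Agent.P011.H219
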