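import Vale.Agent.P011.H219.NormalityY

/-!
# Counting functions

`T` a countable set (hermitian elements over `k`) with type map `π : T → Y`, colour map
`f : T → R`, embedding `e : T → V` into the local space; `H` acts on `V`.  For `φ : V → [0, ∞]`

`cnt φ h y a = ∑_{ξ ∈ T, π ξ = y, f ξ = a} φ (h⁻¹ e ξ)`.
-/

open MeasureTheory Filter Topology
open scoped ENNReal NNReal Pointwise

namespace Vale.Agent.P011.H219

noncomputable section

/-- The arithmetic data. -/
structure ColData (Γ H T Y V R : Type*) [Group Γ] [Group H] [Group R] [MulAction Γ T]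
    [MulAction Γ Y] [MulAction H V] where
  /-- the embedding of the arithmetic group -/
  ι : Γ →* H
  /-- the label -/
  c : Γ → R
  /-- the type -/
  π : T → Y
  /-- the colour -/
  f : T → R
  /-- the position -/
  e : T → V
  pi_smul : ∀ (γ : Γ) t, π (γ • t) = γ • π t
  e_smul : ∀ (γ : Γ) t, e (γ • t) = ι γ • e t
  f_smul : ∀ (γ : Γ) t, f (γ • t) = c γ * f t * (c γ)⁻¹

variable {Γ H T Y V R : Type*} [Group Γ] [Group H] [Group R] [MulAction Γ T]
    [MulAction Γ Y] [MulAction H V]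

open Classical in
/-- The counting function. -/
def ColData.cnt (D : ColData Γ H T Y V R) (φ : V → ℝ≥0∞) (h : H) (y : Y) (a : R) : ℝ≥0∞ :=
  ∑' t : T, if D.π t = y ∧ D.f t = a then φ (h⁻¹ • D.e t) else 0

theorem ColData.cnt_equiv (D : ColData Γ H T Y V R) (φ : V → ℝ≥0∞) (γ : Γ) (h : H) (y : Y)
    (a : R) : D.cnt φ (D.ι γ * h) (γ • y) (D.c γ * a * (D.c γ)⁻¹) = D.cnt φ h y a := by
  classical
  unfold ColData.cnt
  rw [← (MulAction.toPerm γ : Equiv.Perm T).tsum_eq]
  apply tsum_congr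
  intro t
  simp only [MulAction.toPerm_apply, D.pi_smul, D.e_smul, D.f_smul]
  have h1 : (γ • D.π t = γ • y ∧ D.c γ * D.f t * (D.c γ)⁻¹ = D.c γ * a * (D.c γ)⁻¹) ↔
      (D.π t = y ∧ D.f t = a) := by
    simp
  simp only [h1, mul_inv_rev, mul_smul, inv_smul_smul]

theorem ColData.cnt_equiv' (D : ColData Γ H T Y V R) (φ : V → ℝ≥0∞) (γ : Γ) (h : H) (y : Y)
    (a : R) : D.cnt φ (D.ι γ * h) (γ • y) a = D.cnt φ h y ((D.c γ)⁻¹ * a * D.c γ) := by
  rw [← D.cnt_equiv φ γ h y ((D.c γ)⁻¹ * a * D.c γ)]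
  congr 1
  group

theorem ColData.cnt_mul (D : ColData Γ H T Y V R) (φ : V → ℝ≥0∞) (h x : H) (y : Y) (a : R) :
    D.cnt φ (h * x) y a = D.cnt (fun v => φ (x⁻¹ • v)) h y a := by
  classical
  unfold ColData.cnt
  apply tsum_congr
  intro t
  rw [mul_inv_rev, mul_smul]

theorem ColData.cnt_mono (D : ColData Γ H T Y V R) {φ φ' : V → ℝ≥0∞} (hφ : ∀ v, φ v ≤ φ' v)
    (h : H) (y : Y) (a : R) : D.cnt φ h y a ≤ D.cnt φ' h y a := by
  classical
  unfold ColData.cnt
  refine ENNReal.tsum_le_tsum fun t => ?_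
  split_ifs
  · exact hφ _
  · exact le_rfl

theorem ColData.cnt_add (D : ColData Γ H T Y V R) (φ φ' : V → ℝ≥0∞)
    (h : H) (y : Y) (a : R) :
    D.cnt (fun v => φ v + φ' v) h y a = D.cnt φ h y a + D.cnt φ' h y a := by
  classical
  unfold ColData.cnt
  rw [← ENNReal.tsum_add]
  apply tsum_congr
  intro t
  split_ifs
  · rfl
  · simp

theorem ColData.cnt_const_mul (D : ColData Γ H T Y V R) (r : ℝ≥0∞) (φ : V → ℝ≥0∞)
    (h : H) (y : Y) (a : R) : D.cnt (fun v => r * φ v) h y a = r * D.cnt φ h y a := by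
  classical
  unfold ColData.cnt
  rw [← ENNReal.tsum_mul_left]
  apply tsum_congr
  intro t
  split_ifs
  · rfl
  · simp

/-- Sum over all colours. -/
theorem ColData.sum_cnt [Fintype R] (D : ColData Γ H T Y V R) (φ : V → ℝ≥0∞) (h : H) (y : Y) :
    ∑ a, D.cnt φ h y a = ∑' t : {t : T // D.π t = y}, φ (h⁻¹ • D.e t) := by
  classical
  unfold ColData.cnt
  rw [← (Summable.tsum_finsetSum fun _ _ => ENNReal.summable)]
  refine Eq.trans ?_ (tsum_subtype {t : T | D.π t = y} fun t => φ (h⁻¹ • D.e t)).symm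
  apply tsum_congr
  intro t
  by_cases ht : D.π t = y
  · rw [Set.indicator_of_mem (show t ∈ {t : T | D.π t = y} from ht)]
    simp [ht]
  · rw [Set.indicator_of_notMem (show t ∉ {t : T | D.π t = y} from ht)]
    simp [ht]

theorem ColData.measurable_cnt [Countable T] [MeasurableSpace H] [MeasurableSpace V]
    (D : ColData Γ H T Y V R) (hm : ∀ v : V, Measurable fun h : H => h⁻¹ • v)
    {φ : V → ℝ≥0∞} (hφ : Measurable φ) (y : Y) (a : R) :
    Measurable fun h => D.cnt φ h y a := by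
  classical
  unfold ColData.cnt
  refine Measurable.ennreal_tsum fun t => ?_
  split_ifs
  · exact hφ.comp (hm _)
  · exact measurable_const

variable [Fintype R] [DecidableEq R]

open Classical in
/-- The colours occurring at least `τ` times. -/
def ColData.colSet (D : ColData Γ H T Y V R) (φ : V → ℝ≥0∞) (τ : ℝ≥0∞) (h : H) (y : Y) :
    Finset R := Finset.univ.filter fun a => τ ≤ D.cnt φ h y a

omit [DecidableEq R] in
theorem ColData.mem_colSet (D : ColData Γ H T Y V R) {φ : V → ℝ≥0∞} {τ : ℝ≥0∞} {h : H} {y : Y}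
    {a : R} : a ∈ D.colSet φ τ h y ↔ τ ≤ D.cnt φ h y a := by
  classical
  unfold ColData.colSet
  simp

theorem mem_conjF' {R : Type*} [Group R] {r a : R} {T : Finset R} :
    a ∈ (MulAut.conj r).toEquiv.finsetCongr T ↔ r⁻¹ * a * r ∈ T := by
  rw [Equiv.finsetCongr_apply, Finset.mem_map_equiv]
  have : (MulAut.conj r).toEquiv.symm a = r⁻¹ * a * r := by
    show (MulAut.conj r).symm a = _
    rw [MulAut.conj_symm_apply]
  rw [this]

theorem ColData.colSet_equiv {R : Type} [Group R] [Fintype R] [DecidableEq R]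
    (D : ColData Γ H T Y V R) (φ : V → ℝ≥0∞) (τ : ℝ≥0∞) (γ : Γ)
    (h : H) (y : Y) : D.colSet φ τ (D.ι γ * h) (γ • y) = conjF (D.c γ) (D.colSet φ τ h y) := by
  ext a
  rw [D.mem_colSet, mem_conjF, D.mem_colSet, D.cnt_equiv']

omit [DecidableEq R] in
theorem ColData.colSet_mono (D : ColData Γ H T Y V R) {φ φ' : V → ℝ≥0∞} {x : H}
    (hφ : ∀ v, φ v ≤ φ' (x⁻¹ • v)) (τ : ℝ≥0∞) (h : H) (y : Y) :
    D.colSet φ τ h y ⊆ D.colSet φ' τ (h * x) y := by
  intro a ha
  rw [D.mem_colSet] at ha ⊢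
  rw [D.cnt_mul]
  exact ha.trans (D.cnt_mono hφ h y a)

omit [DecidableEq R] in
theorem ColData.measurableSet_colSet [Countable T] [MeasurableSpace H] [MeasurableSpace V]
    (D : ColData Γ H T Y V R) (hm : ∀ v : V, Measurable fun h : H => h⁻¹ • v)
    {φ : V → ℝ≥0∞} (hφ : Measurable φ) (τ : ℝ≥0∞) (y : Y) (U : Finset R) :
    MeasurableSet {h | D.colSet φ τ h y = U} := by
  classical
  have h1 : {h | D.colSet φ τ h y = U} =
      ⋂ a : R, {h | τ ≤ D.cnt φ h y a ↔ a ∈ U} := by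
    ext h
    simp only [Set.mem_setOf_eq, Set.mem_iInter, Finset.ext_iff, D.mem_colSet]
  rw [h1]
  refine MeasurableSet.iInter fun a => ?_
  have h2 : MeasurableSet {h | τ ≤ D.cnt φ h y a} :=
    measurableSet_le measurable_const (D.measurable_cnt hm hφ y a)
  by_cases ha : a ∈ U
  · simpa [ha] using h2
  · have h3 : {h | τ ≤ D.cnt φ h y a ↔ a ∈ U} = {h | τ ≤ D.cnt φ h y a}ᶜ := by
      ext h
      simp [ha]
    rw [h3]
    exact h2.compl

end

end Vale.Agent.P011.H219
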