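import Vale.Agent.P011.H219.SubspaceGap

/-!
# The gap for three subgroups

`π` an isometric linear action of an abstract group `G` on a real Hilbert space `H`,
`K₀, K₁, K₂` subgroups.  If for every `l` (with `{i,j,l} = {0,1,2}`, one of the two orders)
`K_l` acts 2-transitively on `K_l / (K_l ∩ K_i)` (finite) and `K_l ∩ K_j` contains five
elements which are different modulo `K_i`, then a vector which is almost fixed by the three
subgroups is close to a vector fixed by the three subgroups.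
-/

open scoped InnerProductSpace

namespace Vale.Agent.P011.H219

noncomputable section

variable {H : Type*} [NormedAddCommGroup H] [InnerProductSpace ℝ H]
variable {G : Type*} [Group G] (π : G →* (H ≃ₗᵢ[ℝ] H))

/-- The subspace of the vectors fixed by a subgroup. -/
def fixedSub (Q : Subgroup G) : Submodule ℝ H where
  carrier := {v | ∀ k ∈ Q, π k v = v}
  add_mem' := by
    intro a b ha hb k hk
    rw [map_add, ha k hk, hb k hk]
  zero_mem' := by intro k _; simp
  smul_mem' := by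
    intro c a ha k hk
    rw [map_smul, ha k hk]

theorem mem_fixedSub {Q : Subgroup G} {v : H} : v ∈ fixedSub π Q ↔ ∀ k ∈ Q, π k v = v :=
  Iff.rfl

theorem isClosed_fixedSub (Q : Subgroup G) : IsClosed (fixedSub π Q : Set H) := by
  have : (fixedSub π Q : Set H) = ⋂ k ∈ Q, {v | π k v = v} := by
    ext v
    simp [mem_fixedSub]
  rw [this]
  exact isClosed_biInter fun k _ => isClosed_eq (π k).continuous continuous_id

theorem fixedSub_anti {Q Q' : Subgroup G} (h : Q ≤ Q') : fixedSub π Q' ≤ fixedSub π Q :=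
  fun _ hv k hk => hv k (h hk)

instance [CompleteSpace H] (Q : Subgroup G) : CompleteSpace (fixedSub π Q) :=
  (isClosed_fixedSub π Q).completeSpace_coe

variable [CompleteSpace H]

/-- A vector almost fixed by `K` (no topology on `K`) is close to its projection on the
`K`-fixed vectors. -/
theorem norm_sub_starProjection_le (Q : Subgroup G) {v : H} {η : ℝ}
    (hη : ∀ k ∈ Q, ‖π k v - v‖ ≤ η) :
    ‖v - (fixedSub π Q).starProjection v‖ ≤ η := by
  -- the closed convex hull of the orbit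
  let O : Set H := {w | ∃ k ∈ Q, w = π k v}
  let C : Set H := closure (convexHull ℝ O)
  have hvO : v ∈ O := ⟨1, Q.one_mem, by simp⟩
  have hne : C.Nonempty := ⟨v, subset_closure (subset_convexHull ℝ O hvO)⟩
  have hconv : Convex ℝ C := (convex_convexHull ℝ O).closure
  have hcomp : IsComplete C := isClosed_closure.isComplete
  have hinv : ∀ k ∈ Q, ∀ w ∈ C, π k w ∈ C := by
    intro k hk w hw
    have h1 : (π k) '' (convexHull ℝ O) ⊆ convexHull ℝ O := by
      have h2 : (π k) '' (convexHull ℝ O) = convexHull ℝ ((π k) '' O) :=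
        ((π k).toLinearEquiv.toLinearMap.image_convexHull O)
      rw [h2]
      apply convexHull_mono
      rintro _ ⟨w, ⟨k', hk', rfl⟩, rfl⟩
      exact ⟨k * k', Q.mul_mem hk hk', by rw [map_mul]; rfl⟩
    have h3 : π k w ∈ closure ((π k) '' (convexHull ℝ O)) :=
      image_closure_subset_closure_image (π k).continuous ⟨w, hw, rfl⟩
    exact closure_mono h1 h3
  obtain ⟨c, hc, hcn⟩ := exists_norm_eq_iInf_of_complete_convex hne hcomp hconv 0
  have hmin : ∀ w ∈ C, ‖c‖ ≤ ‖w‖ := by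
    intro w hw
    have h4 : ‖(0 : H) - c‖ ≤ ‖(0 : H) - w‖ := by
      rw [hcn]
      exact ciInf_le ⟨0, by rintro _ ⟨x, rfl⟩; exact norm_nonneg _⟩ (⟨w, hw⟩ : C)
    simpa using h4
  have hfix : c ∈ fixedSub π Q := by
    intro k hk
    have hk1 : π k c ∈ C := hinv k hk c hc
    have hmid : (1 / 2 : ℝ) • c + (1 / 2 : ℝ) • π k c ∈ C :=
      hconv hc hk1 (by norm_num) (by norm_num) (by norm_num)
    have h5 := hmin _ hmid
    have h6 : ‖π k c‖ = ‖c‖ := (π k).norm_map c
    have h7 := parallelogram_law_with_norm ℝ c (π k c)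
    have h8 : ‖(1 / 2 : ℝ) • c + (1 / 2 : ℝ) • π k c‖ = 1 / 2 * ‖c + π k c‖ := by
      rw [← smul_add, norm_smul]; norm_num
    rw [h8] at h5
    rw [h6] at h7
    have h9 : ‖c - π k c‖ = 0 := by
      have hc0 := norm_nonneg c
      nlinarith [norm_nonneg (c - π k c), norm_nonneg (c + π k c)]
    exact (sub_eq_zero.1 (norm_eq_zero.1 h9)).symm
  have hball : ‖v - c‖ ≤ η := by
    have h10 : C ⊆ Metric.closedBall v η := by
      apply closure_minimal _ Metric.isClosed_closedBall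
      apply convexHull_min _ (convex_closedBall v η)
      rintro _ ⟨k, hk, rfl⟩
      rw [Metric.mem_closedBall, dist_eq_norm]
      exact hη k hk
    have := h10 hc
    rwa [Metric.mem_closedBall, dist_eq_norm, norm_sub_rev] at this
  have hmin2 : ‖v - (fixedSub π Q).starProjection v‖ ≤ ‖v - c‖ := by
    rw [(fixedSub π Q).starProjection_minimal v]
    exact ciInf_le ⟨0, by rintro _ ⟨x, rfl⟩; exact norm_nonneg _⟩ (⟨c, hfix⟩ : fixedSub π Q)
  exact hmin2.trans hball

/-- The combinatorial data of the link of `L`: `L` acts 2-transitively on the finite set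
`L / (L ∩ I)` and `L ∩ J` contains `m` elements which are different modulo `I`. -/
structure LinkData (L I J : Subgroup G) (m : ℕ) : Prop where
  finite : (I.subgroupOf L).FiniteIndex
  two_trans : ∀ x ∈ L, ∀ y ∈ L, x ∉ I → y ∉ I → ∃ a ∈ L ⊓ I, ∃ b ∈ L ⊓ I, y = a * x * b
  exists_ne : ∃ x ∈ L, x ∉ I
  elems : ∃ x : Fin m → G, (∀ s, x s ∈ L ⊓ J) ∧ ∀ s t, s ≠ t → (x s)⁻¹ * x t ∉ I

omit [CompleteSpace H] in
theorem inner_pi (g h : G) (u v : H) : ⟪π g u, π h v⟫_ℝ = ⟪u, π (g⁻¹ * h) v⟫_ℝ := by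
  have h1 : π h v = π g (π (g⁻¹ * h) v) := by
    have : π h = π (g * (g⁻¹ * h)) := by rw [mul_inv_cancel_left]
    rw [this, map_mul]; rfl
  rw [h1, (π g).inner_map_map]

/-- Off `I` the matrix coefficient of an `L ∩ I`-fixed vector with zero projection on the
`L`-fixed vectors is a nonpositive constant. -/
theorem inner_nonpos {L I J : Subgroup G} {m : ℕ} (hd : LinkData L I J m) {u : H}
    (hu : u ∈ fixedSub π (L ⊓ I)) (hp : (fixedSub π L).starProjection u = 0) {x : G}
    (hx : x ∈ L) (hxI : x ∉ I) : ⟪u, π x u⟫_ℝ ≤ 0 := by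
  classical
  have := hd.finite
  -- the constant
  have hconst : ∀ y ∈ L, y ∉ I → ⟪u, π y u⟫_ℝ = ⟪u, π x u⟫_ℝ := by
    intro y hy hyI
    obtain ⟨a, ha, b, hb, rfl⟩ := hd.two_trans x hx y hy hxI hyI
    have h1 : π (a * x * b) u = π a (π x u) := by
      rw [map_mul, map_mul]
      change π a (π x (π b u)) = _
      rw [hu b hb]
    rw [h1]
    have h2 : ⟪u, π a (π x u)⟫_ℝ = ⟪π a u, π a (π x u)⟫_ℝ := by rw [hu a ha]
    rw [h2, (π a).inner_map_map]
  -- the sum over the cosets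
  let F : L ⧸ (I.subgroupOf L) → H := Quotient.lift (fun l : L => π (l : G) u) (by
    intro l l' hll
    have h3 : l⁻¹ * l' ∈ I.subgroupOf L := QuotientGroup.leftRel_apply.1 hll
    have h4 : ((l⁻¹ * l' : L) : G) ∈ L ⊓ I := ⟨(l⁻¹ * l' : L).2, Subgroup.mem_subgroupOf.1 h3⟩
    have h5 : ((l' : L) : G) = (l : G) * ((l⁻¹ * l' : L) : G) := by simp
    change π (l : G) u = π (l' : G) u
    rw [h5, map_mul]
    change _ = π (l : G) (π ((l⁻¹ * l' : L) : G) u)
    rw [hu _ h4])
  have hFmk : ∀ l : L, F (l : L ⧸ (I.subgroupOf L)) = π (l : G) u := fun l => rfl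
  haveI : Fintype (L ⧸ (I.subgroupOf L)) := Subgroup.fintypeOfIndexNeZero hd.finite.index_ne_zero
  let S : H := ∑ q, F q
  have hS : S ∈ fixedSub π L := by
    intro k hk
    have h6 : π k S = ∑ q, π k (F q) := map_sum (π k) _ _
    have h7 : ∀ q, π k (F q) = F ((⟨k, hk⟩ : L) • q) := by
      intro q
      induction q using QuotientGroup.induction_on with
      | H l =>
        rw [hFmk]
        have : (⟨k, hk⟩ : L) • (l : L ⧸ (I.subgroupOf L)) =
          (((⟨k, hk⟩ : L) * l : L) : L ⧸ (I.subgroupOf L)) := rfl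
        rw [this, hFmk]
        rw [Subgroup.coe_mul, map_mul]
        rfl
    rw [h6]
    simp_rw [h7]
    exact Equiv.sum_comp (MulAction.toPerm (⟨k, hk⟩ : L)) F
  have hSu : ⟪u, S⟫_ℝ = 0 := by
    have h8 := (fixedSub π L).starProjection_inner_eq_zero u S hS
    rw [hp, sub_zero] at h8
    exact h8
  -- evaluate
  have hsum : ⟪u, S⟫_ℝ = ∑ q, ⟪u, F q⟫_ℝ := inner_sum _ _ _
  by_contra hpos
  push Not at hpos
  have hall : ∀ q, 0 ≤ ⟪u, F q⟫_ℝ := by
    intro q
    induction q using QuotientGroup.induction_on with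
    | H l =>
      rw [hFmk]
      by_cases hl : (l : G) ∈ I
      · rw [hu (l : G) ⟨l.2, hl⟩]
        exact real_inner_self_nonneg
      · rw [hconst _ l.2 hl]
        exact hpos.le
  have hx' : 0 < ⟪u, F ((⟨x, hx⟩ : L) : L ⧸ (I.subgroupOf L))⟫_ℝ := by
    rw [hFmk]; exact hpos
  have : 0 < ∑ q, ⟪u, F q⟫_ℝ :=
    Finset.sum_pos' (fun q _ => hall q) ⟨_, Finset.mem_univ _, hx'⟩
  rw [← hsum, hSu] at this
  exact lt_irrefl _ this

/-- **Link lemma.** -/
theorem inner_le_of_link {L I J : Subgroup G} {m : ℕ} (hm : 0 < m) (hd : LinkData L I J m)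
    {u v : H} (hu : u ∈ fixedSub π (L ⊓ I)) (hp : (fixedSub π L).starProjection u = 0)
    (hv : v ∈ fixedSub π (L ⊓ J)) : ⟪u, v⟫_ℝ ≤ 1 / √m * (‖u‖ * ‖v‖) := by
  obtain ⟨x, hx, hxne⟩ := hd.elems
  have hm' : (0 : ℝ) < m := by exact_mod_cast hm
  let S : H := ∑ s, π (x s) u
  -- `⟪S, v⟫ = m ⟪u, v⟫`
  have h1 : ⟪S, v⟫_ℝ = m * ⟪u, v⟫_ℝ := by
    have h2 : ∀ s, ⟪π (x s) u, v⟫_ℝ = ⟪u, v⟫_ℝ := by
      intro s
      have h3 : ⟪π (x s) u, v⟫_ℝ = ⟪π (x s) u, π (x s) v⟫_ℝ := by rw [hv _ (hx s)]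
      rw [h3, (π (x s)).inner_map_map]
    change ⟪∑ s, π (x s) u, v⟫_ℝ = _
    rw [sum_inner, Finset.sum_congr rfl fun s _ => h2 s]
    simp
  have h4 : ‖S‖ ^ 2 ≤ m * ‖u‖ ^ 2 := by
    rw [← real_inner_self_eq_norm_sq]
    change ⟪∑ s, π (x s) u, ∑ t, π (x t) u⟫_ℝ ≤ _
    rw [sum_inner]
    have h5 : ∀ s, ⟪π (x s) u, ∑ t, π (x t) u⟫_ℝ ≤ ‖u‖ ^ 2 := by
      intro s
      rw [inner_sum]
      have h6 : ∑ t, ⟪π (x s) u, π (x t) u⟫_ℝ ≤ ∑ t, if t = s then ‖u‖ ^ 2 else 0 := by
        apply Finset.sum_le_sum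
        intro t _
        split_ifs with hts
        · rw [hts, real_inner_self_eq_norm_sq, (π (x s)).norm_map]
        · rw [inner_pi]
          refine inner_nonpos π hd hu hp ?_ (hxne s t (Ne.symm hts))
          exact L.mul_mem (L.inv_mem (hx s).1) (hx t).1
      refine h6.trans ?_
      simp
    calc ∑ s, ⟪π (x s) u, ∑ t, π (x t) u⟫_ℝ ≤ ∑ _s : Fin m, ‖u‖ ^ 2 :=
          Finset.sum_le_sum fun s _ => h5 s
      _ = m * ‖u‖ ^ 2 := by simp
  have h7 : ‖S‖ ≤ √m * ‖u‖ := by
    apply le_of_sq_le_sq _ (by positivity)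
    rw [mul_pow, Real.sq_sqrt hm'.le]
    exact h4
  have h8 : (m : ℝ) * ⟪u, v⟫_ℝ ≤ √m * ‖u‖ * ‖v‖ := by
    rw [← h1]
    exact (real_inner_le_norm _ _).trans (mul_le_mul_of_nonneg_right h7 (norm_nonneg _))
  have h9 : 1 / √m * (‖u‖ * ‖v‖) = (√m * ‖u‖ * ‖v‖) / m := by
    have : (m : ℝ) = √m * √m := (Real.mul_self_sqrt hm'.le).symm
    have hs : √(m : ℝ) ≠ 0 := by positivity
    field_simp
    rw [Real.sq_sqrt hm'.le]
    ring
  rw [h9, le_div_iff₀ hm']
  linarith

/-- The angle hypothesis of `three_subspace_gap` from the link data. -/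
theorem angleLe_of_link {L I J : Subgroup G} {m : ℕ} (hm : 0 < m) (hd : LinkData L I J m) :
    AngleLe (fixedSub π I) (fixedSub π J) (fixedSub π L) (1 / √m) := by
  intro u hu v hv
  set p := (fixedSub π L).starProjection with hpdef
  have hpu : p u ∈ fixedSub π L := (fixedSub π L).starProjection_apply_mem u
  have hpv : p v ∈ fixedSub π L := (fixedSub π L).starProjection_apply_mem v
  have hu' : u - p u ∈ fixedSub π (L ⊓ I) :=
    (fixedSub π (L ⊓ I)).sub_mem (fixedSub_anti π inf_le_right hu)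
      (fixedSub_anti π inf_le_left hpu)
  have hv' : v - p v ∈ fixedSub π (L ⊓ J) :=
    (fixedSub π (L ⊓ J)).sub_mem (fixedSub_anti π inf_le_right hv)
      (fixedSub_anti π inf_le_left hpv)
  have hp0 : p (u - p u) = 0 := by
    rw [map_sub, ((fixedSub π L).starProjection_eq_self_iff).2 hpu, sub_self]
  have h1 := inner_le_of_link π hm hd hu' hp0 hv'
  have h2 : ⟪u, v⟫_ℝ = ⟪p u, p v⟫_ℝ + ⟪u - p u, v - p v⟫_ℝ := by
    have e1 := (fixedSub π L).starProjection_inner_eq_zero u (p v) hpv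
    have e2 := (fixedSub π L).starProjection_inner_eq_zero v (p u) hpu
    rw [inner_sub_left] at e1 e2
    rw [inner_sub_left, inner_sub_right, inner_sub_right]
    rw [real_inner_comm (p u) v, real_inner_comm (p u) (p v)] at e2
    linarith
  rw [h2]
  linarith

theorem AngleLe.symm {A B C : Submodule ℝ H} [C.HasOrthogonalProjection] {lam : ℝ}
    (h : AngleLe A B C lam) : AngleLe B A C lam := by
  intro u hu v hv
  have := h v hv u hu
  rw [real_inner_comm u v, real_inner_comm (C.starProjection u) (C.starProjection v),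
    mul_comm ‖v - C.starProjection v‖] at this
  exact this

/-- **The gap for three subgroups.** The link data may be given in either order. -/
theorem group_gap {K0 K1 K2 : Subgroup G} {m : ℕ} (hm : 5 ≤ m)
    (h0 : LinkData K0 K1 K2 m ∨ LinkData K0 K2 K1 m)
    (h1 : LinkData K1 K0 K2 m ∨ LinkData K1 K2 K0 m)
    (h2 : LinkData K2 K0 K1 m ∨ LinkData K2 K1 K0 m) (v : H) :
    ∃ w, w ∈ fixedSub π K0 ∧ w ∈ fixedSub π K1 ∧ w ∈ fixedSub π K2 ∧
      ‖v - w‖ ≤ gapConst (1 / √m) * (‖v - (fixedSub π K0).starProjection v‖ +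
        ‖v - (fixedSub π K1).starProjection v‖ + ‖v - (fixedSub π K2).starProjection v‖) := by
  have hm0 : 0 < m := by omega
  have hlam0 : 0 ≤ 1 / √(m : ℝ) := by positivity
  have hlam1 : 1 / √(m : ℝ) < 1 / 2 := by
    apply one_div_lt_one_div_of_lt (by norm_num)
    have : (5 : ℝ) ≤ m := by exact_mod_cast hm
    rw [Real.lt_sqrt (by norm_num)]
    linarith
  refine three_subspace_gap hlam0 hlam1 (isClosed_fixedSub π K0) (isClosed_fixedSub π K1)
    (isClosed_fixedSub π K2) ?_ ?_ ?_ v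
  · rcases h0 with h | h
    · exact angleLe_of_link π hm0 h
    · exact (angleLe_of_link π hm0 h).symm
  · rcases h1 with h | h
    · exact (angleLe_of_link π hm0 h).symm
    · exact angleLe_of_link π hm0 h
  · rcases h2 with h | h
    · exact angleLe_of_link π hm0 h
    · exact (angleLe_of_link π hm0 h).symm

/-- The gap for three subgroups, in terms of almost fixed vectors. -/
theorem group_gap' {K0 K1 K2 : Subgroup G} {m : ℕ} (hm : 5 ≤ m)
    (h0 : LinkData K0 K1 K2 m ∨ LinkData K0 K2 K1 m)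
    (h1 : LinkData K1 K0 K2 m ∨ LinkData K1 K2 K0 m)
    (h2 : LinkData K2 K0 K1 m ∨ LinkData K2 K1 K0 m) {v : H} {η : ℝ}
    (hv : ∀ k, k ∈ K0 ∨ k ∈ K1 ∨ k ∈ K2 → ‖π k v - v‖ ≤ η) :
    ∃ w, w ∈ fixedSub π K0 ∧ w ∈ fixedSub π K1 ∧ w ∈ fixedSub π K2 ∧
      ‖v - w‖ ≤ 3 * gapConst (1 / √m) * η := by
  obtain ⟨w, w0, w1, w2, hw⟩ := group_gap π hm h0 h1 h2 v
  refine ⟨w, w0, w1, w2, hw.trans ?_⟩
  have e0 := norm_sub_starProjection_le π K0 (v := v) (η := η) fun k hk => hv k (Or.inl hk)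
  have e1 := norm_sub_starProjection_le π K1 (v := v) (η := η)
    fun k hk => hv k (Or.inr (Or.inl hk))
  have e2 := norm_sub_starProjection_le π K2 (v := v) (η := η)
    fun k hk => hv k (Or.inr (Or.inr hk))
  have hlam0 : 0 ≤ 1 / √(m : ℝ) := by positivity
  have hlam1 : 1 / √(m : ℝ) < 1 / 2 := by
    apply one_div_lt_one_div_of_lt (by norm_num)
    have : (5 : ℝ) ≤ m := by exact_mod_cast hm
    rw [Real.lt_sqrt (by norm_num)]
    linarith
  have hc := gapConst_pos hlam0 hlam1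
  calc _ ≤ gapConst (1 / √m) * (η + η + η) :=
        mul_le_mul_of_nonneg_left (by linarith) hc.le
    _ = 3 * gapConst (1 / √m) * η := by ring

end

end Vale.Agent.P011.H219
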