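import Vale.Agent.P011.H219.Normality

/-!
# Kernel of the normality theorem

`H` a locally compact group, `j : G₀ →* H` with normal range, `f : H → E` measurable and invariant
under right translation by every `j g`.  If arbitrarily close to `j(G₀)` there are `γ` with
`f (γ h) = A (f h)` a.e., then `A (f h) = f h` a.e.  (Fubini and continuity of translations.)
-/

open MeasureTheory Filter Topology
open scoped ENNReal NNReal Pointwise

namespace Vale.Agent.P011.H219

noncomputable section

section fubini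

variable {H : Type*} [Group H] [MeasurableSpace H] [MeasurableMul₂ H] {μ : Measure H} [SFinite μ]
  [μ.IsMulLeftInvariant]
variable {G₀ : Type*} [Group G₀] [MeasurableSpace G₀] [MeasurableMul G₀] {μ₀ : Measure G₀}
  [SFinite μ₀] [μ₀.IsMulLeftInvariant]
variable {E : Type*} [NormedAddCommGroup E]

/-- A function invariant under right translations by a normal subgroup is invariant under left
translations by it (everything almost everywhere). -/
theorem ae_mul_left_of_normal (hμ₀ : μ₀ ≠ 0) (j : G₀ →* H) (hj : Measurable j)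
    (hN : j.range.Normal) (hq : ∀ g : G₀, Measure.QuasiMeasurePreserving (· * j g) μ μ)
    {f : H → E} (hf : AEStronglyMeasurable f μ)
    (hinv : ∀ g : G₀, ∀ᵐ h ∂μ, f (h * j g) = f h) {z : H} (hz : z ∈ j.range) :
    ∀ᵐ h ∂μ, f (z * h) = f h := by
  set f₁ := hf.mk f with hf₁
  have hm : StronglyMeasurable f₁ := hf.stronglyMeasurable_mk
  have heq : ∀ᵐ h ∂μ, f h = f₁ h := hf.ae_eq_mk
  have h1 : ∀ g : G₀, ∀ᵐ h ∂μ, f₁ (h * j g) = f₁ h := by
    intro g
    filter_upwards [hinv g, heq, (hq g).ae heq] with h a1 a2 a3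
    rw [← a2, ← a3, a1]
  have hms : MeasurableSet {p : H × G₀ | f₁ (p.1 * j p.2) = f₁ p.1} := by
    refine StronglyMeasurable.measurableSet_eq_fun ?_ ?_
    · exact hm.comp_measurable (measurable_fst.mul (hj.comp measurable_snd))
    · exact hm.comp_measurable measurable_fst
  have h2 : ∀ᵐ h ∂μ, ∀ᵐ g ∂μ₀, f₁ (h * j g) = f₁ h :=
    (Measure.ae_ae_comm (p := fun (h : H) (g : G₀) => f₁ (h * j g) = f₁ h) hms).2
      (Eventually.of_forall h1)
  have qz : Measure.QuasiMeasurePreserving (z * ·) μ μ :=
    (measurePreserving_mul_left μ z).quasiMeasurePreserving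
  have hμne : (ae μ₀).NeBot := ae_neBot.2 hμ₀
  have h3 : ∀ᵐ h ∂μ, f₁ (z * h) = f₁ h := by
    filter_upwards [h2, qz.ae h2] with h a1 a2
    obtain ⟨t, ht⟩ : h⁻¹ * z * h ∈ j.range := by
      have := hN.conj_mem z hz h⁻¹
      simpa using this
    have qt : Measure.QuasiMeasurePreserving (t * ·) μ₀ μ₀ :=
      (measurePreserving_mul_left μ₀ t).quasiMeasurePreserving
    obtain ⟨g, b1, b2⟩ := (a2.and (qt.ae a1)).exists
    have e1 : z * h * j g = h * j (t * g) := by
      rw [map_mul, ht]; group
    rw [← b1, e1, b2]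
  filter_upwards [h3, heq, qz.ae heq] with h a1 a2 a3
  rw [a3, a2, a1]

end fubini

section bounded

variable {E : Type*} [NormedAddCommGroup E] [InnerProductSpace ℝ E]

/-- A bounded injective reparametrisation commuting with isometries. -/
def squash (x : E) : E := (1 + ‖x‖)⁻¹ • x

theorem norm_squash (x : E) : ‖squash x‖ = ‖x‖ / (1 + ‖x‖) := by
  unfold squash
  have h : 0 < 1 + ‖x‖ := by positivity
  rw [norm_smul, norm_inv, Real.norm_of_nonneg h.le, div_eq_inv_mul]

theorem norm_squash_le (x : E) : ‖squash x‖ ≤ 1 := by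
  rw [norm_squash, div_le_one (by positivity)]
  linarith

theorem squash_map (A : E ≃ₗᵢ[ℝ] E) (x : E) : squash (A x) = A (squash x) := by
  unfold squash
  rw [LinearIsometryEquiv.norm_map, map_smul]

theorem squash_injective : Function.Injective (squash : E → E) := by
  intro x y hxy
  have h1 : ‖x‖ / (1 + ‖x‖) = ‖y‖ / (1 + ‖y‖) := by
    rw [← norm_squash, ← norm_squash, hxy]
  have hx : 0 < 1 + ‖x‖ := by positivity
  have hy : 0 < 1 + ‖y‖ := by positivity
  have h2 : ‖x‖ = ‖y‖ := by
    rw [div_eq_div_iff hx.ne' hy.ne'] at h1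
    linarith
  unfold squash at hxy
  rw [h2] at hxy
  exact smul_right_injective E (inv_ne_zero hy.ne') hxy

theorem continuous_squash : Continuous (squash : E → E) := by
  unfold squash
  refine Continuous.smul (Continuous.inv₀ (by fun_prop) ?_) continuous_id
  intro x
  positivity

end bounded

section slice

variable {H : Type*} [Group H] [TopologicalSpace H] [IsTopologicalGroup H] [T2Space H]
  [LocallyCompactSpace H] [SecondCountableTopology H] [MeasurableSpace H] [BorelSpace H]
  {μ : Measure H} [μ.IsMulLeftInvariant] [IsFiniteMeasureOnCompacts μ]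
  [μ.InnerRegularCompactLTTop]
variable {G₀ : Type*} [Group G₀] [MeasurableSpace G₀] [MeasurableMul G₀] {μ₀ : Measure G₀}
  [SFinite μ₀] [μ₀.IsMulLeftInvariant]
variable {E : Type*} [NormedAddCommGroup E] [InnerProductSpace ℝ E]

/-- **One slice of the kernel lemma.** -/
theorem slice_fixed (hμ₀ : μ₀ ≠ 0) (j : G₀ →* H) (hj : Measurable j)
    (hN : j.range.Normal) (hq : ∀ g : G₀, Measure.QuasiMeasurePreserving (· * j g) μ μ)
    {f : H → E} (hf : AEStronglyMeasurable f μ)
    (hinv : ∀ g : G₀, ∀ᵐ h ∂μ, f (h * j g) = f h) (A : E ≃ₗᵢ[ℝ] E)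
    (happ : ∀ O ∈ 𝓝 (1 : H), ∃ γ : H, (∀ᵐ h ∂μ, f (γ * h) = A (f h)) ∧
      ∃ o ∈ O, ∃ g : G₀, γ = o * j g) :
    ∀ᵐ h ∂μ, A (f h) = f h := by
  haveI : IsLocallyFiniteMeasure μ := inferInstance
  haveI : Fact ((2 : ℝ≥0∞) ≠ ∞) := ⟨by norm_num⟩
  set f' : H → E := fun h => squash (f h) with hf'
  have hf'm : AEStronglyMeasurable f' μ := continuous_squash.comp_aestronglyMeasurable hf
  suffices hs : ∀ᵐ h ∂μ, A (f' h) = f' h by
    filter_upwards [hs] with h hh
    apply squash_injective
    rw [squash_map]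
    exact hh
  -- it is enough to work on compact sets
  suffices hK : ∀ n, ∀ᵐ h ∂(μ.restrict (compactCovering H n)), A (f' h) = f' h by
    have h1 : ∀ᵐ h ∂(μ.restrict (⋃ n, compactCovering H n)), A (f' h) = f' h :=
      (ae_restrict_iUnion_iff _ _).2 hK
    rwa [iUnion_compactCovering, Measure.restrict_univ] at h1
  intro n
  set C := compactCovering H n with hC
  have hCc : IsCompact C := isCompact_compactCovering H n
  obtain ⟨K₁, hK₁c, hK₁⟩ := exists_compact_mem_nhds (1 : H)
  have hC'c : IsCompact (K₁ * C) := hK₁c.mul hCc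
  have hC'm : MeasurableSet (K₁ * C) := hC'c.isClosed.measurableSet
  have hC'fin : μ (K₁ * C) < ∞ := hC'c.measure_lt_top
  have hFmem : MemLp (Set.indicator (K₁ * C) f') 2 μ := by
    rw [memLp_indicator_iff_restrict hC'm]
    haveI : IsFiniteMeasure (μ.restrict (K₁ * C)) := ⟨by simpa using hC'fin⟩
    exact MemLp.of_bound hf'm.restrict 1 (Eventually.of_forall fun h => norm_squash_le _)
  set F : Lp E 2 μ := hFmem.toLp _ with hF
  have hFe : F =ᵐ[μ] Set.indicator (K₁ * C) f' := hFmem.coeFn_toLp
  have hcont : Tendsto (fun o : H => DomMulAct.mk o • F) (𝓝 1) (𝓝 F) := by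
    have h1 : Continuous fun o : H => DomMulAct.mk o • F := by
      have h2 : Continuous fun o : H => (DomMulAct.mk o : Hᵈᵐᵃ) := DomMulAct.continuous_mk
      exact h2.smul continuous_const
    have h3 := h1.tendsto 1
    simpa using h3
  have hzero : eLpNorm (fun h => A (f' h) - f' h) 2 (μ.restrict C) = 0 := by
    rw [← le_zero_iff]
    apply ENNReal.le_of_forall_pos_le_add
    intro ε hε _
    have h1 : ∀ᶠ o in 𝓝 (1 : H), ‖DomMulAct.mk o • F - F‖ < ε := by
      have h2 := (tendsto_iff_norm_sub_tendsto_zero.1 hcont)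
      exact (tendsto_order.1 h2).2 _ (by exact_mod_cast hε)
    obtain ⟨γ, hγ, o, ho, g, hog⟩ := happ _ (Filter.inter_mem h1 hK₁)
    have ho1 : ‖DomMulAct.mk o • F - F‖ < ε := ho.1
    have ho2 : o ∈ K₁ := ho.2
    rw [zero_add]
    have hγ' : ∀ᵐ h ∂μ, f (o * h) = A (f h) := by
      have hz : o * j g * o⁻¹ ∈ j.range := hN.conj_mem _ ⟨g, rfl⟩ o
      have h3 := ae_mul_left_of_normal hμ₀ j hj hN hq hf hinv hz
      have h4 := (measurePreserving_mul_left μ o).quasiMeasurePreserving.ae h3
      filter_upwards [hγ, h4] with h a1 a2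
      rw [← a1, hog, ← a2]
      congr 1
      group
    have h5 : eLpNorm (fun h => A (f' h) - f' h) 2 (μ.restrict C) ≤
        eLpNorm (DomMulAct.mk o • F - F : Lp E 2 μ) 2 μ := by
      calc eLpNorm (fun h => A (f' h) - f' h) 2 (μ.restrict C)
          = eLpNorm (DomMulAct.mk o • F - F : Lp E 2 μ) 2 (μ.restrict C) := by
            apply eLpNorm_congr_ae
            rw [Filter.EventuallyEq, ae_restrict_iff' hCc.isClosed.measurableSet]
            have e1 := DomMulAct.smul_Lp_ae_eq (DomMulAct.mk o) F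
            have e2 := (measurePreserving_mul_left μ o).quasiMeasurePreserving.ae hFe
            have e3 := Lp.coeFn_sub (DomMulAct.mk o • F) F
            filter_upwards [e1, e2, e3, hFe, hγ'] with h a1 a2 a3 a4 a5 hhC
            rw [a3, Pi.sub_apply, a1, a4]
            have a6 : F ((DomMulAct.mk.symm (DomMulAct.mk o)) • h) = F (o * h) := rfl
            rw [a6, a2]
            have m1 : h ∈ K₁ * C := ⟨1, mem_of_mem_nhds hK₁, h, hhC, one_mul h⟩
            have m2 : o * h ∈ K₁ * C := ⟨o, ho2, h, hhC, rfl⟩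
            rw [Set.indicator_of_mem m1, Set.indicator_of_mem m2]
            simp only [hf']
            rw [a5, squash_map]
        _ ≤ eLpNorm (DomMulAct.mk o • F - F : Lp E 2 μ) 2 μ :=
            eLpNorm_mono_measure _ Measure.restrict_le_self
    refine h5.trans ?_
    rw [← Lp.enorm_def, ← ofReal_norm]
    exact ENNReal.ofReal_le_of_le_toReal (by simpa using ho1.le)
  have hmeas : AEStronglyMeasurable (fun h => A (f' h) - f' h) (μ.restrict C) :=
    ((A.continuous.comp_aestronglyMeasurable hf'm).sub hf'm).restrict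
  rw [eLpNorm_eq_zero_iff hmeas (by norm_num)] at hzero
  filter_upwards [hzero] with h hh
  exact sub_eq_zero.1 hh

end slice

end

end Vale.Agent.P011.H219
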