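import Mathlib

/-!
# Means (positive normalised functionals on bounded functions)
-/

open scoped InnerProductSpace

namespace Vale.Agent.P011.H219

noncomputable section

/-- Bounded real functions. -/
def Bd {X : Type*} (f : X → ℝ) : Prop := ∃ C, ∀ x, |f x| ≤ C

/-- Bounded complex functions. -/
def BdC {X : Type*} (f : X → ℂ) : Prop := ∃ C : ℝ, ∀ x, ‖f x‖ ≤ C

/-- A mean: a positive normalised functional on bounded functions. -/
structure Mn {X : Type*} (m : (X → ℝ) → ℝ) : Prop where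
  add : ∀ f g, Bd f → Bd g → m (f + g) = m f + m g
  smul : ∀ (c : ℝ) f, Bd f → m (c • f) = c * m f
  nonneg : ∀ f, Bd f → (∀ x, 0 ≤ f x) → 0 ≤ m f
  one : m (fun _ => 1) = 1

section bd

variable {X : Type*}

theorem Bd.add {f g : X → ℝ} (hf : Bd f) (hg : Bd g) : Bd (f + g) := by
  obtain ⟨C, hC⟩ := hf
  obtain ⟨D, hD⟩ := hg
  exact ⟨C + D, fun x => (abs_add_le _ _).trans (add_le_add (hC x) (hD x))⟩

theorem Bd.smul {f : X → ℝ} (c : ℝ) (hf : Bd f) : Bd (c • f) := by
  obtain ⟨C, hC⟩ := hf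
  refine ⟨|c| * C, fun x => ?_⟩
  rw [Pi.smul_apply, smul_eq_mul, abs_mul]
  exact mul_le_mul_of_nonneg_left (hC x) (abs_nonneg c)

theorem Bd.neg {f : X → ℝ} (hf : Bd f) : Bd (-f) := by
  obtain ⟨C, hC⟩ := hf
  exact ⟨C, fun x => by rw [Pi.neg_apply, abs_neg]; exact hC x⟩

theorem Bd.sub {f g : X → ℝ} (hf : Bd f) (hg : Bd g) : Bd (f - g) := by
  rw [sub_eq_add_neg]; exact hf.add hg.neg

theorem Bd.const (c : ℝ) : Bd fun _ : X => c := ⟨|c|, fun _ => le_rfl⟩

theorem Bd.mul {f g : X → ℝ} (hf : Bd f) (hg : Bd g) : Bd fun x => f x * g x := by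
  obtain ⟨C, hC⟩ := hf
  obtain ⟨D, hD⟩ := hg
  refine ⟨C * D, fun x => ?_⟩
  rw [abs_mul]
  exact mul_le_mul (hC x) (hD x) (abs_nonneg _) ((abs_nonneg _).trans (hC x))

theorem Bd.pow {f : X → ℝ} (hf : Bd f) (n : ℕ) : Bd fun x => f x ^ n := by
  obtain ⟨C, hC⟩ := hf
  refine ⟨C ^ n, fun x => ?_⟩
  rw [abs_pow]
  exact pow_le_pow_left₀ (abs_nonneg _) (hC x) n

theorem Bd.of_nonneg_le {f g : X → ℝ} (hg : Bd g) (h0 : ∀ x, 0 ≤ f x) (h : ∀ x, f x ≤ g x) :
    Bd f := by
  obtain ⟨C, hC⟩ := hg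
  exact ⟨C, fun x => by rw [abs_of_nonneg (h0 x)]; exact (h x).trans ((le_abs_self _).trans (hC x))⟩

theorem Bd.sum {ι : Type*} {f : ι → X → ℝ} (s : Finset ι) (h : ∀ i ∈ s, Bd (f i)) :
    Bd fun x => ∑ i ∈ s, f i x := by
  classical
  induction s using Finset.induction_on with
  | empty => simpa using Bd.const (X := X) 0
  | insert i s hi ih =>
    have h1 := ih fun j hj => h j (Finset.mem_insert_of_mem hj)
    have h2 := (h i (Finset.mem_insert_self i s)).add h1
    refine (iff_of_eq (congrArg Bd ?_)).1 h2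
    funext x
    rw [Finset.sum_insert hi]
    rfl

theorem BdC.re {f : X → ℂ} (hf : BdC f) : Bd fun x => (f x).re := by
  obtain ⟨C, hC⟩ := hf
  exact ⟨C, fun x => (Complex.abs_re_le_norm _).trans (hC x)⟩

theorem BdC.im {f : X → ℂ} (hf : BdC f) : Bd fun x => (f x).im := by
  obtain ⟨C, hC⟩ := hf
  exact ⟨C, fun x => (Complex.abs_im_le_norm _).trans (hC x)⟩

theorem BdC.norm {f : X → ℂ} (hf : BdC f) : Bd fun x => ‖f x‖ := by
  obtain ⟨C, hC⟩ := hf
  exact ⟨C, fun x => by rw [abs_norm]; exact hC x⟩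

theorem BdC.add {f g : X → ℂ} (hf : BdC f) (hg : BdC g) : BdC fun x => f x + g x := by
  obtain ⟨C, hC⟩ := hf
  obtain ⟨D, hD⟩ := hg
  exact ⟨C + D, fun x => (norm_add_le _ _).trans (add_le_add (hC x) (hD x))⟩

theorem BdC.mul {f g : X → ℂ} (hf : BdC f) (hg : BdC g) : BdC fun x => f x * g x := by
  obtain ⟨C, hC⟩ := hf
  obtain ⟨D, hD⟩ := hg
  refine ⟨C * D, fun x => ?_⟩
  rw [norm_mul]
  exact mul_le_mul (hC x) (hD x) (norm_nonneg _) ((norm_nonneg _).trans (hC x))

theorem BdC.const_mul {f : X → ℂ} (c : ℂ) (hf : BdC f) : BdC fun x => c * f x :=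
  BdC.mul ⟨‖c‖, fun _ => le_rfl⟩ hf

end bd

namespace Mn

variable {X : Type*} {m : (X → ℝ) → ℝ}

theorem const (h : Mn m) (c : ℝ) : m (fun _ => c) = c := by
  have h1 := h.smul c (fun _ => 1) (Bd.const 1)
  rw [h.one, mul_one] at h1
  have h2 : (fun _ : X => c) = c • fun _ : X => (1 : ℝ) := by
    funext x
    simp
  rw [h2]
  exact h1

theorem zero (h : Mn m) : m (fun _ => 0) = 0 := h.const 0

theorem neg (h : Mn m) {f : X → ℝ} (hf : Bd f) : m (-f) = - m f := by
  have := h.smul (-1) f hf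
  rwa [neg_one_smul, neg_one_mul] at this

theorem sub (h : Mn m) {f g : X → ℝ} (hf : Bd f) (hg : Bd g) : m (f - g) = m f - m g := by
  rw [sub_eq_add_neg, h.add _ _ hf hg.neg, h.neg hg, ← sub_eq_add_neg]

theorem mono (h : Mn m) {f g : X → ℝ} (hf : Bd f) (hg : Bd g) (hfg : ∀ x, f x ≤ g x) :
    m f ≤ m g := by
  have h1 := h.nonneg (g - f) (hg.sub hf) (fun x => sub_nonneg.2 (hfg x))
  rw [h.sub hg hf] at h1
  linarith

theorem abs_le (h : Mn m) {f : X → ℝ} (hf : Bd f) : |m f| ≤ m fun x => |f x| := by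
  have hf' : Bd fun x => |f x| := by
    obtain ⟨C, hC⟩ := hf
    exact ⟨C, fun x => by rw [abs_abs]; exact hC x⟩
  rw [_root_.abs_le]
  constructor
  · rw [neg_le, ← h.neg hf]
    exact h.mono hf.neg hf' fun x => neg_le_abs _
  · exact h.mono hf hf' fun x => le_abs_self _

theorem le_const (h : Mn m) {f : X → ℝ} (hf : Bd f) {C : ℝ} (hC : ∀ x, f x ≤ C) : m f ≤ C := by
  have := h.mono hf (Bd.const C) hC
  rwa [h.const] at this

theorem sum (h : Mn m) {ι : Type*} {f : ι → X → ℝ} (s : Finset ι) (hf : ∀ i ∈ s, Bd (f i)) :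
    m (fun x => ∑ i ∈ s, f i x) = ∑ i ∈ s, m (f i) := by
  classical
  induction s using Finset.induction_on with
  | empty => simpa using h.zero
  | insert i s hi ih =>
    have h1 := h.add (f i) (fun x => ∑ j ∈ s, f j x) (hf i (Finset.mem_insert_self i s))
      (Bd.sum s fun j hj => hf j (Finset.mem_insert_of_mem hj))
    rw [Finset.sum_insert hi, ← ih fun j hj => hf j (Finset.mem_insert_of_mem hj), ← h1]
    congr 1
    funext x
    rw [Finset.sum_insert hi]
    rfl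

/-- Jensen (Cauchy-Schwarz). -/
theorem sq_le (h : Mn m) {f : X → ℝ} (hf : Bd f) : m f ^ 2 ≤ m fun x => f x ^ 2 := by
  set t := m f with ht
  have h1 := h.nonneg (fun x => (f x - t) ^ 2) ((hf.sub (Bd.const t)).pow 2)
    (fun x => sq_nonneg _)
  have h2 : (fun x => (f x - t) ^ 2) = (fun x => f x ^ 2) + ((-2 * t) • f + fun _ => t ^ 2) := by
    funext x
    simp only [Pi.add_apply, Pi.smul_apply, smul_eq_mul]
    ring
  rw [h2, h.add _ _ (hf.pow 2) ((hf.smul _).add (Bd.const _)),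
    h.add _ _ (hf.smul _) (Bd.const _), h.smul _ _ hf, h.const, ← ht] at h1
  linarith

theorem eq_zero_of_sq (h : Mn m) {f : X → ℝ} (hf : Bd f) (h0 : m (fun x => f x ^ 2) = 0) :
    m f = 0 := by
  have := h.sq_le hf
  rw [h0] at this
  exact pow_eq_zero_iff (two_ne_zero) |>.1 (le_antisymm this (sq_nonneg _))

end Mn

/-- The complex mean. -/
def mc {X : Type*} (m : (X → ℝ) → ℝ) (f : X → ℂ) : ℂ :=
  (m fun x => (f x).re : ℝ) + (m fun x => (f x).im : ℝ) * Complex.I

section cplx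

variable {X : Type*} {m : (X → ℝ) → ℝ}

theorem mc_re (f : X → ℂ) : (mc m f).re = m fun x => (f x).re := by simp [mc]

theorem mc_im (f : X → ℂ) : (mc m f).im = m fun x => (f x).im := by simp [mc]

theorem mc_add (h : Mn m) {f g : X → ℂ} (hf : BdC f) (hg : BdC g) :
    mc m (fun x => f x + g x) = mc m f + mc m g := by
  apply Complex.ext
  · rw [Complex.add_re, mc_re, mc_re, mc_re, ← h.add _ _ hf.re hg.re]
    rfl
  · rw [Complex.add_im, mc_im, mc_im, mc_im, ← h.add _ _ hf.im hg.im]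
    rfl

theorem mc_mul (h : Mn m) (c : ℂ) {f : X → ℂ} (hf : BdC f) :
    mc m (fun x => c * f x) = c * mc m f := by
  apply Complex.ext
  · rw [Complex.mul_re, mc_re, mc_re, mc_im]
    have h1 : (fun x => (c * f x).re) = c.re • (fun x => (f x).re) - c.im • fun x => (f x).im := by
      funext x
      simp [Complex.mul_re]
    rw [h1, h.sub (hf.re.smul _) (hf.im.smul _), h.smul _ _ hf.re, h.smul _ _ hf.im]
  · rw [Complex.mul_im, mc_im, mc_re, mc_im]
    have h1 : (fun x => (c * f x).im) = c.re • (fun x => (f x).im) + c.im • fun x => (f x).re := by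
      funext x
      simp [Complex.mul_im]
    rw [h1, h.add _ _ (hf.im.smul _) (hf.re.smul _), h.smul _ _ hf.re, h.smul _ _ hf.im]

theorem mc_conj (h : Mn m) {f : X → ℂ} (hf : BdC f) :
    mc m (fun x => starRingEnd ℂ (f x)) = starRingEnd ℂ (mc m f) := by
  apply Complex.ext
  · rw [Complex.conj_re, mc_re, mc_re]
    simp
  · rw [Complex.conj_im, mc_im, mc_im, ← h.neg hf.im]
    congr 1

theorem norm_mc_le (h : Mn m) {f : X → ℂ} (hf : BdC f) : ‖mc m f‖ ≤ m fun x => ‖f x‖ := by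
  by_cases h0 : mc m f = 0
  · rw [h0, norm_zero]
    exact h.nonneg _ hf.norm fun x => norm_nonneg _
  set u : ℂ := starRingEnd ℂ (mc m f) / ‖mc m f‖ with hu
  have hn : (‖mc m f‖ : ℂ) ≠ 0 := by
    simpa using h0
  have hu1 : ‖u‖ = 1 := by
    rw [hu, norm_div, RCLike.norm_conj, Complex.norm_real, norm_norm, div_self]
    simpa using h0
  have h1 : u * mc m f = ‖mc m f‖ := by
    rw [hu, div_mul_eq_mul_div, ← Complex.normSq_eq_conj_mul_self, Complex.normSq_eq_norm_sq]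
    push_cast
    field_simp
  have h2 : (mc m fun x => u * f x).re = ‖mc m f‖ := by
    rw [mc_mul h u hf, h1, Complex.ofReal_re]
  rw [← h2, mc_re]
  refine h.mono (hf.const_mul u).re hf.norm fun x => ?_
  refine (Complex.re_le_norm _).trans ?_
  rw [norm_mul, hu1, one_mul]

theorem mc_norm_sq (h : Mn m) (f : X → ℂ) :
    mc m (fun x => starRingEnd ℂ (f x) * f x) = (m fun x => ‖f x‖ ^ 2 : ℝ) := by
  have h1 : (fun x => starRingEnd ℂ (f x) * f x) = fun x => ((‖f x‖ ^ 2 : ℝ) : ℂ) := by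
    funext x
    rw [← Complex.normSq_eq_conj_mul_self, Complex.normSq_eq_norm_sq]
  rw [h1]
  apply Complex.ext
  · rw [mc_re, Complex.ofReal_re]
    simp only [Complex.ofReal_re]
  · rw [mc_im, Complex.ofReal_im]
    simp only [Complex.ofReal_im]
    exact h.zero

end cplx

end

end Vale.Agent.P011.H219
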