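import Vale.Agent.P011.H219.MeanApi

/-!
# Weakly mixing vectors: the linear case

`τ : k → unitary operators` additive, `m` a translation invariant mean on `k`, `x` orthogonal to
all common eigenvectors of `τ`.  Then `m (b ↦ |⟨τ b x, z⟩|²) = 0` for all `z`.
-/

open scoped InnerProductSpace
open Module Filter Topology

namespace Vale.Agent.P011.H219

noncomputable section

section hs

variable {H G : Type*} [NormedAddCommGroup H] [InnerProductSpace ℂ H]
  [NormedAddCommGroup G] [NormedSpace ℂ G] [CompleteSpace G]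

/-- An operator `S` with `‖S g‖² ≤ Q g` whose sums over finite orthonormal families are bounded is
compact. -/
theorem compact_of_hs (S : H →L[ℂ] G) (Q : H → ℝ) (C : ℝ) (hQ : ∀ g, ‖S g‖ ^ 2 ≤ Q g)
    (hC : ∀ (n : ℕ) (f : Fin n → H), Orthonormal ℂ f → ∑ j, Q (f j) ≤ C) :
    IsCompactOperator S := by
  have key : ∀ ε : ℝ, 0 < ε → ∃ P : H →L[ℂ] G, IsCompactOperator P ∧ ‖S - P‖ ≤ ε := by
    intro ε hε
    set A : Set ℝ := {x | ∃ (n : ℕ) (f : Fin n → H), Orthonormal ℂ f ∧ x = ∑ j, Q (f j)} with hA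
    have hne : A.Nonempty := ⟨0, 0, Fin.elim0, ⟨fun i => i.elim0, fun i => i.elim0⟩, by simp⟩
    have hbd : BddAbove A := ⟨C, by rintro x ⟨n, f, hf, rfl⟩; exact hC n f hf⟩
    obtain ⟨x, ⟨n, f, hf, rfl⟩, hx⟩ := exists_lt_of_lt_csSup hne
      (show sSup A - ε ^ 2 / 2 < sSup A by nlinarith [sq_pos_of_pos hε])
    let V : Submodule ℂ H := Submodule.span ℂ (Set.range f)
    have hfin : FiniteDimensional ℂ V := FiniteDimensional.span_of_finite ℂ (Set.finite_range f)
    have hsmall : ∀ g ∈ Vᗮ, ‖S g‖ ≤ ε * ‖g‖ := by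
      intro g hg
      by_cases hg0 : g = 0
      · rw [hg0, map_zero, norm_zero, norm_zero, mul_zero]
      have hgn : 0 < ‖g‖ := norm_pos_iff.2 hg0
      set e : H := ((‖g‖⁻¹ : ℝ) : ℂ) • g with he
      have he1 : ‖e‖ = 1 := by
        rw [he, norm_smul, Complex.norm_real, norm_inv, norm_norm, inv_mul_cancel₀ hgn.ne']
      have heo : ∀ j, inner ℂ (f j) e = 0 := by
        intro j
        have h1 := (Submodule.mem_orthogonal V g).1 hg (f j) (Submodule.subset_span ⟨j, rfl⟩)
        rw [he, inner_smul_right, h1, mul_zero]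
      have hon : Orthonormal ℂ (Fin.snoc f e : Fin (n + 1) → H) := by
        constructor
        · intro i
          refine Fin.lastCases ?_ (fun j => ?_) i
          · rw [Fin.snoc_last]; exact he1
          · rw [Fin.snoc_castSucc]; exact hf.1 j
        · intro i j hij
          revert hij
          refine Fin.lastCases ?_ (fun i' => ?_) i
          · refine Fin.lastCases ?_ (fun j' => ?_) j
            · intro hij; exact absurd rfl hij
            · intro _
              rw [Fin.snoc_last, Fin.snoc_castSucc, ← inner_conj_symm, heo j', map_zero]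
          · refine Fin.lastCases ?_ (fun j' => ?_) j
            · intro _
              rw [Fin.snoc_last, Fin.snoc_castSucc]
              exact heo i'
            · intro hij
              rw [Fin.snoc_castSucc, Fin.snoc_castSucc]
              exact hf.2 fun hh => hij (by rw [hh])
      have h2 : ∑ j, Q ((Fin.snoc f e : Fin (n + 1) → H) j) ≤ sSup A :=
        le_csSup hbd ⟨n + 1, Fin.snoc f e, hon, rfl⟩
      rw [Fin.sum_univ_castSucc] at h2
      simp only [Fin.snoc_castSucc, Fin.snoc_last] at h2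
      have h3 : ‖S e‖ ^ 2 < ε ^ 2 := by
        have h6 := hQ e
        nlinarith [sq_pos_of_pos hε]
      have h4 : ‖S e‖ < ε := lt_of_pow_lt_pow_left₀ 2 hε.le h3
      have h5 : ‖S g‖ = ‖g‖ * ‖S e‖ := by
        rw [he, map_smul, norm_smul, Complex.norm_real, norm_inv, norm_norm, ← mul_assoc,
          mul_inv_cancel₀ hgn.ne', one_mul]
      rw [h5, mul_comm]
      exact mul_le_mul_of_nonneg_right h4.le hgn.le
    refine ⟨S.comp V.starProjection, ?_, ?_⟩
    · have hloc : ProperSpace V := FiniteDimensional.proper ℂ V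
      have h1 : IsCompactOperator (V.orthogonalProjectionOnto : H → V) :=
        isCompactOperator_of_locallyCompactSpace_dom (V.orthogonalProjectionOnto)
      have h2 := h1.clm_comp (S.comp V.subtypeL)
      exact h2
    · refine ContinuousLinearMap.opNorm_le_bound _ hε.le fun x => ?_
      have h1 : (S - S.comp V.starProjection) x = S (x - V.starProjection x) := by
        rw [map_sub]; rfl
      rw [h1]
      refine (hsmall _ (V.sub_starProjection_mem_orthogonal x)).trans ?_
      refine mul_le_mul_of_nonneg_left ?_ hε.le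
      have h2 : x - V.starProjection x = Vᗮ.starProjection x := by
        rw [Submodule.starProjection_orthogonal_val]
      rw [h2]
      exact Submodule.norm_starProjection_apply_le _ _
  choose P hP1 hP2 using fun n : ℕ => key (1 / ((n : ℝ) + 1)) (by positivity)
  refine isCompactOperator_of_tendsto (l := atTop) (F := P) ?_ (Eventually.of_forall hP1)
  rw [tendsto_iff_norm_sub_tendsto_zero]
  refine squeeze_zero (fun n => norm_nonneg _) (fun n => ?_) tendsto_one_div_add_atTop_nhds_zero_nat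
  rw [norm_sub_rev]
  exact hP2 n

end hs

section common

variable {H : Type*} [AddCommGroup H] [Module ℂ H] {ι : Type*}

/-- Commuting operators on a nonzero finite dimensional complex space have a common
eigenvector. -/
theorem exists_common_eigenvector (T : ι → H →ₗ[ℂ] H)
    (hcomm : ∀ i j x, T i (T j x) = T j (T i x)) :
    ∀ (n : ℕ) (V : Submodule ℂ H), FiniteDimensional ℂ V → finrank ℂ V = n → V ≠ ⊥ →
      (∀ i, ∀ x ∈ V, T i x ∈ V) → ∃ y ∈ V, y ≠ 0 ∧ ∀ i, ∃ c : ℂ, T i y = c • y := by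
  intro n
  induction n using Nat.strong_induction_on with
  | _ n ih =>
    intro V hV hn hne hst
    by_cases hall : ∀ i, ∃ c : ℂ, ∀ x ∈ V, T i x = c • x
    · obtain ⟨y, hy, hy0⟩ := (Submodule.ne_bot_iff V).1 hne
      exact ⟨y, hy, hy0, fun i => (hall i).imp fun c hc => hc y hy⟩
    · push Not at hall
      obtain ⟨i, hi⟩ := hall
      haveI : Nontrivial V := (Submodule.nontrivial_iff_ne_bot).2 hne
      obtain ⟨c, hc⟩ := Module.End.exists_eigenvalue ((T i).restrict (hst i))
      obtain ⟨v, hv⟩ := hc.exists_hasEigenvector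
      have hv1 : T i (v : H) = c • (v : H) := by
        have := hv.apply_eq_smul
        exact congrArg Subtype.val this
      let V' : Submodule ℂ H :=
        { carrier := {x | x ∈ V ∧ T i x = c • x}
          zero_mem' := ⟨V.zero_mem, by simp⟩
          add_mem' := fun {a b} ha hb => ⟨V.add_mem ha.1 hb.1, by
            rw [map_add, ha.2, hb.2, smul_add]⟩
          smul_mem' := fun r a ha => ⟨V.smul_mem r ha.1, by
            rw [map_smul, ha.2, smul_comm]⟩ }
      have hle : V' ≤ V := fun x hx => hx.1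
      have hlt : V' < V := by
        refine lt_of_le_of_ne hle fun h => ?_
        obtain ⟨x, hx, hxc⟩ := hi c
        have : x ∈ V' := by rw [h]; exact hx
        exact hxc this.2
      have hV' : FiniteDimensional ℂ V' := Submodule.finiteDimensional_of_le hle
      have hlt' : finrank ℂ V' < n := by
        rw [← hn]; exact Submodule.finrank_lt_finrank_of_lt hlt
      obtain ⟨y, hy, hy0, hyc⟩ := ih _ hlt' V' hV' rfl (by
        rw [Submodule.ne_bot_iff]
        refine ⟨v, ⟨v.2, hv1⟩, ?_⟩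
        have := hv.2
        simpa using this) (by
        intro j x hx
        refine ⟨hst j x hx.1, ?_⟩
        rw [hcomm, hx.2, map_smul])
      exact ⟨y, hy.1, hy0, hyc⟩

end common

section linear

variable {k : Type*} [AddCommGroup k] {m : (k → ℝ) → ℝ}
variable {H : Type*} [NormedAddCommGroup H] [InnerProductSpace ℂ H] [CompleteSpace H]
variable {τ : k → H ≃ₗᵢ[ℂ] H}

theorem bdC_inner (x z : H) : BdC fun b : k => ⟪τ b x, z⟫_ℂ :=
  ⟨‖x‖ * ‖z‖, fun b => by
    refine (norm_inner_le_norm _ _).trans ?_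
    rw [LinearIsometryEquiv.norm_map]⟩

theorem bdC_inner' (x z : H) : BdC fun b : k => ⟪z, τ b x⟫_ℂ :=
  ⟨‖z‖ * ‖x‖, fun b => by
    refine (norm_inner_le_norm _ _).trans ?_
    rw [LinearIsometryEquiv.norm_map]⟩

/-- The sesquilinear form `mean_b ⟨v, τ_b x⟩⟨τ_b x, w⟩`. -/
def mform (m : (k → ℝ) → ℝ) (τ : k → H ≃ₗᵢ[ℂ] H) (x v w : H) : ℂ :=
  mc m fun b => ⟪v, τ b x⟫_ℂ * ⟪τ b x, w⟫_ℂ

theorem mform_bd (x v w : H) : BdC fun b : k => ⟪v, τ b x⟫_ℂ * ⟪τ b x, w⟫_ℂ :=
  (bdC_inner' x v).mul (bdC_inner x w)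

theorem norm_mform_le (h : Mn m) (x v w : H) :
    ‖mform m τ x v w‖ ≤ ‖x‖ * ‖w‖ * m fun b => ‖⟪τ b x, v⟫_ℂ‖ := by
  refine (norm_mc_le h (mform_bd x v w)).trans ?_
  rw [← h.smul _ _ (bdC_inner x v).norm]
  refine h.mono (mform_bd x v w).norm ((bdC_inner x v).norm.smul _) fun b => ?_
  rw [Pi.smul_apply, smul_eq_mul, norm_mul, norm_inner_symm v, mul_comm]
  refine mul_le_mul_of_nonneg_right ?_ (norm_nonneg _)
  refine (norm_inner_le_norm _ _).trans ?_
  rw [LinearIsometryEquiv.norm_map]

/-- The operator of the form. -/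
def mop (h : Mn m) (τ : k → H ≃ₗᵢ[ℂ] H) (x : H) : H →L[ℂ] H :=
  InnerProductSpace.continuousLinearMapOfBilin
    (LinearMap.mkContinuous₂
      (LinearMap.mk₂'ₛₗ (starRingEnd ℂ) (RingHom.id ℂ) (mform m τ x)
        (by
          intro v₁ v₂ w
          unfold mform
          rw [← mc_add h (mform_bd x v₁ w) (mform_bd x v₂ w)]
          simp only [inner_add_left, add_mul])
        (by
          intro c v w
          unfold mform
          rw [smul_eq_mul, ← mc_mul h _ (mform_bd x v w)]
          simp only [inner_smul_left, mul_assoc])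
        (by
          intro v w₁ w₂
          unfold mform
          rw [← mc_add h (mform_bd x v w₁) (mform_bd x v w₂)]
          simp only [inner_add_right, mul_add])
        (by
          intro c v w
          unfold mform
          rw [RingHom.id_apply, smul_eq_mul, ← mc_mul h _ (mform_bd x v w)]
          simp only [inner_smul_right]
          congr 1
          funext b
          ring)) (‖x‖ ^ 2) (by
        intro v w
        rw [LinearMap.mk₂'ₛₗ_apply]
        refine (norm_mform_le h x v w).trans ?_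
        have h1 : (m fun b => ‖⟪τ b x, v⟫_ℂ‖) ≤ ‖x‖ * ‖v‖ := by
          refine h.le_const (bdC_inner x v).norm fun b => ?_
          refine (norm_inner_le_norm _ _).trans ?_
          rw [LinearIsometryEquiv.norm_map]
        calc ‖x‖ * ‖w‖ * (m fun b => ‖⟪τ b x, v⟫_ℂ‖) ≤ ‖x‖ * ‖w‖ * (‖x‖ * ‖v‖) := by
              gcongr
          _ = ‖x‖ ^ 2 * ‖v‖ * ‖w‖ := by ring))

theorem mop_inner (h : Mn m) (x v w : H) : ⟪mop h τ x v, w⟫_ℂ = mform m τ x v w := by
  unfold mop
  rw [InnerProductSpace.continuousLinearMapOfBilin_apply]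
  rfl

theorem mform_symm (h : Mn m) (x v w : H) :
    starRingEnd ℂ (mform m τ x v w) = mform m τ x w v := by
  unfold mform
  rw [← mc_conj h (mform_bd x v w)]
  congr 1
  funext b
  rw [map_mul, inner_conj_symm, inner_conj_symm, mul_comm]

theorem mform_self (h : Mn m) (x v : H) :
    mform m τ x v v = (m fun b => ‖⟪τ b x, v⟫_ℂ‖ ^ 2 : ℝ) := by
  unfold mform
  rw [← mc_norm_sq h]
  congr 1
  funext b
  rw [inner_conj_symm]

/-- **The linear case.** -/
theorem mean_linear (h : Mn m) (hinv : ∀ (b : k) f, Bd f → (m fun x => f (x + b)) = m f)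
    (hτ : ∀ a b x, τ (a + b) x = τ a (τ b x)) {x : H}
    (hx : ∀ y, (∀ b, ∃ c : ℂ, τ b y = c • y) → ⟪y, x⟫_ℂ = 0) (z : H) :
    (m fun b => ‖⟪τ b x, z⟫_ℂ‖ ^ 2) = 0 := by
  set S := mop h τ x with hS
  have hτneg : ∀ a v w, ⟪τ a v, w⟫_ℂ = ⟪v, τ (-a) w⟫_ℂ := by
    intro a v w
    have h0 : τ 0 w = w := by
      have h1 := hτ 0 0 w
      rw [add_zero] at h1
      exact ((τ 0).injective h1).symm
    have h1 : w = τ a (τ (-a) w) := by
      rw [← hτ, add_neg_cancel, h0]
    conv_lhs => rw [h1]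
    exact (τ a).inner_map_map _ _
  have hcomm' : ∀ a b v, τ a (τ b v) = τ b (τ a v) := by
    intro a b v
    rw [← hτ, ← hτ, add_comm]
  -- commutation
  have hcomm : ∀ a v, S (τ a v) = τ a (S v) := by
    intro a v
    refine ext_inner_right ℂ fun w => ?_
    rw [hS, mop_inner, hτneg, mop_inner]
    unfold mform
    have h1 : ∀ f : k → ℂ, BdC f → mc m (fun b => f (b + a)) = mc m f := by
      intro f hf
      apply Complex.ext
      · rw [mc_re, mc_re]
        exact hinv a _ hf.re
      · rw [mc_im, mc_im]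
        exact hinv a _ hf.im
    have h2 := h1 (fun b => ⟪τ a v, τ b x⟫_ℂ * ⟪τ b x, w⟫_ℂ) (mform_bd x _ _)
    rw [← h2]
    congr 1
    funext b
    have e1 : ⟪τ a v, τ (b + a) x⟫_ℂ = ⟪v, τ b x⟫_ℂ := by
      rw [add_comm, hτ]
      exact (τ a).inner_map_map _ _
    have e2 : ⟪τ (b + a) x, w⟫_ℂ = ⟪τ b x, τ (-a) w⟫_ℂ := by
      rw [add_comm, hτ, hτneg]
    rw [e1, e2]
  have hsymm : (S : H →ₗ[ℂ] H).IsSymmetric := by
    intro v w
    show ⟪S v, w⟫_ℂ = ⟪v, S w⟫_ℂ
    rw [← inner_conj_symm v, hS, mop_inner, mop_inner, mform_symm h]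
  -- Hilbert-Schmidt
  have hsq : ∀ v, ‖S v‖ ^ 2 ≤ ‖x‖ ^ 2 * m fun b => ‖⟪τ b x, v⟫_ℂ‖ ^ 2 := by
    intro v
    set t := m fun b => ‖⟪τ b x, v⟫_ℂ‖ with ht
    have ht0 : 0 ≤ t := h.nonneg _ (bdC_inner x v).norm fun b => norm_nonneg _
    have h1 : ‖S v‖ ^ 2 ≤ ‖x‖ * ‖S v‖ * t := by
      have h2 : ((‖S v‖ ^ 2 : ℝ) : ℂ) = ⟪S v, S v⟫_ℂ := by
        rw [inner_self_eq_norm_sq_to_K]
        norm_cast
      have h3 : ‖S v‖ ^ 2 = ‖⟪S v, S v⟫_ℂ‖ := by
        rw [← h2, Complex.norm_real, Real.norm_of_nonneg (sq_nonneg _)]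
      rw [h3]
      conv_lhs => rw [hS, mop_inner]
      exact norm_mform_le h x v (S v)
    have h2 : ‖S v‖ ≤ ‖x‖ * t := by
      by_cases hv : ‖S v‖ = 0
      · rw [hv]; positivity
      · have hpos : 0 < ‖S v‖ := lt_of_le_of_ne (norm_nonneg _) (Ne.symm hv)
        refine le_of_mul_le_mul_left ?_ hpos
        nlinarith
    calc ‖S v‖ ^ 2 ≤ (‖x‖ * t) ^ 2 := pow_le_pow_left₀ (norm_nonneg _) h2 2
      _ = ‖x‖ ^ 2 * t ^ 2 := by ring
      _ ≤ ‖x‖ ^ 2 * m fun b => ‖⟪τ b x, v⟫_ℂ‖ ^ 2 := by
          gcongr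
          exact h.sq_le (bdC_inner x v).norm
  have hcomp : IsCompactOperator S := by
    refine compact_of_hs S (fun v => ‖x‖ ^ 2 * m fun b => ‖⟪τ b x, v⟫_ℂ‖ ^ 2)
      (‖x‖ ^ 2 * ‖x‖ ^ 2) hsq ?_
    intro n f hf
    rw [← Finset.mul_sum]
    refine mul_le_mul_of_nonneg_left ?_ (by positivity)
    rw [← h.sum Finset.univ fun j _ => (bdC_inner x (f j)).norm.pow 2]
    refine h.le_const (Bd.sum _ fun j _ => (bdC_inner x (f j)).norm.pow 2) fun b => ?_
    have h1 := hf.sum_inner_products_le (τ b x) (s := Finset.univ)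
    rw [LinearIsometryEquiv.norm_map] at h1
    refine le_trans (le_of_eq ?_) h1
    refine Finset.sum_congr rfl fun j _ => ?_
    rw [norm_inner_symm]
  have hzero : S = 0 := by
    rw [← ContinuousLinearMap.eq_zero_of_forall_hasEigenvalue_eq_zero hcomp hsymm]
    intro μ hμ
    by_contra hμ0
    have hfd : FiniteDimensional ℂ (End.eigenspace (S : End ℂ H) μ) :=
      ContinuousLinearMap.finite_dimensional_eigenspace hcomp μ hμ0
    obtain ⟨y, hy, hy0, hyc⟩ := exists_common_eigenvector
      (fun b => ((τ b).toLinearEquiv : H →ₗ[ℂ] H)) (fun i j v => hcomm' i j v) _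
      (End.eigenspace (S : End ℂ H) μ) hfd rfl hμ (by
        intro b v hv
        rw [End.mem_eigenspace_iff] at hv ⊢
        show S (τ b v) = μ • τ b v
        rw [hcomm]
        have : S v = μ • v := hv
        rw [this, map_smul])
    have hyS : S y = μ • y := End.mem_eigenspace_iff.1 hy
    have hyx := hx y fun b => hyc b
    have h1 : ∀ b, ⟪τ b x, y⟫_ℂ = 0 := by
      intro b
      obtain ⟨c, hc⟩ := hyc (-b)
      have hc' : τ (-b) y = c • y := hc
      rw [hτneg, hc', inner_smul_right, ← inner_conj_symm, hyx, map_zero, mul_zero]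
    have h2 : ⟪S y, y⟫_ℂ = 0 := by
      rw [hS, mop_inner, mform_self h]
      simp only [h1, norm_zero]
      have : (m fun _ : k => (0 : ℝ) ^ 2) = 0 := by
        have := h.zero
        simpa using this
      rw [this]
      simp
    rw [hyS, inner_smul_left] at h2
    rcases mul_eq_zero.1 h2 with h3 | h3
    · exact hμ0 (by simpa using h3)
    · exact hy0 (inner_self_eq_zero.1 h3)
  have hfin : mform m τ x z z = 0 := by
    rw [← mop_inner h, ← hS, hzero]
    simp
  rw [mform_self h] at hfin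
  exact_mod_cast hfin

end linear

end

end Vale.Agent.P011.H219
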