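import Vale.Agent.P011.H219.Sections

/-!
# The abstract normality theorem

`(X, m)` a measure space, `Γ` countable and `G` arbitrary, commuting measure preserving actions,
`ψ` a weight (`∑_γ ψ(γ x) = 1`), `c : Γ → R` a map to a finite group.  Colour sets
`S_0 ⊆ S_1 ⊆ … ⊆ S_J : X → Finset R`, equivariant, with `S_j(x) ⊆ S_{j+1}(k x)` for `k ∈ K ⊆ G`.
If `(G, K)` has the spectral gap property and the `G`-invariant equivariant `L²` sections are
`c(Γ)`-fixed, then for some `j < J` the colour set `S_j(x)` is invariant under conjugation by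
`c(Γ)` outside a set of `ψm`-measure `≤ 8 C² |R| A / J`, `A = ∫ ψ dm`.
-/

open MeasureTheory Filter
open scoped ENNReal NNReal InnerProductSpace

namespace Vale.Agent.P011.H219

noncomputable section

universe u v w

/-- The spectral gap property: in every isometric representation, a vector almost fixed by `K` is
close to a `G`-fixed vector. -/
def HasGap (G : Type v) [Group G] (K : Set G) (C : ℝ≥0) : Prop :=
  ∀ (H : Type u) [NormedAddCommGroup H] [InnerProductSpace ℝ H] [CompleteSpace H]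
    (π : G →* (H ≃ₗᵢ[ℝ] H)) (v : H) (η : ℝ), (∀ k ∈ K, ‖π k v - v‖ ≤ η) →
    ∃ w, (∀ g, π g w = w) ∧ ‖v - w‖ ≤ C * η

variable {X : Type u} [MeasurableSpace X] {m : Measure X}
variable {Γ : Type*} [Group Γ] [MulAction Γ X]
variable {G : Type v} [Group G] [MulAction G X]

/-- The kernel hypothesis: the `G`-invariant equivariant square integrable sections are fixed
by `c(Γ)`. -/
def KernelFixed (Γ : Type*) [Group Γ] [MulAction Γ X] (G : Type*) [Group G] [MulAction G X]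
    (m : Measure X) (ψ : X → ℝ≥0∞) {E : Type*} [NormedAddCommGroup E] [InnerProductSpace ℝ E]
    (c : Γ → (E ≃ₗᵢ[ℝ] E)) : Prop :=
  ∀ w : X → E, AEStronglyMeasurable w m → (∀ γ : Γ, ∀ᵐ x ∂m, w (γ • x) = c γ (w x)) →
    (∀ g : G, ∀ᵐ x ∂m, w (g • x) = w x) → ∫⁻ x, ‖w x‖ₑ ^ 2 * ψ x ∂m < ∞ →
    ∀ γ : Γ, ∀ᵐ x ∂m, c γ (w x) = w x

variable [Countable Γ] [MeasurableConstSMul Γ X] [SMulInvariantMeasure Γ X m]
  [MeasurableConstSMul G X] [SMulInvariantMeasure G X m] [SMulCommClass Γ G X]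

/-- A strictly positive weight gives the measure needed for the Hilbert space of sections. -/
theorem secMeas_of_weight {ψ : X → ℝ≥0∞} (hψ : IsWeight Γ m ψ) (hpos : ∀ᵐ x ∂m, ψ x ≠ 0) :
    SecMeas Γ G (m.withDensity ψ) := by
  have hac : m.withDensity ψ ≪ m := withDensity_absolutelyContinuous m ψ
  have hac' : m ≪ m.withDensity ψ := withDensity_absolutelyContinuous' hψ.meas.aemeasurable hpos
  refine ⟨fun γ => ?_, fun g => ?_, fun F hF hinv g => ?_⟩
  · exact (measurePreserving_smul γ m).quasiMeasurePreserving.mono hac hac'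
  · exact (measurePreserving_smul g m).quasiMeasurePreserving.mono hac hac'
  · have hF' : AEMeasurable F m := hF.mono_ac hac'
    have hFg : AEMeasurable (fun x => F (g • x)) m :=
      hF'.comp_quasiMeasurePreserving (measurePreserving_smul g m).quasiMeasurePreserving
    rw [lintegral_withDensity_eq_lintegral_mul₀ hψ.meas.aemeasurable hF',
      lintegral_withDensity_eq_lintegral_mul₀ hψ.meas.aemeasurable hFg]
    simp only [Pi.mul_apply]
    simp_rw [mul_comm (ψ _)]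
    exact lintegral_weight_smul Γ hF' (fun γ => hac'.ae_le (hinv γ)) hψ g

variable {E : Type} [NormedAddCommGroup E] [InnerProductSpace ℝ E] [FiniteDimensional ℝ E]

/-- Almost invariant bounded sections are close to sections fixed by `c(Γ)`. -/
theorem exists_fixed_near {K : Set G} {C : ℝ≥0} (hgap : HasGap.{u} G K C)
    {ψ : X → ℝ≥0∞} (hψ : IsWeight Γ m ψ) (hfin : ∫⁻ x, ψ x ∂m < ∞)
    {c : Γ → (E ≃ₗᵢ[ℝ] E)} (hker : KernelFixed Γ G m ψ c) {s : X → E}
    (hs : AEStronglyMeasurable s m) {B : ℝ} (hB : ∀ x, ‖s x‖ ≤ B)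
    (heq : ∀ (γ : Γ) x, s (γ • x) = c γ (s x)) {η : ℝ≥0}
    (hη : ∀ k ∈ K, ∫⁻ x, ‖s (k • x) - s x‖ₑ ^ 2 * ψ x ∂m ≤ (η : ℝ≥0∞) ^ 2) :
    ∃ w : X → E, AEStronglyMeasurable w m ∧ (∀ γ : Γ, ∀ᵐ x ∂m, c γ (w x) = w x) ∧
      ∫⁻ x, ‖s x - w x‖ₑ ^ 2 * ψ x ∂m ≤ (C * η : ℝ≥0∞) ^ 2 := by
  obtain ⟨ψ', hψ', hpos⟩ := exists_pos_weight hψ
  set μ := m.withDensity ψ' with hμ
  have hac : μ ≪ m := withDensity_absolutelyContinuous m ψ'
  have hac' : m ≪ μ := withDensity_absolutelyContinuous' hψ'.meas.aemeasurable hpos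
  have hsec : SecMeas Γ G μ := secMeas_of_weight hψ' hpos
  -- change of weight
  have hchg : ∀ F : X → ℝ≥0∞, AEMeasurable F m → (∀ γ : Γ, ∀ᵐ x ∂m, F (γ • x) = F x) →
      ∫⁻ x, F x ∂μ = ∫⁻ x, F x * ψ x ∂m := by
    intro F hF hinv
    rw [hμ, lintegral_withDensity_eq_lintegral_mul₀ hψ'.meas.aemeasurable hF]
    simp only [Pi.mul_apply]
    simp_rw [mul_comm (ψ' _)]
    exact lintegral_mul_weight_eq Γ hF hinv hψ' hψ
  have hμfin : IsFiniteMeasure μ := by
    constructor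
    have h1 : μ Set.univ = ∫⁻ _x, 1 ∂μ := by simp
    rw [h1, hchg (fun _ => 1) aemeasurable_const (fun γ => Eventually.of_forall fun _ => rfl)]
    simpa using hfin
  have hsμ : AEStronglyMeasurable s μ := hs.mono_ac hac
  have hmem : MemLp s 2 μ := MemLp.of_bound hsμ B (Eventually.of_forall hB)
  let f : sec hsec c := ⟨hmem.toLp s, by
    intro γ
    filter_upwards [hmem.coeFn_toLp, (hsec.qΓ γ).ae hmem.coeFn_toLp] with x h1 h2
    rw [h1, h2, heq]⟩
  have hf : ∀ᵐ x ∂μ, (f : Lp E 2 μ) x = s x := hmem.coeFn_toLp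
  -- norms as integrals
  have hnorm : ∀ (p : Lp E 2 μ), ‖p‖ₑ ^ 2 = ∫⁻ x, ‖p x‖ₑ ^ 2 ∂μ := by
    intro p
    rw [Lp.enorm_def, eLpNorm_eq_lintegral_rpow_enorm_toReal (by norm_num) (by norm_num)]
    have h2 : ((2 : ℝ≥0∞).toReal) = 2 := by norm_num
    rw [h2, ← ENNReal.rpow_natCast, ← ENNReal.rpow_mul]
    norm_num
  have halm : ∀ k ∈ K, ‖piRep hsec c k f - f‖ ≤ η := by
    intro k hk
    have h3 : ‖piRep hsec c k⁻¹ f - f‖ₑ ^ 2 ≤ (η : ℝ≥0∞) ^ 2 := by
      have h4 : ‖piRep hsec c k⁻¹ f - f‖ₑ = ‖((piRep hsec c k⁻¹ f - f : sec hsec c) : Lp E 2 μ)‖ₑ :=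
        rfl
      rw [h4, hnorm]
      have h5 : ∫⁻ x, ‖((piRep hsec c k⁻¹ f - f : sec hsec c) : Lp E 2 μ) x‖ₑ ^ 2 ∂μ =
          ∫⁻ x, ‖s (k • x) - s x‖ₑ ^ 2 ∂μ := by
        apply lintegral_congr_ae
        have e1 := piRep_coe hsec c k⁻¹ f
        have e2 := Lp.coeFn_sub ((piRep hsec c k⁻¹ f : sec hsec c) : Lp E 2 μ) (f : Lp E 2 μ)
        filter_upwards [e1, e2, hf, (hsec.qG k⁻¹⁻¹).ae hf] with x h1 h2 h3 h4
        rw [Submodule.coe_sub, h2, Pi.sub_apply, h1, h3, h4, inv_inv]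
      rw [h5, hchg]
      · exact hη k hk
      · have hk' : AEStronglyMeasurable (fun x => s (k • x)) m :=
          hs.comp_quasiMeasurePreserving (measurePreserving_smul k m).quasiMeasurePreserving
        exact (hk'.sub hs).enorm.pow_const _
      · intro γ
        refine Eventually.of_forall fun x => ?_
        rw [← smul_comm γ k x, heq, heq, ← map_sub, LinearIsometryEquiv.enorm_map]
    have h6 : ‖piRep hsec c k f - f‖ = ‖piRep hsec c k⁻¹ f - f‖ := by
      have h7 : piRep hsec c k⁻¹ (piRep hsec c k f - f) = -(piRep hsec c k⁻¹ f - f) := by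
        rw [map_sub]
        have : piRep hsec c k⁻¹ (piRep hsec c k f) = f := by
          have h8 : (piRep hsec c k⁻¹ * piRep hsec c k) f = f := by
            rw [← map_mul, inv_mul_cancel, map_one]; rfl
          exact h8
        rw [this]; abel
      rw [← (piRep hsec c k⁻¹).norm_map, h7, norm_neg]
    rw [h6]
    have h9 : ‖piRep hsec c k⁻¹ f - f‖ₑ ≤ (η : ℝ≥0∞) :=
      (ENNReal.pow_le_pow_left_iff (by norm_num)).1 h3
    rw [← ofReal_norm, ENNReal.ofReal_le_coe] at h9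
    exact h9
  obtain ⟨w, hwfix, hwn⟩ := hgap (sec hsec c) (piRep hsec c) f η halm
  have hwm : AEStronglyMeasurable ((w : Lp E 2 μ) : X → E) m :=
    (Lp.aestronglyMeasurable _).mono_ac hac'
  have hweq : ∀ γ : Γ, ∀ᵐ x ∂m, (w : Lp E 2 μ) (γ • x) = c γ ((w : Lp E 2 μ) x) :=
    fun γ => hac'.ae_le (w.2 γ)
  have hwinv : ∀ g : G, ∀ᵐ x ∂m, (w : Lp E 2 μ) (g • x) = (w : Lp E 2 μ) x := by
    intro g
    have h1 := piRep_coe hsec c g⁻¹ w
    rw [hwfix g⁻¹] at h1
    filter_upwards [hac'.ae_le h1] with x h2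
    rw [inv_inv] at h2
    exact h2.symm
  have hwfin : ∫⁻ x, ‖(w : Lp E 2 μ) x‖ₑ ^ 2 * ψ x ∂m < ∞ := by
    rw [← hchg (fun x => ‖(w : Lp E 2 μ) x‖ₑ ^ 2) (hwm.enorm.pow_const _), ← hnorm]
    · exact ENNReal.pow_lt_top enorm_lt_top
    · intro γ
      filter_upwards [hweq γ] with x hx
      rw [hx, LinearIsometryEquiv.enorm_map]
  refine ⟨(w : Lp E 2 μ), hwm, hker _ hwm hweq hwinv hwfin, ?_⟩
  have h10 : ∫⁻ x, ‖s x - (w : Lp E 2 μ) x‖ₑ ^ 2 * ψ x ∂m = ‖f - w‖ₑ ^ 2 := by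
    have h4 : ‖f - w‖ₑ = ‖((f - w : sec hsec c) : Lp E 2 μ)‖ₑ := rfl
    rw [h4, hnorm, ← hchg (fun x => ‖s x - (w : Lp E 2 μ) x‖ₑ ^ 2)]
    · apply lintegral_congr_ae
      have e2 := Lp.coeFn_sub (f : Lp E 2 μ) (w : Lp E 2 μ)
      filter_upwards [e2, hf] with x h2 h3
      rw [Submodule.coe_sub, h2, Pi.sub_apply, h3]
    · exact (hs.sub hwm).enorm.pow_const _
    · intro γ
      filter_upwards [hweq γ] with x hx
      rw [hx, heq, ← map_sub, LinearIsometryEquiv.enorm_map]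
  rw [h10]
  refine pow_le_pow_left' ?_ 2
  rw [← ofReal_norm]
  refine (ENNReal.ofReal_le_ofReal hwn).trans ?_
  rw [ENNReal.ofReal_le_iff_le_toReal (by simp [ENNReal.mul_eq_top])]
  simp

/-! ### Colour sets -/

variable {R : Type} [Group R] [Fintype R] [DecidableEq R]

/-- Conjugation on subsets. -/
def conjF (r : R) : Finset R ≃ Finset R := (MulAut.conj r).toEquiv.finsetCongr

/-- Conjugation on functions on subsets. -/
def conjE (r : R) : EuclideanSpace ℝ (Finset R) ≃ₗᵢ[ℝ] EuclideanSpace ℝ (Finset R) :=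
  LinearIsometryEquiv.piLpCongrLeft 2 ℝ ℝ (conjF r)

theorem mem_conjF {r a : R} {T : Finset R} : a ∈ conjF r T ↔ r⁻¹ * a * r ∈ T := by
  unfold conjF
  rw [Equiv.finsetCongr_apply, Finset.mem_map]
  constructor
  · rintro ⟨b, hb, rfl⟩
    simpa [mul_assoc] using hb
  · intro h
    refine ⟨_, h, ?_⟩
    simp [mul_assoc]

/-- The section of a colour set. -/
def single (T : Finset R) : EuclideanSpace ℝ (Finset R) := EuclideanSpace.single T (1 : ℝ)

theorem conjE_single (r : R) (T : Finset R) : conjE r (single T) = single (conjF r T) := by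
  unfold conjE single
  exact LinearIsometryEquiv.piLpCongrLeft_single _ _ _

theorem enorm_sq_eq_ofReal {V : Type*} [NormedAddCommGroup V] (v : V) :
    ‖v‖ₑ ^ 2 = ENNReal.ofReal (‖v‖ ^ 2) := by
  rw [ENNReal.ofReal_pow (norm_nonneg _), ofReal_norm]

theorem norm_single_sub_sq {T T' : Finset R} (h : T ≠ T') : ‖single T - single T'‖ ^ 2 = 2 := by
  rw [norm_sub_sq_real]
  have h1 : ‖single T‖ = 1 := by simp [single]
  have h2 : ‖single T'‖ = 1 := by simp [single]
  have h3 : ⟪single T, single T'⟫_ℝ = 0 := by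
    unfold single
    rw [EuclideanSpace.inner_single_left]
    simp [h]
  rw [h1, h2, h3]
  norm_num

theorem enorm_single_sub_sq_le (T T' : Finset R) :
    ‖single T - single T'‖ₑ ^ 2 ≤ if T' = T then 0 else 2 := by
  split_ifs with h
  · rw [h]; simp
  · rw [enorm_sq_eq_ofReal, norm_single_sub_sq (Ne.symm h)]
    simp

theorem conjE_apply (r : R) (w : EuclideanSpace ℝ (Finset R)) (T : Finset R) :
    conjE r w (conjF r T) = w T := by
  unfold conjE
  rw [LinearIsometryEquiv.piLpCongrLeft_apply]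
  simp [Equiv.piCongrLeft']

theorem half_le_of_fixed {r : R} {T : Finset R} (hT : conjF r T ≠ T)
    {w : EuclideanSpace ℝ (Finset R)} (hw : conjE r w = w) :
    (2 : ℝ≥0∞)⁻¹ ≤ ‖single T - w‖ₑ ^ 2 := by
  have h1 : w (conjF r T) = w T := by
    have := conjE_apply r w T
    rw [hw] at this
    exact this
  have h2 : (1 / 2 : ℝ) ≤ ‖single T - w‖ ^ 2 := by
    rw [EuclideanSpace.norm_sq_eq]
    have h3 : ∑ U ∈ {T, conjF r T}, ‖(single T - w) U‖ ^ 2 ≤ ∑ U, ‖(single T - w) U‖ ^ 2 :=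
      Finset.sum_le_sum_of_subset_of_nonneg (Finset.subset_univ _) fun _ _ _ => by positivity
    refine le_trans ?_ h3
    rw [Finset.sum_pair (Ne.symm hT)]
    have h4 : (single T - w) T = 1 - w T := by simp [single]
    have h5 : (single T - w) (conjF r T) = - w T := by
      simp [single, hT, h1]
    rw [h4, h5]
    simp only [Real.norm_eq_abs, sq_abs]
    nlinarith [sq_nonneg (1 - 2 * w T)]
  rw [enorm_sq_eq_ofReal]
  have h6 : (2 : ℝ≥0∞)⁻¹ = ENNReal.ofReal (1 / 2) := by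
    rw [one_div, ENNReal.ofReal_inv_of_pos (by norm_num)]
    simp
  rw [h6]
  exact ENNReal.ofReal_le_ofReal h2

/-! ### The integration lemmas -/

theorem measurable_comp_of_fibers {Y : Type*} [Countable Y] {β : Type*} [MeasurableSpace β]
    {S : X → Y} (hS : ∀ y, MeasurableSet (S ⁻¹' {y})) (φ : Y → β) :
    Measurable fun x => φ (S x) := by
  intro t _
  have : (fun x => φ (S x)) ⁻¹' t = ⋃ y ∈ φ ⁻¹' t, S ⁻¹' {y} := by
    ext x
    simp
  rw [this]
  exact MeasurableSet.biUnion (Set.to_countable _) fun y _ => hS y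

theorem fibers_prod {Y Y' : Type*} {S : X → Y} {S' : X → Y'}
    (hS : ∀ y, MeasurableSet (S ⁻¹' {y})) (hS' : ∀ y, MeasurableSet (S' ⁻¹' {y})) :
    ∀ y, MeasurableSet ((fun x => (S x, S' x)) ⁻¹' {y}) := by
  rintro ⟨y, y'⟩
  have : (fun x => (S x, S' x)) ⁻¹' {(y, y')} = S ⁻¹' {y} ∩ S' ⁻¹' {y'} := by
    ext x
    simp
  rw [this]
  exact (hS y).inter (hS' y')

omit [Group R] in
/-- If `S ⊆ T` and `∫ |T| ψ ≤ ∫ |S| ψ + ε` then `T = S` outside a set of measure `ε`. -/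
theorem lintegral_ne_le {ψ : X → ℝ≥0∞} (hψm : Measurable ψ) (hfin : ∫⁻ x, ψ x ∂m < ∞)
    {S T : X → Finset R} (hS : ∀ U, MeasurableSet (S ⁻¹' {U}))
    (hT : ∀ U, MeasurableSet (T ⁻¹' {U})) (hsub : ∀ x, S x ⊆ T x) {ε : ℝ≥0∞}
    (hε : ∫⁻ x, ((T x).card : ℝ≥0∞) * ψ x ∂m ≤ ∫⁻ x, ((S x).card : ℝ≥0∞) * ψ x ∂m + ε) :
    ∫⁻ x, (if T x = S x then 0 else 1) * ψ x ∂m ≤ ε := by
  have mS : Measurable fun x => ((S x).card : ℝ≥0∞) :=
    measurable_comp_of_fibers hS fun U => (U.card : ℝ≥0∞)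
  have hpt : ∀ x, ((S x).card : ℝ≥0∞) + (if T x = S x then 0 else 1) ≤ (T x).card := by
    intro x
    split_ifs with h
    · rw [h]; simp
    · have : (S x).card < (T x).card :=
        Finset.card_lt_card (Finset.ssubset_iff_subset_ne.2 ⟨hsub x, Ne.symm h⟩)
      exact_mod_cast this
  have h1 : ∫⁻ x, ((S x).card : ℝ≥0∞) * ψ x ∂m +
      ∫⁻ x, (if T x = S x then 0 else 1) * ψ x ∂m ≤
      ∫⁻ x, ((S x).card : ℝ≥0∞) * ψ x ∂m + ε := by
    have mSψ : Measurable fun x => ((S x).card : ℝ≥0∞) * ψ x := mS.mul hψm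
    rw [← lintegral_add_left mSψ]
    refine le_trans (lintegral_mono fun x => ?_) hε
    rw [← add_mul]
    gcongr
    exact hpt x
  have h2 : ∫⁻ x, ((S x).card : ℝ≥0∞) * ψ x ∂m ≠ ∞ := by
    refine ne_top_of_le_ne_top ?_ (lintegral_mono (g := fun x => (Fintype.card R : ℝ≥0∞) * ψ x)
      fun x => ?_)
    · rw [lintegral_const_mul _ hψm]
      exact ENNReal.mul_ne_top (by simp) hfin.ne
    · have : ((S x).card : ℝ≥0∞) ≤ (Fintype.card R : ℝ≥0∞) := by
        exact_mod_cast Finset.card_le_univ (S x)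
      exact mul_le_mul' this le_rfl
  exact (ENNReal.add_le_add_iff_left h2).1 h1

variable {c : Γ → R}

/-- The set of points where the colour set is not invariant under conjugation. -/
def notNormal (c : Γ → R) (S : X → Finset R) : Set X := {x | ∃ γ : Γ, conjF (c γ) (S x) ≠ S x}

omit [MulAction Γ X] [Countable Γ] [MeasurableConstSMul Γ X] [DecidableEq R] in
theorem measurableSet_notNormal {S : X → Finset R} (hS : ∀ U, MeasurableSet (S ⁻¹' {U})) :
    MeasurableSet (notNormal c S) := by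
  classical
  have h1 := measurable_comp_of_fibers (β := Prop) hS
    (fun U => ∃ γ : Γ, conjF (c γ) U ≠ U)
  exact measurableSet_setOf.2 h1

/-- **One scale.** -/
theorem notNormal_le {K : Set G} {C : ℝ≥0} (hgap : HasGap.{u} G K C)
    {ψ : X → ℝ≥0∞} (hψ : IsWeight Γ m ψ) (hfin : ∫⁻ x, ψ x ∂m < ∞)
    (hker : KernelFixed Γ G m ψ (fun γ => conjE (c γ))) {S S' : X → Finset R}
    (hS : ∀ U, MeasurableSet (S ⁻¹' {U})) (hS' : ∀ U, MeasurableSet (S' ⁻¹' {U}))
    (heq : ∀ (γ : Γ) x, S (γ • x) = conjF (c γ) (S x))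
    (heq' : ∀ (γ : Γ) x, S' (γ • x) = conjF (c γ) (S' x))
    (hsub : ∀ x, S x ⊆ S' x) (hK : ∀ k ∈ K, ∀ x, S x ⊆ S' (k • x)) {ε : ℝ≥0}
    (hε : ∫⁻ x, ((S' x).card : ℝ≥0∞) * ψ x ∂m ≤ ∫⁻ x, ((S x).card : ℝ≥0∞) * ψ x ∂m + ε) :
    ∫⁻ x in notNormal c S, ψ x ∂m ≤ 8 * C ^ 2 * ε := by
  have hψm := hψ.meas
  have e0 : ∫⁻ x, (if S' x = S x then 0 else 1) * ψ x ∂m ≤ ε :=
    lintegral_ne_le hψm hfin hS hS' hsub hε
  have fk : ∀ k : G, ∀ U, MeasurableSet ((fun x => S' (k • x)) ⁻¹' {U}) := fun k U =>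
    (measurable_const_smul k) (hS' U)
  have fk' : ∀ k : G, ∀ U, MeasurableSet ((fun x => S (k • x)) ⁻¹' {U}) := fun k U =>
    (measurable_const_smul k) (hS U)
  -- invariance of the cardinalities
  have hcard : ∀ (T : X → Finset R), (∀ U, MeasurableSet (T ⁻¹' {U})) →
      (∀ (γ : Γ) x, T (γ • x) = conjF (c γ) (T x)) → ∀ k : G,
      ∫⁻ x, ((T (k • x)).card : ℝ≥0∞) * ψ x ∂m = ∫⁻ x, ((T x).card : ℝ≥0∞) * ψ x ∂m := by
    intro T hT hTeq k
    refine lintegral_weight_smul Γ (F := fun x => ((T x).card : ℝ≥0∞))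
      (measurable_comp_of_fibers hT fun U => (U.card : ℝ≥0∞)).aemeasurable ?_ hψ k
    intro γ
    refine Eventually.of_forall fun x => ?_
    rw [hTeq]
    have : (conjF (c γ) (T x)).card = (T x).card := by
      unfold conjF
      rw [Equiv.finsetCongr_apply, Finset.card_map]
    rw [this]
  have ek : ∀ k ∈ K, ∫⁻ x, (if S' (k • x) = S x then 0 else 1) * ψ x ∂m ≤ ε := by
    intro k hk
    refine lintegral_ne_le hψm hfin hS (fk k) (hK k hk) ?_
    rw [hcard S' hS' heq' k]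
    exact hε
  have ek2 : ∀ k : G, ∫⁻ x, (if S' (k • x) = S (k • x) then 0 else 1) * ψ x ∂m ≤ ε := by
    intro k
    have h1 := lintegral_weight_smul Γ (m := m) (F := fun x => if S' x = S x then (0 : ℝ≥0∞) else 1)
      (measurable_comp_of_fibers (fibers_prod hS' hS)
        fun p => if p.1 = p.2 then (0 : ℝ≥0∞) else 1).aemeasurable ?_ hψ k
    · rw [h1]; exact e0
    · intro γ
      refine Eventually.of_forall fun x => ?_
      rw [heq, heq']
      simp only [EmbeddingLike.apply_eq_iff_eq]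
  have ek3 : ∀ k ∈ K, ∫⁻ x, (if S (k • x) = S x then 0 else 1) * ψ x ∂m ≤ 2 * ε := by
    intro k hk
    have m1 : Measurable fun x => (if S' (k • x) = S x then (0 : ℝ≥0∞) else 1) * ψ x :=
      (measurable_comp_of_fibers (fibers_prod (fk k) hS)
        fun p => if p.1 = p.2 then (0 : ℝ≥0∞) else 1).mul hψm
    calc ∫⁻ x, (if S (k • x) = S x then 0 else 1) * ψ x ∂m ≤
        ∫⁻ x, ((if S' (k • x) = S x then 0 else 1) * ψ x +
          (if S' (k • x) = S (k • x) then 0 else 1) * ψ x) ∂m := by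
          refine lintegral_mono fun x => ?_
          rw [← add_mul]
          gcongr
          by_cases h1 : S' (k • x) = S x
          · by_cases h2 : S' (k • x) = S (k • x)
            · have : S (k • x) = S x := by rw [← h2, h1]
              simp [this]
            · simp only [h2, if_false]
              split_ifs <;> simp
          · simp only [h1, if_false]
            split_ifs <;> simp
      _ = ∫⁻ x, (if S' (k • x) = S x then 0 else 1) * ψ x ∂m +
          ∫⁻ x, (if S' (k • x) = S (k • x) then 0 else 1) * ψ x ∂m := lintegral_add_left m1 _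
      _ ≤ ε + ε := add_le_add (ek k hk) (ek2 k)
      _ = 2 * ε := by rw [two_mul]
  -- the section
  have hsm : AEStronglyMeasurable (fun x => single (S x)) m :=
    (measurable_comp_of_fibers hS single).aestronglyMeasurable
  obtain ⟨w, -, hwfix, hwn⟩ := exists_fixed_near (η := NNReal.sqrt (4 * ε)) hgap hψ hfin hker hsm
    (B := 1) (fun x => by simp [single]) (fun γ x => by rw [heq, conjE_single]) (by
      intro k hk
      calc ∫⁻ x, ‖single (S (k • x)) - single (S x)‖ₑ ^ 2 * ψ x ∂m ≤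
          ∫⁻ x, 2 * ((if S (k • x) = S x then 0 else 1) * ψ x) ∂m := by
            refine lintegral_mono fun x => ?_
            rw [← mul_assoc]
            gcongr
            refine (enorm_single_sub_sq_le _ _).trans ?_
            split_ifs with h1 h2 h2
            · simp
            · exact absurd h1.symm h2
            · exact absurd h2.symm h1
            · simp
        _ = 2 * ∫⁻ x, (if S (k • x) = S x then 0 else 1) * ψ x ∂m := by
            refine lintegral_const_mul _ ?_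
            exact (measurable_comp_of_fibers (fibers_prod (fk' k) hS)
              fun p => if p.1 = p.2 then (0 : ℝ≥0∞) else 1).mul hψm
        _ ≤ 2 * (2 * ε) := by gcongr; exact ek3 k hk
        _ = ((NNReal.sqrt (4 * ε) : ℝ≥0) : ℝ≥0∞) ^ 2 := by
            rw [← ENNReal.coe_pow, NNReal.sq_sqrt]
            push_cast
            ring)
  -- conclusion
  have hall : ∀ᵐ x ∂m, ∀ γ : Γ, conjE (c γ) (w x) = w x := ae_all_iff.2 hwfix
  have hlow : (2 : ℝ≥0∞)⁻¹ * ∫⁻ x in notNormal c S, ψ x ∂m ≤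
      ∫⁻ x, ‖single (S x) - w x‖ₑ ^ 2 * ψ x ∂m := by
    rw [← lintegral_indicator (measurableSet_notNormal hS), ← lintegral_const_mul']
    · apply lintegral_mono_ae
      filter_upwards [hall] with x hx
      by_cases hxn : x ∈ notNormal c S
      · rw [Set.indicator_of_mem hxn]
        obtain ⟨γ, hγ⟩ := hxn
        gcongr
        exact half_le_of_fixed hγ (hx γ)
      · rw [Set.indicator_of_notMem hxn]
        simp
    · simp
  have h8 : (2 : ℝ≥0∞)⁻¹ * ∫⁻ x in notNormal c S, ψ x ∂m ≤ 4 * C ^ 2 * ε := by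
    refine (hlow.trans hwn).trans (le_of_eq ?_)
    have hsq : ((NNReal.sqrt (4 * ε) : ℝ≥0) : ℝ≥0∞) ^ 2 = 4 * ε := by
      rw [← ENNReal.coe_pow, NNReal.sq_sqrt]
      push_cast
      ring
    rw [mul_pow, hsq]
    ring
  calc ∫⁻ x in notNormal c S, ψ x ∂m = 2 * ((2 : ℝ≥0∞)⁻¹ * ∫⁻ x in notNormal c S, ψ x ∂m) := by
        rw [← mul_assoc, ENNReal.mul_inv_cancel (by norm_num) (by norm_num), one_mul]
    _ ≤ 2 * (4 * C ^ 2 * ε) := by gcongr
    _ = 8 * C ^ 2 * ε := by ring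

/-- **The normality theorem.**  `J ≥ 1` scales. -/
theorem exists_scale_notNormal_le {K : Set G} {C : ℝ≥0} (hgap : HasGap.{u} G K C)
    {ψ : X → ℝ≥0∞} (hψ : IsWeight Γ m ψ) (hfin : ∫⁻ x, ψ x ∂m < ∞)
    (hker : KernelFixed Γ G m ψ (fun γ => conjE (c γ))) {S : ℕ → X → Finset R}
    (hS : ∀ j, ∀ U, MeasurableSet (S j ⁻¹' {U}))
    (heq : ∀ j, ∀ (γ : Γ) x, S j (γ • x) = conjF (c γ) (S j x))
    (hsub : ∀ j, ∀ x, S j x ⊆ S (j + 1) x) (hK : ∀ j, ∀ k ∈ K, ∀ x, S j x ⊆ S (j + 1) (k • x))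
    {J : ℕ} (hJ : 0 < J) {A : ℝ≥0} (hA : ∫⁻ x, ψ x ∂m ≤ A) :
    ∃ j < J, ∫⁻ x in notNormal c (S j), ψ x ∂m ≤ 8 * C ^ 2 * (Fintype.card R * A / J : ℝ≥0) := by
  set δ : ℝ≥0 := Fintype.card R * A / J with hδ
  let M : ℕ → ℝ≥0∞ := fun j => ∫⁻ x, ((S j x).card : ℝ≥0∞) * ψ x ∂m
  have hM : ∀ j, M j ≤ (Fintype.card R * A : ℝ≥0) := by
    intro j
    calc M j ≤ ∫⁻ x, (Fintype.card R : ℝ≥0∞) * ψ x ∂m := by
          refine lintegral_mono fun x => ?_
          have : ((S j x).card : ℝ≥0∞) ≤ (Fintype.card R : ℝ≥0∞) := by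
            exact_mod_cast Finset.card_le_univ (S j x)
          exact mul_le_mul' this le_rfl
      _ = (Fintype.card R : ℝ≥0∞) * ∫⁻ x, ψ x ∂m := lintegral_const_mul _ hψ.meas
      _ ≤ (Fintype.card R : ℝ≥0∞) * A := by gcongr
      _ = (Fintype.card R * A : ℝ≥0) := by push_cast; rfl
  by_contra hcon
  push Not at hcon
  have hstep : ∀ j < J, M j + δ < M (j + 1) := by
    intro j hj
    by_contra h1
    push Not at h1
    exact absurd (notNormal_le hgap hψ hfin hker (hS j) (hS (j + 1)) (heq j) (heq (j + 1))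
      (hsub j) (hK j) h1) (not_le.2 (hcon j hj))
  have hind : ∀ j, j ≤ J → (j : ℝ≥0∞) * δ ≤ M j := by
    intro j
    induction j with
    | zero => intro _; simp
    | succ j ih =>
      intro hj
      have h2 := ih (by omega)
      have h3 := hstep j (by omega)
      calc ((j + 1 : ℕ) : ℝ≥0∞) * δ = (j : ℝ≥0∞) * δ + δ := by push_cast; ring
        _ ≤ M j + δ := by gcongr
        _ ≤ M (j + 1) := h3.le
  obtain ⟨j, rfl⟩ : ∃ j, J = j + 1 := ⟨J - 1, by omega⟩
  have h4 := hind j (by omega)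
  have h5 := hstep j (by omega)
  have h6 : ((j + 1 : ℕ) : ℝ≥0∞) * δ = (Fintype.card R * A : ℝ≥0) := by
    rw [hδ, ← ENNReal.coe_natCast, ← ENNReal.coe_mul]
    congr 1
    field_simp
  have h7 : ((j + 1 : ℕ) : ℝ≥0∞) * δ < M (j + 1) := by
    calc ((j + 1 : ℕ) : ℝ≥0∞) * δ = (j : ℝ≥0∞) * δ + δ := by push_cast; ring
      _ ≤ M j + δ := by gcongr
      _ < M (j + 1) := h5
  rw [h6] at h7
  exact absurd (hM (j + 1)) (not_le.2 h7)

end

end Vale.Agent.P011.H219
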