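import Vale.Agent.P011.H219.Count

/-!
# Normality of the colour sets of counting functions, and normality of densities, on `H × Y`
-/

open MeasureTheory Filter Topology
open scoped ENNReal NNReal Pointwise

namespace Vale.Agent.P011.H219

noncomputable section

universe u v w

variable {Γ H : Type u} {G₀ : Type v} [Group Γ] [Countable Γ] [Group G₀] [Group H]
  [TopologicalSpace H] [IsTopologicalGroup H] [T2Space H]
  [LocallyCompactSpace H] [SecondCountableTopology H] [MeasurableSpace H] [BorelSpace H]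
  {μ : Measure H} [SFinite μ] [μ.IsMulLeftInvariant] [IsFiniteMeasureOnCompacts μ]
  [μ.InnerRegularCompactLTTop]
variable [MeasurableSpace G₀] [MeasurableMul G₀] {μ₀ : Measure G₀}
  [SFinite μ₀] [μ₀.IsMulLeftInvariant]
variable {j₀ : G₀ →* H} {Y : Type u} [MulAction Γ Y] [Countable Y]
variable {R : Type} [Group R] [Fintype R] [DecidableEq R]
variable {T V : Type*} [MulAction Γ T] [Countable T] [MulAction H V] [MeasurableSpace V]

/-- **Normality of the colour sets.** -/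
theorem normality_cnt (Da : ColData Γ H T Y V R) (hm : ∀ v : V, Measurable fun h : H => h⁻¹ • v)
    {K : Set G₀} {C : ℝ≥0} (hgap : HasGap.{u} G₀ K C)
    (hμ₀ : μ₀ ≠ 0) (hj : Measurable j₀) (hN : j₀.range.Normal)
    (hq : ∀ g : G₀, MeasurePreserving (· * j₀ g) μ μ)
    {D : Set H} (hD : MeasurableSet D) (hcov : ∀ h : H, ∃ γ : Γ, Da.ι γ * h ∈ D)
    (hfin : ∀ h : H, {γ : Γ | Da.ι γ * h ∈ D}.Finite)
    {W : Y → ℝ≥0∞} (hW : ∀ (γ : Γ) y, W (γ • y) = W y) (P : Finset R)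
    (happ : ∀ y : Y, W y ≠ 0 → ∀ r ∈ P, ∀ O ∈ 𝓝 (1 : H), ∃ γ : Γ, γ • y = y ∧ Da.c γ = r ∧
      ∃ o ∈ O, ∃ g : G₀, Da.ι γ = o * j₀ g)
    {φ : ℕ → V → ℝ≥0∞} (hφ : ∀ j, Measurable (φ j)) (hmono : ∀ j v, φ j v ≤ φ (j + 1) v)
    (hK : ∀ j, ∀ k ∈ K, ∀ v, φ j v ≤ φ (j + 1) (j₀ k • v)) (τ : ℝ≥0∞)
    {J : ℕ} (hJ : 0 < J) {A : ℝ≥0} (hA : μ D * ∑' y, W y ≤ A) :
    ∃ j < J, ∑' y, W y * ∫⁻ h in {h | ∃ r ∈ P, conjF r (Da.colSet (φ j) τ h y) ≠
        Da.colSet (φ j) τ h y}, fundWeight Da.ι D h ∂μ ≤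
      P.card * (6 * (2 * C ^ 2 + 1) * (Fintype.card R * A / J : ℝ≥0)) := by
  refine normality_prod (c := Da.c) hgap hμ₀ hj hN hq hD hcov hfin hW P happ
    (S := fun j h y => Da.colSet (φ j) τ h y) ?_ ?_ ?_ ?_ hJ hA
  · exact fun j y U => Da.measurableSet_colSet hm (hφ j) τ y U
  · exact fun j γ h y => Da.colSet_equiv (φ j) τ γ h y
  · intro j h y
    have := Da.colSet_mono (x := 1) (φ := φ j) (φ' := φ (j + 1)) (by simpa using hmono j) τ h y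
    simpa using this
  · intro j k hk h y
    refine Da.colSet_mono (x := (j₀ k)⁻¹) (fun v => ?_) τ h y
    rw [inv_inv]
    exact hK j k hk v

section density

variable {ι : Γ →* H} {E : Type} [NormedAddCommGroup E] [InnerProductSpace ℝ E]
  [FiniteDimensional ℝ E]

/-- **Normality of bounded equivariant sections.** -/
theorem section_near_prod {K : Set G₀} {C : ℝ≥0} (hgap : HasGap.{u} G₀ K C)
    (hμ₀ : μ₀ ≠ 0) (hj : Measurable j₀) (hN : j₀.range.Normal)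
    (hq : ∀ g : G₀, MeasurePreserving (· * j₀ g) μ μ)
    {D : Set H} (hD : MeasurableSet D) (hDfin : μ D < ∞) (hcov : ∀ h : H, ∃ γ : Γ, ι γ * h ∈ D)
    (hfin : ∀ h : H, {γ : Γ | ι γ * h ∈ D}.Finite)
    {W : Y → ℝ≥0∞} (hW : ∀ (γ : Γ) y, W (γ • y) = W y) (hWs : ∑' y, W y < ∞)
    {c : Γ → (E ≃ₗᵢ[ℝ] E)} {s : H → Y → E} (hs : ∀ y, StronglyMeasurable fun h => s h y)
    {B : ℝ} (hB : ∀ h y, ‖s h y‖ ≤ B) (heq : ∀ (γ : Γ) h y, s (ι γ * h) (γ • y) = c γ (s h y))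
    {η : ℝ≥0} (hη : ∀ k ∈ K, ∑' y, W y * ∫⁻ h, ‖s (h * (j₀ k)⁻¹) y - s h y‖ₑ ^ 2 *
      fundWeight ι D h ∂μ ≤ (η : ℝ≥0∞) ^ 2)
    (A : E ≃ₗᵢ[ℝ] E)
    (happ : ∀ y : Y, W y ≠ 0 → ∀ O ∈ 𝓝 (1 : H), ∃ γ : Γ, γ • y = y ∧ c γ = A ∧
      ∃ o ∈ O, ∃ g : G₀, ι γ = o * j₀ g) :
    ∑' y, W y * ∫⁻ h, ‖A (s h y) - s h y‖ₑ ^ 2 * fundWeight ι D h ∂μ ≤
      (2 * C * η : ℝ≥0∞) ^ 2 := by
  let _ : MeasurableSpace Y := ⊤
  have _ : SMulInvariantMeasure Γ Y (nuW W) := nuW_inv hW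
  have _ : SMulInvariantMeasure G₀ (Sp ι j₀ Y) (spM ι j₀ μ (nuW W)) := smulInv_G hq
  have hfwm : Measurable (fundWeight ι D) := measurable_fundWeight hD
  have hψ : IsWeight Γ (spM ι j₀ μ (nuW W)) (fun x : Sp ι j₀ Y => fundWeight ι D x.1) :=
    { meas := hfwm.comp (show Measurable fun x : H × Y => x.1 from measurable_fst)
      sum := Eventually.of_forall fun x => sum_fundWeight hcov hfin x.1 }
  -- integrals over the product
  have hint : ∀ F : H × Y → ℝ≥0∞, Measurable F →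
      ∫⁻ x : Sp ι j₀ Y, F x * fundWeight ι D x.1 ∂(spM ι j₀ μ (nuW W)) =
        ∑' y, W y * ∫⁻ h, F (h, y) * fundWeight ι D h ∂μ := by
    intro F hF
    have h1 : ∫⁻ x : Sp ι j₀ Y, F x * fundWeight ι D x.1 ∂(spM ι j₀ μ (nuW W)) =
        ∫⁻ x : H × Y, F x * fundWeight ι D x.1 ∂(μ.prod (nuW W)) := rfl
    have h2 : AEMeasurable (fun x : H × Y => F x * fundWeight ι D x.1) (μ.prod (nuW W)) :=
      (hF.mul (hfwm.comp measurable_fst)).aemeasurable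
    rw [h1, lintegral_prod_symm _ h2, lintegral_nuW]
  have hmass : ∫⁻ x, fundWeight ι D x.1 ∂(spM ι j₀ μ (nuW W)) < ∞ := by
    have h1 := hint (fun _ => 1) measurable_const
    simp only [one_mul] at h1
    rw [h1, ENNReal.tsum_mul_right]
    refine ENNReal.mul_lt_top hWs (lt_of_le_of_lt ?_ hDfin)
    calc ∫⁻ h, fundWeight ι D h ∂μ ≤ ∫⁻ h, D.indicator 1 h ∂μ :=
          lintegral_mono fun h => fundWeight_le D h
      _ = μ D := lintegral_indicator_one hD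
  have hsm : StronglyMeasurable (fun x : H × Y => s x.1 x.2) := by
    let _ : MeasurableSpace E := borel E
    have _ : BorelSpace E := ⟨rfl⟩
    have h1 : Measurable (fun x : H × Y => s x.1 x.2) := by
      refine measurable_from_prod_countable_left fun y => ?_
      exact (hs y).measurable
    exact h1.stronglyMeasurable
  obtain ⟨w, hw, hwn⟩ := exists_invSection_near (Γ := Γ) (G := G₀) (X := Sp ι j₀ Y)
    (m := spM ι j₀ μ (nuW W)) (s := fun x : Sp ι j₀ Y => s x.1 x.2) (η := η) hgap hψ hmass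
    hsm.aestronglyMeasurable (fun x => hB x.1 x.2) (fun γ x => heq γ x.1 x.2) (by
      intro k hk
      have hmk : Measurable fun x : H × Y => ‖s (x.1 * (j₀ k)⁻¹) x.2 - s x.1 x.2‖ₑ ^ 2 := by
        have h1 : StronglyMeasurable fun x : H × Y => s (x.1 * (j₀ k)⁻¹) x.2 :=
          hsm.comp_measurable ((measurable_fst.mul_const _).prodMk measurable_snd)
        exact (h1.sub hsm).enorm.pow_const _
      have h2 := hint _ hmk
      exact h2.le.trans (hη k hk))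
  have hfix : ∀ᵐ x ∂(spM ι j₀ μ (nuW W)), A (w x) = w x := by
    refine section_fixed hμ₀ hj hN hq hw.meas hw.equiv hw.inv A ?_
    intro y hy O hO
    rw [nuW_singleton] at hy
    exact happ y hy O hO
  have hmA : Measurable fun x : H × Y => ‖A (s x.1 x.2) - s x.1 x.2‖ₑ ^ 2 := by
    have h1 : StronglyMeasurable fun x : H × Y => A (s x.1 x.2) :=
      A.continuous.comp_stronglyMeasurable hsm
    exact (h1.sub hsm).enorm.pow_const _
  rw [← hint _ hmA]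
  have hpt : ∀ᵐ x ∂(spM ι j₀ μ (nuW W)), ‖A (s x.1 x.2) - s x.1 x.2‖ₑ ^ 2 *
      fundWeight ι D x.1 ≤ 4 * (‖s x.1 x.2 - w x‖ₑ ^ 2 * fundWeight ι D x.1) := by
    filter_upwards [hfix] with x hx
    rw [← mul_assoc]
    gcongr
    have h1 : A (s x.1 x.2) - s x.1 x.2 = A (s x.1 x.2 - w x) - (s x.1 x.2 - w x) := by
      rw [map_sub, hx]; abel
    have h2 : ‖A (s x.1 x.2) - s x.1 x.2‖ₑ ≤ 2 * ‖s x.1 x.2 - w x‖ₑ := by
      rw [h1, two_mul]
      refine (enorm_sub_le).trans ?_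
      rw [LinearIsometryEquiv.enorm_map]
    calc ‖A (s x.1 x.2) - s x.1 x.2‖ₑ ^ 2 ≤ (2 * ‖s x.1 x.2 - w x‖ₑ) ^ 2 := by gcongr
      _ = 4 * ‖s x.1 x.2 - w x‖ₑ ^ 2 := by rw [mul_pow]; norm_num
  calc ∫⁻ x : Sp ι j₀ Y, ‖A (s x.1 x.2) - s x.1 x.2‖ₑ ^ 2 * fundWeight ι D x.1
        ∂(spM ι j₀ μ (nuW W))
      ≤ ∫⁻ x : Sp ι j₀ Y, 4 * (‖s x.1 x.2 - w x‖ₑ ^ 2 * fundWeight ι D x.1)
        ∂(spM ι j₀ μ (nuW W)) := lintegral_mono_ae hpt
    _ = 4 * ∫⁻ x : Sp ι j₀ Y, ‖s x.1 x.2 - w x‖ₑ ^ 2 * fundWeight ι D x.1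
        ∂(spM ι j₀ μ (nuW W)) := lintegral_const_mul' _ _ (by simp)
    _ ≤ 4 * (C * η : ℝ≥0∞) ^ 2 := by gcongr
    _ = (2 * C * η : ℝ≥0∞) ^ 2 := by ring

end density

end

end Vale.Agent.P011.H219
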