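import Vale.Agent.P011.H219.Normality

/-!
# The normality theorem with labels

As `Normality.lean`, but the kernel hypothesis is about one label `r ∈ R` and one extra
transformation `x` (of a group `G₂` acting on `X`, commuting with `Γ`): every `G`-invariant
equivariant section `w` satisfies `r w r⁻¹ = w ∘ x`.  Conclusion: `S` is invariant under
conjugation by `r` outside a set of measure `6 (2 C² + 1) ε`.
-/

open MeasureTheory Filter
open scoped ENNReal NNReal InnerProductSpace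

namespace Vale.Agent.P011.H219

noncomputable section

universe u v w

variable {X : Type u} [MeasurableSpace X] {m : Measure X}
variable {Γ : Type*} [Group Γ] [MulAction Γ X]
variable {G : Type v} [Group G] [MulAction G X]
variable {G₂ : Type*} [Group G₂] [MulAction G₂ X]

/-- `w` is a `Γ`-equivariant, `G`-invariant square integrable section. -/
structure InvSection (Γ : Type*) [Group Γ] [MulAction Γ X] (G : Type*) [Group G] [MulAction G X]
    (m : Measure X) (ψ : X → ℝ≥0∞) {E : Type*} [NormedAddCommGroup E] [InnerProductSpace ℝ E]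
    (c : Γ → (E ≃ₗᵢ[ℝ] E)) (w : X → E) : Prop where
  meas : AEStronglyMeasurable w m
  equiv : ∀ γ : Γ, ∀ᵐ x ∂m, w (γ • x) = c γ (w x)
  inv : ∀ g : G, ∀ᵐ x ∂m, w (g • x) = w x
  fin : ∫⁻ x, ‖w x‖ₑ ^ 2 * ψ x ∂m < ∞

variable [Countable Γ] [MeasurableConstSMul Γ X] [SMulInvariantMeasure Γ X m]
  [MeasurableConstSMul G X] [SMulInvariantMeasure G X m] [SMulCommClass Γ G X]
  [MeasurableConstSMul G₂ X] [SMulInvariantMeasure G₂ X m] [SMulCommClass Γ G₂ X]

variable {E : Type} [NormedAddCommGroup E] [InnerProductSpace ℝ E] [FiniteDimensional ℝ E]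

/-- Almost invariant bounded sections are close to invariant sections. -/
theorem exists_invSection_near {K : Set G} {C : ℝ≥0} (hgap : HasGap.{u} G K C)
    {ψ : X → ℝ≥0∞} (hψ : IsWeight Γ m ψ) (hfin : ∫⁻ x, ψ x ∂m < ∞)
    {c : Γ → (E ≃ₗᵢ[ℝ] E)} {s : X → E}
    (hs : AEStronglyMeasurable s m) {B : ℝ} (hB : ∀ x, ‖s x‖ ≤ B)
    (heq : ∀ (γ : Γ) x, s (γ • x) = c γ (s x)) {η : ℝ≥0}
    (hη : ∀ k ∈ K, ∫⁻ x, ‖s (k • x) - s x‖ₑ ^ 2 * ψ x ∂m ≤ (η : ℝ≥0∞) ^ 2) :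
    ∃ w : X → E, InvSection Γ G m ψ c w ∧
      ∫⁻ x, ‖s x - w x‖ₑ ^ 2 * ψ x ∂m ≤ (C * η : ℝ≥0∞) ^ 2 := by
  obtain ⟨ψ', hψ', hpos⟩ := exists_pos_weight hψ
  set μ := m.withDensity ψ' with hμ
  have hac : μ ≪ m := withDensity_absolutelyContinuous m ψ'
  have hac' : m ≪ μ := withDensity_absolutelyContinuous' hψ'.meas.aemeasurable hpos
  have hsec : SecMeas Γ G μ := secMeas_of_weight hψ' hpos
  have hchg : ∀ F : X → ℝ≥0∞, AEMeasurable F m → (∀ γ : Γ, ∀ᵐ x ∂m, F (γ • x) = F x) →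
      ∫⁻ x, F x ∂μ = ∫⁻ x, F x * ψ x ∂m := by
    intro F hF hinv
    rw [hμ, lintegral_withDensity_eq_lintegral_mul₀ hψ'.meas.aemeasurable hF]
    simp only [Pi.mul_apply]
    simp_rw [mul_comm (ψ' _)]
    exact lintegral_mul_weight_eq Γ hF hinv hψ' hψ
  have hμfin : IsFiniteMeasure μ := by
    constructor
    have h1 : μ Set.univ = ∫⁻ _x, 1 ∂μ := by simp
    rw [h1, hchg (fun _ => 1) aemeasurable_const (fun γ => Eventually.of_forall fun _ => rfl)]
    simpa using hfin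
  have hsμ : AEStronglyMeasurable s μ := hs.mono_ac hac
  have hmem : MemLp s 2 μ := MemLp.of_bound hsμ B (Eventually.of_forall hB)
  let f : sec hsec c := ⟨hmem.toLp s, by
    intro γ
    filter_upwards [hmem.coeFn_toLp, (hsec.qΓ γ).ae hmem.coeFn_toLp] with x h1 h2
    rw [h1, h2, heq]⟩
  have hf : ∀ᵐ x ∂μ, (f : Lp E 2 μ) x = s x := hmem.coeFn_toLp
  have hnorm : ∀ (p : Lp E 2 μ), ‖p‖ₑ ^ 2 = ∫⁻ x, ‖p x‖ₑ ^ 2 ∂μ := by
    intro p
    rw [Lp.enorm_def, eLpNorm_eq_lintegral_rpow_enorm_toReal (by norm_num) (by norm_num)]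
    have h2 : ((2 : ℝ≥0∞).toReal) = 2 := by norm_num
    rw [h2, ← ENNReal.rpow_natCast, ← ENNReal.rpow_mul]
    norm_num
  have halm : ∀ k ∈ K, ‖piRep hsec c k f - f‖ ≤ η := by
    intro k hk
    have h3 : ‖piRep hsec c k⁻¹ f - f‖ₑ ^ 2 ≤ (η : ℝ≥0∞) ^ 2 := by
      have h4 : ‖piRep hsec c k⁻¹ f - f‖ₑ = ‖((piRep hsec c k⁻¹ f - f : sec hsec c) : Lp E 2 μ)‖ₑ :=
        rfl
      rw [h4, hnorm]
      have h5 : ∫⁻ x, ‖((piRep hsec c k⁻¹ f - f : sec hsec c) : Lp E 2 μ) x‖ₑ ^ 2 ∂μ =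
          ∫⁻ x, ‖s (k • x) - s x‖ₑ ^ 2 ∂μ := by
        apply lintegral_congr_ae
        have e1 := piRep_coe hsec c k⁻¹ f
        have e2 := Lp.coeFn_sub ((piRep hsec c k⁻¹ f : sec hsec c) : Lp E 2 μ) (f : Lp E 2 μ)
        filter_upwards [e1, e2, hf, (hsec.qG k⁻¹⁻¹).ae hf] with x h1 h2 h3 h4
        rw [Submodule.coe_sub, h2, Pi.sub_apply, h1, h3, h4, inv_inv]
      rw [h5, hchg]
      · exact hη k hk
      · have hk' : AEStronglyMeasurable (fun x => s (k • x)) m :=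
          hs.comp_quasiMeasurePreserving (measurePreserving_smul k m).quasiMeasurePreserving
        exact (hk'.sub hs).enorm.pow_const _
      · intro γ
        refine Eventually.of_forall fun x => ?_
        rw [← smul_comm γ k x, heq, heq, ← map_sub, LinearIsometryEquiv.enorm_map]
    have h6 : ‖piRep hsec c k f - f‖ = ‖piRep hsec c k⁻¹ f - f‖ := by
      have h7 : piRep hsec c k⁻¹ (piRep hsec c k f - f) = -(piRep hsec c k⁻¹ f - f) := by
        rw [map_sub]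
        have : piRep hsec c k⁻¹ (piRep hsec c k f) = f := by
          have h8 : (piRep hsec c k⁻¹ * piRep hsec c k) f = f := by
            rw [← map_mul, inv_mul_cancel, map_one]; rfl
          exact h8
        rw [this]; abel
      rw [← (piRep hsec c k⁻¹).norm_map, h7, norm_neg]
    rw [h6]
    have h9 : ‖piRep hsec c k⁻¹ f - f‖ₑ ≤ (η : ℝ≥0∞) :=
      (ENNReal.pow_le_pow_left_iff (by norm_num)).1 h3
    rw [← ofReal_norm, ENNReal.ofReal_le_coe] at h9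
    exact h9
  obtain ⟨w, hwfix, hwn⟩ := hgap (sec hsec c) (piRep hsec c) f η halm
  have hwm : AEStronglyMeasurable ((w : Lp E 2 μ) : X → E) m :=
    (Lp.aestronglyMeasurable _).mono_ac hac'
  have hweq : ∀ γ : Γ, ∀ᵐ x ∂m, (w : Lp E 2 μ) (γ • x) = c γ ((w : Lp E 2 μ) x) :=
    fun γ => hac'.ae_le (w.2 γ)
  have hwinv : ∀ g : G, ∀ᵐ x ∂m, (w : Lp E 2 μ) (g • x) = (w : Lp E 2 μ) x := by
    intro g
    have h1 := piRep_coe hsec c g⁻¹ w
    rw [hwfix g⁻¹] at h1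
    filter_upwards [hac'.ae_le h1] with x h2
    rw [inv_inv] at h2
    exact h2.symm
  have hwfin : ∫⁻ x, ‖(w : Lp E 2 μ) x‖ₑ ^ 2 * ψ x ∂m < ∞ := by
    rw [← hchg (fun x => ‖(w : Lp E 2 μ) x‖ₑ ^ 2) (hwm.enorm.pow_const _), ← hnorm]
    · exact ENNReal.pow_lt_top enorm_lt_top
    · intro γ
      filter_upwards [hweq γ] with x hx
      rw [hx, LinearIsometryEquiv.enorm_map]
  refine ⟨(w : Lp E 2 μ), ⟨hwm, hweq, hwinv, hwfin⟩, ?_⟩
  have h10 : ∫⁻ x, ‖s x - (w : Lp E 2 μ) x‖ₑ ^ 2 * ψ x ∂m = ‖f - w‖ₑ ^ 2 := by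
    have h4 : ‖f - w‖ₑ = ‖((f - w : sec hsec c) : Lp E 2 μ)‖ₑ := rfl
    rw [h4, hnorm, ← hchg (fun x => ‖s x - (w : Lp E 2 μ) x‖ₑ ^ 2)]
    · apply lintegral_congr_ae
      have e2 := Lp.coeFn_sub (f : Lp E 2 μ) (w : Lp E 2 μ)
      filter_upwards [e2, hf] with x h2 h3
      rw [Submodule.coe_sub, h2, Pi.sub_apply, h3]
    · exact (hs.sub hwm).enorm.pow_const _
    · intro γ
      filter_upwards [hweq γ] with x hx
      rw [hx, heq, ← map_sub, LinearIsometryEquiv.enorm_map]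
  rw [h10]
  refine pow_le_pow_left' ?_ 2
  rw [← ofReal_norm]
  refine (ENNReal.ofReal_le_ofReal hwn).trans ?_
  rw [ENNReal.ofReal_le_iff_le_toReal (by simp [ENNReal.mul_eq_top])]
  simp

variable {R : Type} [Group R] [Fintype R] [DecidableEq R] {c : Γ → R}

theorem enorm_add_sq_le (a b c : EuclideanSpace ℝ (Finset R)) :
    ‖a + b + c‖ₑ ^ 2 ≤ 3 * (‖a‖ₑ ^ 2 + ‖b‖ₑ ^ 2 + ‖c‖ₑ ^ 2) := by
  have h1 : ‖a + b + c‖ ^ 2 ≤ 3 * (‖a‖ ^ 2 + ‖b‖ ^ 2 + ‖c‖ ^ 2) := by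
    have h2 : ‖a + b + c‖ ≤ ‖a‖ + ‖b‖ + ‖c‖ :=
      (norm_add_le _ _).trans (by linarith [norm_add_le a b])
    have h3 := pow_le_pow_left₀ (norm_nonneg _) h2 2
    nlinarith [sq_nonneg (‖a‖ - ‖b‖), sq_nonneg (‖b‖ - ‖c‖), sq_nonneg (‖a‖ - ‖c‖)]
  simp_rw [enorm_sq_eq_ofReal]
  rw [← ENNReal.ofReal_add (by positivity) (by positivity),
    ← ENNReal.ofReal_add (by positivity) (by positivity)]
  have h3 : (3 : ℝ≥0∞) = ENNReal.ofReal 3 := by simp
  rw [h3, ← ENNReal.ofReal_mul (by norm_num)]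
  exact ENNReal.ofReal_le_ofReal h1

/-- One transformation moves `S` little. -/
theorem single_smul_sub_le {G₃ : Type*} [Group G₃] [MulAction G₃ X] [MeasurableConstSMul G₃ X]
    [SMulInvariantMeasure G₃ X m] [SMulCommClass Γ G₃ X]
    {ψ : X → ℝ≥0∞} (hψ : IsWeight Γ m ψ) (hfin : ∫⁻ x, ψ x ∂m < ∞) {S S' : X → Finset R}
    (hS : ∀ U, MeasurableSet (S ⁻¹' {U})) (hS' : ∀ U, MeasurableSet (S' ⁻¹' {U}))
    (heq : ∀ (γ : Γ) x, S (γ • x) = conjF (c γ) (S x))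
    (heq' : ∀ (γ : Γ) x, S' (γ • x) = conjF (c γ) (S' x))
    (hsub : ∀ x, S x ⊆ S' x) {ε : ℝ≥0}
    (hε : ∫⁻ x, ((S' x).card : ℝ≥0∞) * ψ x ∂m ≤ ∫⁻ x, ((S x).card : ℝ≥0∞) * ψ x ∂m + ε)
    (k : G₃) (hk : ∀ x, S x ⊆ S' (k • x)) :
    ∫⁻ x, ‖single (S (k • x)) - single (S x)‖ₑ ^ 2 * ψ x ∂m ≤ 4 * ε := by
  have hψm := hψ.meas
  have e0 : ∫⁻ x, (if S' x = S x then 0 else 1) * ψ x ∂m ≤ ε :=
    lintegral_ne_le hψm hfin hS hS' hsub hε
  have fk : ∀ U, MeasurableSet ((fun x => S' (k • x)) ⁻¹' {U}) := fun U =>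
    (measurable_const_smul k) (hS' U)
  have fk' : ∀ U, MeasurableSet ((fun x => S (k • x)) ⁻¹' {U}) := fun U =>
    (measurable_const_smul k) (hS U)
  have hcard : ∫⁻ x, ((S' (k • x)).card : ℝ≥0∞) * ψ x ∂m =
      ∫⁻ x, ((S' x).card : ℝ≥0∞) * ψ x ∂m := by
    refine lintegral_weight_smul Γ (F := fun x => ((S' x).card : ℝ≥0∞))
      (measurable_comp_of_fibers hS' fun U => (U.card : ℝ≥0∞)).aemeasurable ?_ hψ k
    intro γ
    refine Eventually.of_forall fun x => ?_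
    rw [heq']
    have : (conjF (c γ) (S' x)).card = (S' x).card := by
      unfold conjF
      rw [Equiv.finsetCongr_apply, Finset.card_map]
    rw [this]
  have ek : ∫⁻ x, (if S' (k • x) = S x then 0 else 1) * ψ x ∂m ≤ ε := by
    refine lintegral_ne_le hψm hfin hS fk hk ?_
    rw [hcard]
    exact hε
  have ek2 : ∫⁻ x, (if S' (k • x) = S (k • x) then 0 else 1) * ψ x ∂m ≤ ε := by
    have h1 := lintegral_weight_smul Γ (m := m)
      (F := fun x => if S' x = S x then (0 : ℝ≥0∞) else 1)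
      (measurable_comp_of_fibers (fibers_prod hS' hS)
        fun p => if p.1 = p.2 then (0 : ℝ≥0∞) else 1).aemeasurable ?_ hψ k
    · rw [h1]; exact e0
    · intro γ
      refine Eventually.of_forall fun x => ?_
      rw [heq, heq']
      simp only [EmbeddingLike.apply_eq_iff_eq]
  have m1 : Measurable fun x => (if S' (k • x) = S x then (0 : ℝ≥0∞) else 1) * ψ x :=
    (measurable_comp_of_fibers (fibers_prod fk hS)
      fun p => if p.1 = p.2 then (0 : ℝ≥0∞) else 1).mul hψm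
  have ek3 : ∫⁻ x, (if S (k • x) = S x then 0 else 1) * ψ x ∂m ≤ 2 * ε := by
    calc ∫⁻ x, (if S (k • x) = S x then 0 else 1) * ψ x ∂m ≤
        ∫⁻ x, ((if S' (k • x) = S x then 0 else 1) * ψ x +
          (if S' (k • x) = S (k • x) then 0 else 1) * ψ x) ∂m := by
          refine lintegral_mono fun x => ?_
          rw [← add_mul]
          gcongr
          by_cases h1 : S' (k • x) = S x
          · by_cases h2 : S' (k • x) = S (k • x)
            · have : S (k • x) = S x := by rw [← h2, h1]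
              simp [this]
            · simp only [h2, if_false]
              split_ifs <;> simp
          · simp only [h1, if_false]
            split_ifs <;> simp
      _ = ∫⁻ x, (if S' (k • x) = S x then 0 else 1) * ψ x ∂m +
          ∫⁻ x, (if S' (k • x) = S (k • x) then 0 else 1) * ψ x ∂m := lintegral_add_left m1 _
      _ ≤ ε + ε := add_le_add ek ek2
      _ = 2 * ε := by rw [two_mul]
  calc ∫⁻ x, ‖single (S (k • x)) - single (S x)‖ₑ ^ 2 * ψ x ∂m ≤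
      ∫⁻ x, 2 * ((if S (k • x) = S x then 0 else 1) * ψ x) ∂m := by
        refine lintegral_mono fun x => ?_
        rw [← mul_assoc]
        gcongr
        refine (enorm_single_sub_sq_le _ _).trans ?_
        split_ifs with h1 h2 h2
        · simp
        · exact absurd h1.symm h2
        · exact absurd h2.symm h1
        · simp
    _ = 2 * ∫⁻ x, (if S (k • x) = S x then 0 else 1) * ψ x ∂m := by
        refine lintegral_const_mul _ ?_
        exact (measurable_comp_of_fibers (fibers_prod fk' hS)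
          fun p => if p.1 = p.2 then (0 : ℝ≥0∞) else 1).mul hψm
    _ ≤ 2 * (2 * ε) := by gcongr
    _ = 4 * ε := by ring

/-- **One scale, one label.** -/
theorem notInv_le {K : Set G} {C : ℝ≥0} (hgap : HasGap.{u} G K C)
    {ψ : X → ℝ≥0∞} (hψ : IsWeight Γ m ψ) (hfin : ∫⁻ x, ψ x ∂m < ∞) {S S' : X → Finset R}
    (hS : ∀ U, MeasurableSet (S ⁻¹' {U})) (hS' : ∀ U, MeasurableSet (S' ⁻¹' {U}))
    (heq : ∀ (γ : Γ) x, S (γ • x) = conjF (c γ) (S x))
    (heq' : ∀ (γ : Γ) x, S' (γ • x) = conjF (c γ) (S' x))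
    (hsub : ∀ x, S x ⊆ S' x) (hK : ∀ k ∈ K, ∀ x, S x ⊆ S' (k • x)) {ε : ℝ≥0}
    (hε : ∫⁻ x, ((S' x).card : ℝ≥0∞) * ψ x ∂m ≤ ∫⁻ x, ((S x).card : ℝ≥0∞) * ψ x ∂m + ε)
    (x₀ : G₂) (hx₀ : ∀ x, S x ⊆ S' (x₀ • x)) (r : R)
    (hlab : ∀ w : X → EuclideanSpace ℝ (Finset R),
      InvSection Γ G m ψ (fun γ => conjE (c γ)) w → ∀ᵐ x ∂m, conjE r (w x) = w (x₀ • x)) :
    ∫⁻ x in {x | conjF r (S x) ≠ S x}, ψ x ∂m ≤ 6 * (2 * C ^ 2 + 1) * ε := by
  have hψm := hψ.meas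
  have hsq : ((NNReal.sqrt (4 * ε) : ℝ≥0) : ℝ≥0∞) ^ 2 = 4 * ε := by
    rw [← ENNReal.coe_pow, NNReal.sq_sqrt]
    push_cast
    ring
  have hsm : AEStronglyMeasurable (fun x => single (S x)) m :=
    (measurable_comp_of_fibers hS single).aestronglyMeasurable
  obtain ⟨w, hw, hwn⟩ := exists_invSection_near (η := NNReal.sqrt (4 * ε)) hgap hψ hfin hsm
    (B := 1) (c := fun γ => conjE (c γ)) (fun x => by simp [single])
    (fun γ x => by rw [heq, conjE_single]) (by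
      intro k hk
      rw [hsq]
      exact single_smul_sub_le hψ hfin hS hS' heq heq' hsub hε k (hK k hk))
  rw [mul_pow, hsq] at hwn
  have hwx := single_smul_sub_le hψ hfin hS hS' heq heq' hsub hε x₀ hx₀
  -- translate by `x₀`
  have hwn' : ∫⁻ x, ‖single (S (x₀ • x)) - w (x₀ • x)‖ₑ ^ 2 * ψ x ∂m ≤ C ^ 2 * (4 * ε) := by
    have h1 := lintegral_weight_smul Γ (m := m) (F := fun x => ‖single (S x) - w x‖ₑ ^ 2)
      ((hsm.sub hw.meas).enorm.pow_const _) ?_ hψ x₀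
    · rw [h1]; exact hwn
    · intro γ
      filter_upwards [hw.equiv γ] with x hx
      rw [hx, heq, ← conjE_single, ← map_sub, LinearIsometryEquiv.enorm_map]
  have hlow : 2 * ∫⁻ x in {x | conjF r (S x) ≠ S x}, ψ x ∂m ≤
      ∫⁻ x, 3 * (‖single (S x) - w x‖ₑ ^ 2 * ψ x +
        ‖single (S (x₀ • x)) - w (x₀ • x)‖ₑ ^ 2 * ψ x +
        ‖single (S (x₀ • x)) - single (S x)‖ₑ ^ 2 * ψ x) ∂m := by
    have hms : MeasurableSet {x | conjF r (S x) ≠ S x} := by
      have := measurable_comp_of_fibers (β := Prop) hS (fun U => conjF r U ≠ U)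
      exact measurableSet_setOfPred.2 this
    rw [← lintegral_indicator hms, ← lintegral_const_mul' _ _ (by simp)]
    apply lintegral_mono_ae
    filter_upwards [hlab w hw] with x hx
    by_cases hxn : x ∈ {x | conjF r (S x) ≠ S x}
    · rw [Set.indicator_of_mem hxn, ← add_mul, ← add_mul, ← mul_assoc]
      gcongr
      have h2 : (2 : ℝ≥0∞) = ‖single (conjF r (S x)) - single (S x)‖ₑ ^ 2 := by
        rw [enorm_sq_eq_ofReal, norm_single_sub_sq hxn]
        simp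
      have h3 : single (conjF r (S x)) - single (S x) = conjE r (single (S x) - w x) +
          -(single (S (x₀ • x)) - w (x₀ • x)) + (single (S (x₀ • x)) - single (S x)) := by
        rw [map_sub, conjE_single, hx]
        abel
      refine h2.le.trans ?_
      rw [h3]
      refine (enorm_add_sq_le _ _ _).trans ?_
      rw [LinearIsometryEquiv.enorm_map, enorm_neg]
    · rw [Set.indicator_of_notMem hxn]
      simp
  have mm1 : AEMeasurable (fun x => ‖single (S x) - w x‖ₑ ^ 2 * ψ x) m :=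
    ((hsm.sub hw.meas).enorm.pow_const _).mul hψm.aemeasurable
  have qx := (measurePreserving_smul x₀ m).quasiMeasurePreserving
  have mm2 : AEMeasurable (fun x => ‖single (S (x₀ • x)) - w (x₀ • x)‖ₑ ^ 2 * ψ x) m :=
    (((hsm.sub hw.meas).comp_quasiMeasurePreserving qx).enorm.pow_const _).mul hψm.aemeasurable
  have hup : ∫⁻ x, 3 * (‖single (S x) - w x‖ₑ ^ 2 * ψ x +
        ‖single (S (x₀ • x)) - w (x₀ • x)‖ₑ ^ 2 * ψ x +
        ‖single (S (x₀ • x)) - single (S x)‖ₑ ^ 2 * ψ x) ∂m ≤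
      3 * (C ^ 2 * (4 * ε) + C ^ 2 * (4 * ε) + 4 * ε) := by
    rw [lintegral_const_mul' _ _ (by simp)]
    have h9 : ∫⁻ x, (‖single (S x) - w x‖ₑ ^ 2 * ψ x +
        ‖single (S (x₀ • x)) - w (x₀ • x)‖ₑ ^ 2 * ψ x +
        ‖single (S (x₀ • x)) - single (S x)‖ₑ ^ 2 * ψ x) ∂m =
      ∫⁻ x, ‖single (S x) - w x‖ₑ ^ 2 * ψ x ∂m +
        ∫⁻ x, ‖single (S (x₀ • x)) - w (x₀ • x)‖ₑ ^ 2 * ψ x ∂m +
        ∫⁻ x, ‖single (S (x₀ • x)) - single (S x)‖ₑ ^ 2 * ψ x ∂m := by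
      have h10 := lintegral_add_left' (mm1.add mm2) (g := fun x =>
        ‖single (S (x₀ • x)) - single (S x)‖ₑ ^ 2 * ψ x)
      have h11 := lintegral_add_left' mm1 (g := fun x =>
        ‖single (S (x₀ • x)) - w (x₀ • x)‖ₑ ^ 2 * ψ x)
      simp only [Pi.add_apply] at h10 h11
      rw [h10, h11]
    rw [h9]
    gcongr
  have h8 := hlow.trans hup
  calc ∫⁻ x in {x | conjF r (S x) ≠ S x}, ψ x ∂m
      = 2⁻¹ * (2 * ∫⁻ x in {x | conjF r (S x) ≠ S x}, ψ x ∂m) := by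
        rw [← mul_assoc, ENNReal.inv_mul_cancel (by norm_num) (by norm_num), one_mul]
    _ ≤ 2⁻¹ * (3 * (C ^ 2 * (4 * ε) + C ^ 2 * (4 * ε) + 4 * ε)) := by gcongr
    _ = 2⁻¹ * (2 * (6 * (2 * C ^ 2 + 1) * ε)) := by ring
    _ = 6 * (2 * C ^ 2 + 1) * ε := by
        rw [← mul_assoc, ENNReal.inv_mul_cancel (by norm_num) (by norm_num), one_mul]

/-- Pigeonhole over the scales. -/
theorem exists_small_step {M : ℕ → ℝ≥0∞} {B : ℝ≥0} {J : ℕ} (hJ : 0 < J) (hM : M J ≤ B) :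
    ∃ j < J, M (j + 1) ≤ M j + (B / J : ℝ≥0) := by
  set δ : ℝ≥0 := B / J with hδ
  by_contra hcon
  push Not at hcon
  have hind : ∀ j, j ≤ J → (j : ℝ≥0∞) * δ ≤ M j := by
    intro j
    induction j with
    | zero => intro _; simp
    | succ j ih =>
      intro hj
      have h2 := ih (by omega)
      have h3 := hcon j (by omega)
      calc ((j + 1 : ℕ) : ℝ≥0∞) * δ = (j : ℝ≥0∞) * δ + δ := by push_cast; ring
        _ ≤ M j + δ := by gcongr
        _ ≤ M (j + 1) := h3.le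
  obtain ⟨j, rfl⟩ : ∃ j, J = j + 1 := ⟨J - 1, by omega⟩
  have h4 := hind j (by omega)
  have h5 := hcon j (by omega)
  have h6 : ((j + 1 : ℕ) : ℝ≥0∞) * δ = B := by
    rw [hδ, ← ENNReal.coe_natCast, ← ENNReal.coe_mul]
    congr 1
    field_simp
  have h7 : ((j + 1 : ℕ) : ℝ≥0∞) * δ < M (j + 1) := by
    calc ((j + 1 : ℕ) : ℝ≥0∞) * δ = (j : ℝ≥0∞) * δ + δ := by push_cast; ring
      _ ≤ M j + δ := by gcongr
      _ < M (j + 1) := h5
  rw [h6] at h7
  exact absurd hM (not_le.2 h7)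

end

end Vale.Agent.P011.H219
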