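import Vale.Agent.P011.H219.Slices
import Vale.Agent.P011.H219.NormalityRel

/-!
# The normality theorem on `H × Y`
-/

open MeasureTheory Filter Topology
open scoped ENNReal NNReal Pointwise

namespace Vale.Agent.P011.H219

noncomputable section

universe u v w

section weight

variable {Γ H : Type*} [Group Γ] [Countable Γ] [Group H] [MeasurableSpace H] [MeasurableMul H]
  {ι : Γ →* H}

/-- The weight of a fundamental set `C`. -/
def fundWeight (ι : Γ →* H) (C : Set H) (h : H) : ℝ≥0∞ :=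
  C.indicator 1 h / ∑' γ : Γ, C.indicator 1 (ι γ * h)

theorem fundWeight_le (C : Set H) (h : H) : fundWeight ι C h ≤ C.indicator 1 h := by
  unfold fundWeight
  by_cases hh : h ∈ C
  · refine ENNReal.div_le_of_le_mul ?_
    rw [Set.indicator_of_mem hh]
    simp only [Pi.one_apply, one_mul]
    calc (1 : ℝ≥0∞) = C.indicator 1 (ι 1 * h) := by
          rw [map_one, one_mul, Set.indicator_of_mem hh]; rfl
      _ ≤ _ := ENNReal.le_tsum (f := fun γ : Γ => C.indicator (1 : H → ℝ≥0∞) (ι γ * h)) 1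
  · rw [Set.indicator_of_notMem hh]
    simp

theorem measurable_fundWeight {C : Set H} (hC : MeasurableSet C) :
    Measurable (fundWeight ι C) := by
  unfold fundWeight
  refine Measurable.div (measurable_one.indicator hC) ?_
  exact Measurable.ennreal_tsum fun γ =>
    (measurable_one.indicator hC).comp (measurable_const_mul _)

theorem sum_fundWeight {C : Set H} (hcov : ∀ h : H, ∃ γ : Γ, ι γ * h ∈ C)
    (hfin : ∀ h : H, {γ : Γ | ι γ * h ∈ C}.Finite) (h : H) :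
    ∑' γ : Γ, fundWeight ι C (ι γ * h) = 1 := by
  unfold fundWeight
  have h1 : ∀ γ : Γ, ∑' γ' : Γ, C.indicator (1 : H → ℝ≥0∞) (ι γ' * (ι γ * h)) =
      ∑' γ' : Γ, C.indicator (1 : H → ℝ≥0∞) (ι γ' * h) := by
    intro γ
    rw [← (Equiv.mulRight γ).tsum_eq fun γ' : Γ => C.indicator (1 : H → ℝ≥0∞) (ι γ' * h)]
    apply tsum_congr
    intro γ'
    simp only [Equiv.coe_mulRight, map_mul, mul_assoc]
  simp_rw [h1, div_eq_mul_inv]
  rw [ENNReal.tsum_mul_right]
  refine ENNReal.mul_inv_cancel ?_ ?_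
  · obtain ⟨γ, hγ⟩ := hcov h
    intro h0
    have h2 := ENNReal.tsum_eq_zero.1 h0 γ
    rw [Set.indicator_of_mem hγ] at h2
    exact one_ne_zero h2
  · have h2 : ∑' γ : Γ, C.indicator (1 : H → ℝ≥0∞) (ι γ * h) =
        ∑ γ ∈ (hfin h).toFinset, C.indicator (1 : H → ℝ≥0∞) (ι γ * h) := by
      refine tsum_eq_sum fun γ hγ => ?_
      rw [Set.indicator_of_notMem]
      intro h3
      exact hγ ((hfin h).mem_toFinset.2 h3)
    rw [h2]
    refine ne_of_lt (ENNReal.sum_lt_top.2 fun γ _ => ?_)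
    refine lt_of_le_of_lt (Set.indicator_le_self' (fun _ _ => zero_le) _) ?_
    exact ENNReal.one_lt_top

end weight

section nu

variable {Γ Y : Type*} [Group Γ] [MulAction Γ Y] [Countable Y] [MeasurableSpace Y]
  [DiscreteMeasurableSpace Y]

/-- The measure on a countable set with given weights. -/
def nuW (W : Y → ℝ≥0∞) : Measure Y := Measure.sum fun y => W y • Measure.dirac y

instance (W : Y → ℝ≥0∞) : SFinite (nuW W) := by
  unfold nuW
  infer_instance

theorem lintegral_nuW (W : Y → ℝ≥0∞) (f : Y → ℝ≥0∞) : ∫⁻ y, f y ∂(nuW W) = ∑' y, W y * f y := by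
  unfold nuW
  rw [lintegral_sum_measure]
  apply tsum_congr
  intro y
  rw [lintegral_smul_measure, lintegral_dirac, smul_eq_mul]

theorem nuW_singleton (W : Y → ℝ≥0∞) (y : Y) : nuW W {y} = W y := by
  classical
  rw [← lintegral_indicator_one (measurableSet_singleton y), lintegral_nuW, tsum_eq_single y]
  · simp
  · intro z hz
    rw [Set.indicator_of_notMem (by simpa using hz), mul_zero]

theorem nuW_inv {W : Y → ℝ≥0∞} (hW : ∀ (γ : Γ) y, W (γ • y) = W y) :
    SMulInvariantMeasure Γ Y (nuW W) where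
  measure_preimage_smul γ s hs := by
    have hs' : MeasurableSet ((γ • ·) ⁻¹' s : Set Y) := MeasurableSet.of_discrete
    rw [← lintegral_indicator_one hs', ← lintegral_indicator_one hs, lintegral_nuW,
      lintegral_nuW, ← (MulAction.toPerm γ).tsum_eq fun y => W y * s.indicator 1 y]
    apply tsum_congr
    intro y
    simp only [MulAction.toPerm_apply]
    rw [hW]
    rfl

end nu

section abs

variable {X : Type u} [MeasurableSpace X] {m : Measure X}
variable {Γ : Type*} [Group Γ] [MulAction Γ X]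
variable {G : Type v} [Group G] [MulAction G X]
variable [Countable Γ] [MeasurableConstSMul Γ X] [SMulInvariantMeasure Γ X m]
  [MeasurableConstSMul G X] [SMulInvariantMeasure G X m] [SMulCommClass Γ G X]
variable {R : Type} [Group R] [Fintype R] [DecidableEq R] {c : Γ → R}

/-- The normality theorem for a finite set `P` of labels. -/
theorem exists_scale_notInv_le {K : Set G} {C : ℝ≥0} (hgap : HasGap.{u} G K C)
    {ψ : X → ℝ≥0∞} (hψ : IsWeight Γ m ψ) (P : Finset R)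
    (hlab : ∀ r ∈ P, ∀ w : X → EuclideanSpace ℝ (Finset R),
      InvSection Γ G m ψ (fun γ => conjE (c γ)) w → ∀ᵐ x ∂m, conjE r (w x) = w x)
    {S : ℕ → X → Finset R}
    (hS : ∀ j, ∀ U, MeasurableSet (S j ⁻¹' {U}))
    (heq : ∀ j, ∀ (γ : Γ) x, S j (γ • x) = conjF (c γ) (S j x))
    (hsub : ∀ j, ∀ x, S j x ⊆ S (j + 1) x) (hK : ∀ j, ∀ k ∈ K, ∀ x, S j x ⊆ S (j + 1) (k • x))
    {J : ℕ} (hJ : 0 < J) {A : ℝ≥0} (hA : ∫⁻ x, ψ x ∂m ≤ A) :
    ∃ j < J, ∫⁻ x in {x | ∃ r ∈ P, conjF r (S j x) ≠ S j x}, ψ x ∂m ≤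
      P.card * (6 * (2 * C ^ 2 + 1) * (Fintype.card R * A / J : ℝ≥0)) := by
  letI : MulAction Unit X :=
    { smul := fun _ x => x, one_smul := fun _ => rfl, mul_smul := fun _ _ _ => rfl }
  haveI : MeasurableConstSMul Unit X := ⟨fun _ => measurable_id⟩
  haveI : SMulInvariantMeasure Unit X m := ⟨fun _ _ _ => rfl⟩
  haveI : SMulCommClass Γ Unit X := ⟨fun _ _ _ => rfl⟩
  have hfin : ∫⁻ x, ψ x ∂m < ∞ := hA.trans_lt ENNReal.coe_lt_top
  let M : ℕ → ℝ≥0∞ := fun j => ∫⁻ x, ((S j x).card : ℝ≥0∞) * ψ x ∂m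
  have hM : M J ≤ ((Fintype.card R * A : ℝ≥0) : ℝ≥0∞) := by
    calc M J ≤ ∫⁻ x, (Fintype.card R : ℝ≥0∞) * ψ x ∂m := by
          refine lintegral_mono fun x => ?_
          have : ((S J x).card : ℝ≥0∞) ≤ (Fintype.card R : ℝ≥0∞) := by
            exact_mod_cast Finset.card_le_univ (S J x)
          exact mul_le_mul' this le_rfl
      _ = (Fintype.card R : ℝ≥0∞) * ∫⁻ x, ψ x ∂m := lintegral_const_mul _ hψ.meas
      _ ≤ (Fintype.card R : ℝ≥0∞) * A := by gcongr
      _ = ((Fintype.card R * A : ℝ≥0) : ℝ≥0∞) := by push_cast; rfl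
  obtain ⟨j, hj, hstep⟩ := exists_small_step hJ hM
  refine ⟨j, hj, ?_⟩
  have hone : ∀ r ∈ P, ∫⁻ x in {x | conjF r (S j x) ≠ S j x}, ψ x ∂m ≤
      6 * (2 * C ^ 2 + 1) * (Fintype.card R * A / J : ℝ≥0) := by
    intro r hr
    exact notInv_le (G₂ := Unit) hgap hψ hfin (hS j) (hS (j + 1)) (heq j) (heq (j + 1)) (hsub j)
      (hK j) hstep () (hsub j) r (hlab r hr)
  have hms : ∀ r, MeasurableSet {x | conjF r (S j x) ≠ S j x} := by
    intro r
    have := measurable_comp_of_fibers (β := Prop) (hS j) (fun U => conjF r U ≠ U)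
    exact measurableSet_setOfPred.2 this
  have hms' : MeasurableSet {x | ∃ r ∈ P, conjF r (S j x) ≠ S j x} := by
    have := measurable_comp_of_fibers (β := Prop) (hS j) (fun U => ∃ r ∈ P, conjF r U ≠ U)
    exact measurableSet_setOfPred.2 this
  calc ∫⁻ x in {x | ∃ r ∈ P, conjF r (S j x) ≠ S j x}, ψ x ∂m
      = ∫⁻ x, {x | ∃ r ∈ P, conjF r (S j x) ≠ S j x}.indicator ψ x ∂m :=
        (lintegral_indicator hms' _).symm
    _ ≤ ∫⁻ x, ∑ r ∈ P, {x | conjF r (S j x) ≠ S j x}.indicator ψ x ∂m := by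
        refine lintegral_mono fun x => ?_
        by_cases hx : x ∈ {x | ∃ r ∈ P, conjF r (S j x) ≠ S j x}
        · rw [Set.indicator_of_mem hx]
          obtain ⟨r, hr, hrx⟩ := hx
          refine le_trans (le_of_eq ?_) (Finset.single_le_sum
            (f := fun r => {x | conjF r (S j x) ≠ S j x}.indicator ψ x) (fun _ _ => zero_le) hr)
          exact (Set.indicator_of_mem (s := {x | conjF r (S j x) ≠ S j x}) hrx ψ).symm
        · rw [Set.indicator_of_notMem hx]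
          exact zero_le
    _ = ∑ r ∈ P, ∫⁻ x in {x | conjF r (S j x) ≠ S j x}, ψ x ∂m := by
        rw [lintegral_finset_sum]
        · exact Finset.sum_congr rfl fun r _ => lintegral_indicator (hms r) _
        · exact fun r _ => hψ.meas.indicator (hms r)
    _ ≤ ∑ r ∈ P, 6 * (2 * C ^ 2 + 1) * ((Fintype.card R * A / J : ℝ≥0) : ℝ≥0∞) :=
        Finset.sum_le_sum hone
    _ = _ := by rw [Finset.sum_const, nsmul_eq_mul]

end abs

section concrete

variable {Γ H : Type u} {G₀ : Type v} [Group Γ] [Countable Γ] [Group G₀] [Group H]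
  [TopologicalSpace H] [IsTopologicalGroup H] [T2Space H]
  [LocallyCompactSpace H] [SecondCountableTopology H] [MeasurableSpace H] [BorelSpace H]
  {μ : Measure H} [SFinite μ] [μ.IsMulLeftInvariant] [IsFiniteMeasureOnCompacts μ]
  [μ.InnerRegularCompactLTTop]
variable [MeasurableSpace G₀] [MeasurableMul G₀] {μ₀ : Measure G₀}
  [SFinite μ₀] [μ₀.IsMulLeftInvariant]
variable {ι : Γ →* H} {j₀ : G₀ →* H} {Y : Type u} [MulAction Γ Y] [Countable Y]
variable {R : Type} [Group R] [Fintype R] [DecidableEq R] {c : Γ → R}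

/-- **The normality theorem on `H × Y`.** -/
theorem normality_prod {K : Set G₀} {C : ℝ≥0} (hgap : HasGap.{u} G₀ K C)
    (hμ₀ : μ₀ ≠ 0) (hj : Measurable j₀) (hN : j₀.range.Normal)
    (hq : ∀ g : G₀, MeasurePreserving (· * j₀ g) μ μ)
    {D : Set H} (hD : MeasurableSet D) (hcov : ∀ h : H, ∃ γ : Γ, ι γ * h ∈ D)
    (hfin : ∀ h : H, {γ : Γ | ι γ * h ∈ D}.Finite)
    {W : Y → ℝ≥0∞} (hW : ∀ (γ : Γ) y, W (γ • y) = W y) (P : Finset R)
    (happ : ∀ y : Y, W y ≠ 0 → ∀ r ∈ P, ∀ O ∈ 𝓝 (1 : H), ∃ γ : Γ, γ • y = y ∧ c γ = r ∧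
      ∃ o ∈ O, ∃ g : G₀, ι γ = o * j₀ g)
    {S : ℕ → H → Y → Finset R}
    (hS : ∀ j y, ∀ U, MeasurableSet {h | S j h y = U})
    (heq : ∀ j, ∀ (γ : Γ) h y, S j (ι γ * h) (γ • y) = conjF (c γ) (S j h y))
    (hsub : ∀ j, ∀ h y, S j h y ⊆ S (j + 1) h y)
    (hK : ∀ j, ∀ k ∈ K, ∀ h y, S j h y ⊆ S (j + 1) (h * (j₀ k)⁻¹) y)
    {J : ℕ} (hJ : 0 < J) {A : ℝ≥0} (hA : μ D * ∑' y, W y ≤ A) :
    ∃ j < J, ∑' y, W y * ∫⁻ h in {h | ∃ r ∈ P, conjF r (S j h y) ≠ S j h y},
        fundWeight ι D h ∂μ ≤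
      P.card * (6 * (2 * C ^ 2 + 1) * (Fintype.card R * A / J : ℝ≥0)) := by
  let _ : MeasurableSpace Y := ⊤
  have _ : SMulInvariantMeasure Γ Y (nuW W) := nuW_inv hW
  have _ : SMulInvariantMeasure G₀ (Sp ι j₀ Y) (spM ι j₀ μ (nuW W)) := smulInv_G hq
  have hfwm : Measurable (fundWeight ι D) := measurable_fundWeight hD
  have hψ : IsWeight Γ (spM ι j₀ μ (nuW W)) (fun x : Sp ι j₀ Y => fundWeight ι D x.1) :=
    { meas := hfwm.comp (show Measurable fun x : H × Y => x.1 from measurable_fst)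
      sum := Eventually.of_forall fun x => sum_fundWeight hcov hfin x.1 }
  have hmass : ∫⁻ x, fundWeight ι D x.1 ∂(spM ι j₀ μ (nuW W)) ≤ A := by
    refine le_trans ?_ hA
    have h1 : ∫⁻ x, fundWeight ι D x.1 ∂(spM ι j₀ μ (nuW W)) =
        ∫⁻ x : H × Y, fundWeight ι D x.1 * 1 ∂(μ.prod (nuW W)) := by
      have h0 : ∫⁻ x : H × Y, fundWeight ι D x.1 * 1 ∂(μ.prod (nuW W)) =
        ∫⁻ x : H × Y, fundWeight ι D x.1 ∂(μ.prod (nuW W)) := by simp only [mul_one]
      rw [h0]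
      rfl
    rw [h1, lintegral_prod_mul hfwm.aemeasurable aemeasurable_const]
    have h2 : ∫⁻ _y : Y, (1 : ℝ≥0∞) ∂(nuW W) = ∑' y, W y := by
      rw [lintegral_nuW]; simp
    rw [h2]
    gcongr
    calc ∫⁻ h, fundWeight ι D h ∂μ ≤ ∫⁻ h, D.indicator 1 h ∂μ :=
          lintegral_mono fun h => fundWeight_le D h
      _ = μ D := lintegral_indicator_one hD
  have hSm : ∀ j, ∀ U, MeasurableSet ((fun x : Sp ι j₀ Y => S j x.1 x.2) ⁻¹' {U}) := by
    intro j U
    have h1 : ((fun x : Sp ι j₀ Y => S j x.1 x.2) ⁻¹' {U}) =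
        (⋃ y : Y, {h | S j h y = U} ×ˢ {y} : Set (H × Y)) := by
      have h2 : ((fun x : H × Y => S j x.1 x.2) ⁻¹' {U}) =
          (⋃ y : Y, {h | S j h y = U} ×ˢ {y} : Set (H × Y)) := by
        ext ⟨h, y⟩
        simp
      exact h2
    rw [h1]
    exact MeasurableSet.iUnion fun y => (hS j y U).prod (MeasurableSet.of_discrete)
  have hlab : ∀ r ∈ P, ∀ w : Sp ι j₀ Y → EuclideanSpace ℝ (Finset R),
      InvSection Γ G₀ (spM ι j₀ μ (nuW W)) (fun x : Sp ι j₀ Y => fundWeight ι D x.1)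
        (fun γ => conjE (c γ)) w →
      ∀ᵐ x ∂(spM ι j₀ μ (nuW W)), conjE r (w x) = w x := by
    intro r hr w hw
    refine section_fixed hμ₀ hj hN hq hw.meas hw.equiv hw.inv (conjE r) ?_
    intro y hy O hO
    rw [nuW_singleton] at hy
    obtain ⟨γ, h1, h2, h3⟩ := happ y hy r hr O hO
    exact ⟨γ, h1, by rw [h2], h3⟩
  obtain ⟨j, hjJ, hj2⟩ := exists_scale_notInv_le (G := G₀) (X := Sp ι j₀ Y)
    (m := spM ι j₀ μ (nuW W)) (c := c) hgap hψ P hlab hSm (fun j γ x => heq j γ x.1 x.2)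
    (fun j x => hsub j x.1 x.2) (fun j k hk x => hK j k hk x.1 x.2) hJ hmass
  · refine ⟨j, hjJ, le_trans (le_of_eq ?_) hj2⟩
    have hms : MeasurableSet {x : H × Y | ∃ r ∈ P, conjF r (S j x.1 x.2) ≠ S j x.1 x.2} := by
      have := measurable_comp_of_fibers (β := Prop) (hSm j) (fun U => ∃ r ∈ P, conjF r U ≠ U)
      exact measurableSet_setOfPred.2 this
    have h1 : ∫⁻ x in {x : Sp ι j₀ Y | ∃ r ∈ P, conjF r (S j x.1 x.2) ≠ S j x.1 x.2},
        fundWeight ι D x.1 ∂(spM ι j₀ μ (nuW W)) =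
        ∫⁻ x in {x : H × Y | ∃ r ∈ P, conjF r (S j x.1 x.2) ≠ S j x.1 x.2},
          fundWeight ι D x.1 ∂(μ.prod (nuW W)) := rfl
    rw [h1, ← lintegral_indicator hms, lintegral_prod_symm]
    · rw [lintegral_nuW]
      apply tsum_congr
      intro y
      have hmy : MeasurableSet {h | ∃ r ∈ P, conjF r (S j h y) ≠ S j h y} :=
        measurable_prodMk_right hms
      rw [← lintegral_indicator hmy]
      rfl
    · exact ((hfwm.comp measurable_fst).indicator hms).aemeasurable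

end concrete

end

end Vale.Agent.P011.H219
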