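import Vale.Agent.P011.H219.NormalityC

/-!
# One scale on `H × Y`, and the grid pigeonhole
-/

open MeasureTheory Filter Topology
open scoped ENNReal NNReal Pointwise

namespace Vale.Agent.P011.H219

noncomputable section

universe u v w

variable {Γ H : Type u} {G₀ : Type v} [Group Γ] [Countable Γ] [Group G₀] [Group H]
  [TopologicalSpace H] [IsTopologicalGroup H] [T2Space H]
  [LocallyCompactSpace H] [SecondCountableTopology H] [MeasurableSpace H] [BorelSpace H]
  {μ : Measure H} [SFinite μ] [μ.IsMulLeftInvariant] [IsFiniteMeasureOnCompacts μ]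
  [μ.InnerRegularCompactLTTop]
variable [MeasurableSpace G₀] [MeasurableMul G₀] {μ₀ : Measure G₀}
  [SFinite μ₀] [μ₀.IsMulLeftInvariant]
variable {ι : Γ →* H} {j₀ : G₀ →* H} {Y : Type u} [MulAction Γ Y] [Countable Y]
variable {R : Type} [Group R] [Fintype R] [DecidableEq R] {c : Γ → R}

/-- The average over `H × Y` of a function against the weight. -/
def avg (ι : Γ →* H) (μ : Measure H) (D : Set H) (W : Y → ℝ≥0∞) (F : H → Y → ℝ≥0∞) : ℝ≥0∞ :=
  ∑' y, W y * ∫⁻ h, F h y * fundWeight ι D h ∂μ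

/-- **One scale, one label, on `H × Y`.** -/
theorem notInv_prod {K : Set G₀} {C : ℝ≥0} (hgap : HasGap.{u} G₀ K C)
    (hμ₀ : μ₀ ≠ 0) (hj : Measurable j₀) (hN : j₀.range.Normal)
    (hq : ∀ g : G₀, MeasurePreserving (· * j₀ g) μ μ)
    {D : Set H} (hD : MeasurableSet D) (hDfin : μ D < ∞) (hcov : ∀ h : H, ∃ γ : Γ, ι γ * h ∈ D)
    (hfin : ∀ h : H, {γ : Γ | ι γ * h ∈ D}.Finite)
    {W : Y → ℝ≥0∞} (hW : ∀ (γ : Γ) y, W (γ • y) = W y) (hWs : ∑' y, W y < ∞) (r : R)
    (happ : ∀ y : Y, W y ≠ 0 → ∀ O ∈ 𝓝 (1 : H), ∃ γ : Γ, γ • y = y ∧ c γ = r ∧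
      ∃ o ∈ O, ∃ g : G₀, ι γ = o * j₀ g)
    {S S' : H → Y → Finset R}
    (hS : ∀ y, ∀ U, MeasurableSet {h | S h y = U}) (hS' : ∀ y, ∀ U, MeasurableSet {h | S' h y = U})
    (heq : ∀ (γ : Γ) h y, S (ι γ * h) (γ • y) = conjF (c γ) (S h y))
    (heq' : ∀ (γ : Γ) h y, S' (ι γ * h) (γ • y) = conjF (c γ) (S' h y))
    (hsub : ∀ h y, S h y ⊆ S' h y)
    (hK : ∀ k ∈ K, ∀ h y, S h y ⊆ S' (h * (j₀ k)⁻¹) y) {ε : ℝ≥0}
    (hε : avg ι μ D W (fun h y => ((S' h y).card : ℝ≥0∞)) ≤
      avg ι μ D W (fun h y => ((S h y).card : ℝ≥0∞)) + ε) :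
    avg ι μ D W (fun h y => if conjF r (S h y) = S h y then 0 else 1) ≤
      6 * (2 * C ^ 2 + 1) * ε := by
  let _ : MeasurableSpace Y := ⊤
  have _ : SMulInvariantMeasure Γ Y (nuW W) := nuW_inv hW
  have _ : SMulInvariantMeasure G₀ (Sp ι j₀ Y) (spM ι j₀ μ (nuW W)) := smulInv_G hq
  let _ : MulAction Unit (Sp ι j₀ Y) :=
    { smul := fun _ x => x, one_smul := fun _ => rfl, mul_smul := fun _ _ _ => rfl }
  have _ : MeasurableConstSMul Unit (Sp ι j₀ Y) := ⟨fun _ => measurable_id⟩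
  have _ : SMulInvariantMeasure Unit (Sp ι j₀ Y) (spM ι j₀ μ (nuW W)) := ⟨fun _ _ _ => rfl⟩
  have _ : SMulCommClass Γ Unit (Sp ι j₀ Y) := ⟨fun _ _ _ => rfl⟩
  have hfwm : Measurable (fundWeight ι D) := measurable_fundWeight hD
  have hψ : IsWeight Γ (spM ι j₀ μ (nuW W)) (fun x : Sp ι j₀ Y => fundWeight ι D x.1) :=
    { meas := hfwm.comp (show Measurable fun x : H × Y => x.1 from measurable_fst)
      sum := Eventually.of_forall fun x => sum_fundWeight hcov hfin x.1 }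
  -- integrals over the product
  have hint : ∀ F : H × Y → ℝ≥0∞, Measurable F →
      ∫⁻ x : Sp ι j₀ Y, F x * fundWeight ι D x.1 ∂(spM ι j₀ μ (nuW W)) =
        avg ι μ D W (fun h y => F (h, y)) := by
    intro F hF
    have h1 : ∫⁻ x : Sp ι j₀ Y, F x * fundWeight ι D x.1 ∂(spM ι j₀ μ (nuW W)) =
        ∫⁻ x : H × Y, F x * fundWeight ι D x.1 ∂(μ.prod (nuW W)) := rfl
    have h2 : AEMeasurable (fun x : H × Y => F x * fundWeight ι D x.1) (μ.prod (nuW W)) :=
      (hF.mul (hfwm.comp measurable_fst)).aemeasurable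
    rw [h1, lintegral_prod_symm _ h2, lintegral_nuW]
    rfl
  have hmass : ∫⁻ x, fundWeight ι D x.1 ∂(spM ι j₀ μ (nuW W)) < ∞ := by
    have h1 := hint (fun _ => 1) measurable_const
    simp only [one_mul, avg] at h1
    rw [h1, ENNReal.tsum_mul_right]
    refine ENNReal.mul_lt_top hWs (lt_of_le_of_lt ?_ hDfin)
    calc ∫⁻ h, fundWeight ι D h ∂μ ≤ ∫⁻ h, D.indicator 1 h ∂μ :=
          lintegral_mono fun h => fundWeight_le D h
      _ = μ D := lintegral_indicator_one hD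
  have hSm : ∀ {S : H → Y → Finset R}, (∀ y, ∀ U, MeasurableSet {h | S h y = U}) →
      ∀ U, MeasurableSet ((fun x : Sp ι j₀ Y => S x.1 x.2) ⁻¹' {U}) := by
    intro S hS U
    have h1 : ((fun x : Sp ι j₀ Y => S x.1 x.2) ⁻¹' {U}) =
        (⋃ y : Y, {h | S h y = U} ×ˢ {y} : Set (H × Y)) := by
      have h2 : ((fun x : H × Y => S x.1 x.2) ⁻¹' {U}) =
          (⋃ y : Y, {h | S h y = U} ×ˢ {y} : Set (H × Y)) := by
        ext ⟨h, y⟩
        simp
      exact h2
    rw [h1]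
    exact MeasurableSet.iUnion fun y => (hS y U).prod (MeasurableSet.of_discrete)
  have hlab : ∀ w : Sp ι j₀ Y → EuclideanSpace ℝ (Finset R),
      InvSection Γ G₀ (spM ι j₀ μ (nuW W)) (fun x : Sp ι j₀ Y => fundWeight ι D x.1)
        (fun γ => conjE (c γ)) w →
      ∀ᵐ x ∂(spM ι j₀ μ (nuW W)), conjE r (w x) = w x := by
    intro w hw
    refine section_fixed hμ₀ hj hN hq hw.meas hw.equiv hw.inv (conjE r) ?_
    intro y hy O hO
    rw [nuW_singleton] at hy
    obtain ⟨γ, h1, h2, h3⟩ := happ y hy O hO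
    exact ⟨γ, h1, by rw [h2], h3⟩
  have hcardm : ∀ {S : H → Y → Finset R}, (∀ y, ∀ U, MeasurableSet {h | S h y = U}) →
      Measurable fun x : H × Y => ((S x.1 x.2).card : ℝ≥0∞) := by
    intro S hS
    exact measurable_comp_of_fibers (X := H × Y) (hSm hS) fun U => (U.card : ℝ≥0∞)
  have main := notInv_le (Γ := Γ) (G := G₀) (G₂ := Unit) (X := Sp ι j₀ Y)
    (m := spM ι j₀ μ (nuW W)) (c := c) (ε := ε) hgap hψ hmass (hSm hS) (hSm hS')
    (fun γ x => heq γ x.1 x.2) (fun γ x => heq' γ x.1 x.2) (fun x => hsub x.1 x.2)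
    (fun k hk x => hK k hk x.1 x.2) (by
      have e1 := hint _ (hcardm hS')
      have e2 := hint _ (hcardm hS)
      rw [e1, e2]
      exact hε) () (fun x => hsub x.1 x.2) r hlab
  refine le_trans (le_of_eq ?_) main
  have hms : MeasurableSet {x : H × Y | conjF r (S x.1 x.2) ≠ S x.1 x.2} := by
    have := measurable_comp_of_fibers (X := H × Y) (β := Prop) (hSm hS) (fun U => conjF r U ≠ U)
    exact measurableSet_setOfPred.2 this
  have hindm : Measurable fun x : H × Y =>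
      if conjF r (S x.1 x.2) = S x.1 x.2 then (0 : ℝ≥0∞) else 1 :=
    measurable_comp_of_fibers (X := H × Y) (hSm hS) fun U => if conjF r U = U then (0 : ℝ≥0∞) else 1
  rw [← hint _ hindm]
  have h1 : ∫⁻ x in {x : Sp ι j₀ Y | conjF r (S x.1 x.2) ≠ S x.1 x.2},
      fundWeight ι D x.1 ∂(spM ι j₀ μ (nuW W)) =
      ∫⁻ x in {x : H × Y | conjF r (S x.1 x.2) ≠ S x.1 x.2},
        fundWeight ι D x.1 ∂(μ.prod (nuW W)) := rfl
  rw [h1, ← lintegral_indicator hms]
  show ∫⁻ x : H × Y, _ ∂(μ.prod (nuW W)) = _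
  apply lintegral_congr
  intro x
  by_cases hx : conjF r (S x.1 x.2) = S x.1 x.2
  · rw [Set.indicator_of_notMem (by simpa using hx), if_pos hx, zero_mul]
  · rw [Set.indicator_of_mem (by simpa using hx), if_neg hx, one_mul]

section grid

/-- **Grid pigeonhole.**  `M L j` nondecreasing in `j` (`0 ≤ M ≤ a`), `F j L` nondecreasing in `L`
(`0 ≤ F ≤ b`): some pair `(j, L)` has both jumps small. -/
theorem exists_grid (M F : ℕ → ℕ → ℝ) {J I : ℕ} {a b ε η : ℝ} (hε : 0 < ε) (hη : 0 < η)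
    (hM : ∀ L < I, ∀ j < J, M L j ≤ M L (j + 1)) (hM0 : ∀ L < I, 0 ≤ M L 0)
    (hMa : ∀ L < I, M L J ≤ a)
    (hF : ∀ j < J, ∀ L < I, F j L ≤ F j (L + 1)) (hF0 : ∀ j < J, 0 ≤ F j 0)
    (hFb : ∀ j < J, F j I ≤ b)
    (hIJ : I * (a / ε) + J * (b / η) < I * J) :
    ∃ j < J, ∃ L < I, M L (j + 1) - M L j ≤ ε ∧ F j (L + 1) - F j L ≤ η := by
  classical
  by_contra hcon
  push Not at hcon
  set P := (Finset.range I) ×ˢ (Finset.range J) with hP
  set P1 := P.filter fun p => ε < M p.1 (p.2 + 1) - M p.1 p.2 with hP1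
  set P2 := P.filter fun p => η < F p.2 (p.1 + 1) - F p.2 p.1 with hP2
  have hcov : P ⊆ P1 ∪ P2 := by
    intro p hp
    rw [Finset.mem_union]
    by_cases h1 : ε < M p.1 (p.2 + 1) - M p.1 p.2
    · left
      exact Finset.mem_filter.2 ⟨hp, h1⟩
    · right
      rw [hP, Finset.mem_product, Finset.mem_range, Finset.mem_range] at hp
      refine Finset.mem_filter.2 ⟨?_, hcon p.2 hp.2 p.1 hp.1 (not_lt.1 h1)⟩
      rw [hP, Finset.mem_product, Finset.mem_range, Finset.mem_range]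
      exact hp
  have h1 : (P1.card : ℝ) * ε ≤ I * a := by
    calc (P1.card : ℝ) * ε = ∑ p ∈ P1, ε := by rw [Finset.sum_const, nsmul_eq_mul]
      _ ≤ ∑ p ∈ P1, (M p.1 (p.2 + 1) - M p.1 p.2) :=
          Finset.sum_le_sum fun p hp => (Finset.mem_filter.1 hp).2.le
      _ ≤ ∑ p ∈ P, (M p.1 (p.2 + 1) - M p.1 p.2) := by
          refine Finset.sum_le_sum_of_subset_of_nonneg (Finset.filter_subset _ _) ?_
          intro p hp _
          rw [hP, Finset.mem_product, Finset.mem_range, Finset.mem_range] at hp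
          linarith [hM p.1 hp.1 p.2 hp.2]
      _ = ∑ L ∈ Finset.range I, (M L J - M L 0) := by
          rw [hP, Finset.sum_product]
          exact Finset.sum_congr rfl fun L _ => Finset.sum_range_sub (fun j => M L j) J
      _ ≤ ∑ L ∈ Finset.range I, a := by
          refine Finset.sum_le_sum fun L hL => ?_
          rw [Finset.mem_range] at hL
          linarith [hM0 L hL, hMa L hL]
      _ = I * a := by rw [Finset.sum_const, Finset.card_range, nsmul_eq_mul]
  have h2 : (P2.card : ℝ) * η ≤ J * b := by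
    calc (P2.card : ℝ) * η = ∑ p ∈ P2, η := by rw [Finset.sum_const, nsmul_eq_mul]
      _ ≤ ∑ p ∈ P2, (F p.2 (p.1 + 1) - F p.2 p.1) :=
          Finset.sum_le_sum fun p hp => (Finset.mem_filter.1 hp).2.le
      _ ≤ ∑ p ∈ P, (F p.2 (p.1 + 1) - F p.2 p.1) := by
          refine Finset.sum_le_sum_of_subset_of_nonneg (Finset.filter_subset _ _) ?_
          intro p hp _
          rw [hP, Finset.mem_product, Finset.mem_range, Finset.mem_range] at hp
          linarith [hF p.2 hp.2 p.1 hp.1]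
      _ = ∑ j ∈ Finset.range J, (F j I - F j 0) := by
          rw [hP, Finset.sum_product_right]
          exact Finset.sum_congr rfl fun j _ => Finset.sum_range_sub (fun L => F j L) I
      _ ≤ ∑ j ∈ Finset.range J, b := by
          refine Finset.sum_le_sum fun j hj => ?_
          rw [Finset.mem_range] at hj
          linarith [hF0 j hj, hFb j hj]
      _ = J * b := by rw [Finset.sum_const, Finset.card_range, nsmul_eq_mul]
  have h3 : (P.card : ℝ) ≤ P1.card + P2.card := by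
    have h4 : P.card ≤ P1.card + P2.card :=
      (Finset.card_le_card hcov).trans (Finset.card_union_le _ _)
    exact_mod_cast h4
  have h5 : (P.card : ℝ) = I * J := by
    rw [hP, Finset.card_product, Finset.card_range, Finset.card_range]
    push_cast; rfl
  have h6 : (P1.card : ℝ) ≤ I * (a / ε) := by
    rw [← mul_div_assoc, le_div_iff₀ hε]
    exact h1
  have h7 : (P2.card : ℝ) ≤ J * (b / η) := by
    rw [← mul_div_assoc, le_div_iff₀ hη]
    exact h2
  linarith

end grid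

end

end Vale.Agent.P011.H219
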