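import Mathlib

/-!
# Equivariant square integrable sections

`X` a measure space, `Γ` countable and `G₀` arbitrary, commuting measure preserving actions on
`X`, `ψ` a weight with `∑_γ ψ(γ x) = 1` and finite integral, `c : Γ → O(E)`.
We construct the Hilbert space of `Γ`-equivariant sections `X → E` (square integrable modulo `Γ`)
with the isometric action of `G₀`.
-/

open MeasureTheory Filter
open scoped ENNReal NNReal InnerProductSpace

namespace Vale.Agent.P011.H219

noncomputable section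

variable {X : Type*} [MeasurableSpace X]

section unfold

variable (Γ : Type*) [Group Γ] [MulAction Γ X]

/-- `∑_γ ψ(γ x) = 1` for almost all `x`. -/
structure IsWeight (m : Measure X) (ψ : X → ℝ≥0∞) : Prop where
  meas : Measurable ψ
  sum : ∀ᵐ x ∂m, ∑' γ : Γ, ψ (γ • x) = 1

variable [MeasurableConstSMul Γ X]

theorem lintegral_smul_eq {G : Type*} [Group G] [MulAction G X] [MeasurableConstSMul G X]
    {m : Measure X} [SMulInvariantMeasure G X m] (f : X → ℝ≥0∞) (g : G) :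
    ∫⁻ x, f (g • x) ∂m = ∫⁻ x, f x ∂m :=
  (measurePreserving_smul g m).lintegral_comp_emb (measurableEmbedding_const_smul g) f

variable {m : Measure X} [Countable Γ] [SMulInvariantMeasure Γ X m]

/-- The integral of an invariant function against a weight does not depend on the weight. -/
theorem lintegral_mul_weight_eq {F φ₁ φ₂ : X → ℝ≥0∞} (hF : AEMeasurable F m)
    (hinv : ∀ γ : Γ, ∀ᵐ x ∂m, F (γ • x) = F x) (h₁ : IsWeight Γ m φ₁) (h₂ : IsWeight Γ m φ₂) :
    ∫⁻ x, F x * φ₁ x ∂m = ∫⁻ x, F x * φ₂ x ∂m := by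
  have m1 : ∀ γ : Γ, Measurable fun x => φ₁ (γ • x) := fun γ =>
    h₁.meas.comp (measurable_const_smul γ)
  have m2 : ∀ γ : Γ, Measurable fun x => φ₂ (γ • x) := fun γ =>
    h₂.meas.comp (measurable_const_smul γ)
  calc ∫⁻ x, F x * φ₁ x ∂m = ∫⁻ x, ∑' γ : Γ, F x * φ₁ x * φ₂ (γ • x) ∂m := by
        apply lintegral_congr_ae
        filter_upwards [h₂.sum] with x hx
        rw [ENNReal.tsum_mul_left, hx, mul_one]
    _ = ∑' γ : Γ, ∫⁻ x, F x * φ₁ x * φ₂ (γ • x) ∂m :=
        lintegral_tsum fun γ => (hF.mul h₁.meas.aemeasurable).mul (m2 γ).aemeasurable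
    _ = ∑' γ : Γ, ∫⁻ x, F x * φ₁ (γ⁻¹ • x) * φ₂ x ∂m := by
        apply tsum_congr
        intro γ
        rw [← lintegral_smul_eq (m := m) (fun x => F x * φ₁ x * φ₂ (γ • x)) γ⁻¹]
        apply lintegral_congr_ae
        filter_upwards [hinv γ⁻¹] with x hx
        rw [hx, smul_inv_smul]
    _ = ∫⁻ x, ∑' γ : Γ, F x * φ₁ (γ⁻¹ • x) * φ₂ x ∂m :=
        (lintegral_tsum fun γ => (hF.mul (m1 γ⁻¹).aemeasurable).mul h₂.meas.aemeasurable).symm
    _ = ∫⁻ x, F x * φ₂ x ∂m := by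
        apply lintegral_congr_ae
        filter_upwards [h₁.sum] with x hx
        rw [ENNReal.tsum_mul_right, ENNReal.tsum_mul_left]
        have : ∑' γ : Γ, φ₁ (γ⁻¹ • x) = 1 := by
          rw [← hx]
          exact (Equiv.inv Γ).tsum_eq fun γ => φ₁ (γ • x)
        rw [this, mul_one]

variable {G : Type*} [Group G] [MulAction G X] [MeasurableConstSMul G X]
  [SMulInvariantMeasure G X m] [SMulCommClass Γ G X]

omit [MeasurableConstSMul Γ X] [Countable Γ] [SMulInvariantMeasure Γ X m] in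
theorem IsWeight.smul {φ : X → ℝ≥0∞} (h : IsWeight Γ m φ) (g : G) :
    IsWeight Γ m fun x => φ (g • x) where
  meas := h.meas.comp (measurable_const_smul g)
  sum := by
    have h1 := (measurePreserving_smul g m).quasiMeasurePreserving.ae h.sum
    filter_upwards [h1] with x hx
    rw [← hx]
    apply tsum_congr
    intro γ
    rw [smul_comm γ g x]

/-- `G`-invariance of the integral of `Γ`-invariant functions against the weight. -/
theorem lintegral_weight_smul {F φ : X → ℝ≥0∞} (hF : AEMeasurable F m)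
    (hinv : ∀ γ : Γ, ∀ᵐ x ∂m, F (γ • x) = F x) (h : IsWeight Γ m φ) (g : G) :
    ∫⁻ x, F (g • x) * φ x ∂m = ∫⁻ x, F x * φ x ∂m := by
  have e1 : ∫⁻ x, F (g • x) * φ x ∂m = ∫⁻ x, F x * φ (g⁻¹ • x) ∂m := by
    rw [← lintegral_smul_eq (m := m) (fun x => F x * φ (g⁻¹ • x)) g]
    simp only [inv_smul_smul]
  rw [e1]
  exact lintegral_mul_weight_eq Γ hF hinv (h.smul Γ g⁻¹) h

end unfold

section posweight

variable {Γ : Type*} [Group Γ] [MulAction Γ X] [MeasurableConstSMul Γ X] {m : Measure X}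
  [Countable Γ] [SMulInvariantMeasure Γ X m]

theorem exists_pos_weight {ψ : X → ℝ≥0∞} (h : IsWeight Γ m ψ) :
    ∃ ψ' : X → ℝ≥0∞, IsWeight Γ m ψ' ∧ ∀ᵐ x ∂m, ψ' x ≠ 0 := by
  obtain ⟨a, ha, hs⟩ := ENNReal.exists_pos_sum_of_countable' one_ne_zero Γ
  set A : ℝ≥0∞ := ∑' γ, a γ with hA
  have hA0 : A ≠ 0 := by
    intro h0
    have : a 1 ≤ A := ENNReal.le_tsum 1
    rw [h0] at this
    exact (ha 1).ne' (le_antisymm this bot_le)
  have hAtop : A ≠ ∞ := (hs.trans ENNReal.one_lt_top).ne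
  have mm : ∀ γ : Γ, Measurable fun x => ψ (γ • x) := fun γ =>
    h.meas.comp (measurable_const_smul γ)
  refine ⟨fun x => ∑' γ : Γ, a γ / A * ψ (γ • x), ⟨?_, ?_⟩, ?_⟩
  · exact Measurable.ennreal_tsum fun γ => (mm γ).const_mul _
  · filter_upwards [h.sum] with x hx
    rw [ENNReal.tsum_comm]
    have h1 : ∀ γ : Γ, ∑' γ' : Γ, a γ / A * ψ (γ • γ' • x) = a γ / A := by
      intro γ
      rw [ENNReal.tsum_mul_left]
      have : ∑' γ' : Γ, ψ (γ • γ' • x) = 1 := by
        rw [← hx]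
        simp_rw [← mul_smul]
        exact (Equiv.mulLeft γ).tsum_eq fun γ' => ψ (γ' • x)
      rw [this, mul_one]
    simp_rw [h1, div_eq_mul_inv]
    rw [ENNReal.tsum_mul_right, ← hA, ENNReal.mul_inv_cancel hA0 hAtop]
  · filter_upwards [h.sum] with x hx
    intro h0
    rw [ENNReal.tsum_eq_zero] at h0
    have : ∀ γ : Γ, ψ (γ • x) = 0 := by
      intro γ
      have h2 := h0 γ
      rw [mul_eq_zero] at h2
      rcases h2 with h2 | h2
      · exfalso
        rw [ENNReal.div_eq_zero_iff] at h2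
        rcases h2 with h2 | h2
        · exact (ha γ).ne' h2
        · exact hAtop h2
      · exact h2
    simp [this] at hx

end posweight

section hilbert

variable {E : Type*} [NormedAddCommGroup E] [InnerProductSpace ℝ E] [CompleteSpace E]
variable (Γ : Type*) [Group Γ] [MulAction Γ X]
variable (G : Type*) [Group G] [MulAction G X]

/-- What we need of the measure `ψ m` on `X`. -/
structure SecMeas (μ : Measure X) : Prop where
  qΓ : ∀ γ : Γ, Measure.QuasiMeasurePreserving (fun x : X => γ • x) μ μ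
  qG : ∀ g : G, Measure.QuasiMeasurePreserving (fun x : X => g • x) μ μ
  inv : ∀ F : X → ℝ≥0∞, AEMeasurable F μ → (∀ γ : Γ, ∀ᵐ x ∂μ, F (γ • x) = F x) →
    ∀ g : G, ∫⁻ x, F (g • x) ∂μ = ∫⁻ x, F x ∂μ

variable {Γ G} {μ : Measure X}

/-- The space of equivariant sections. -/
def sec (h : SecMeas Γ G μ) (c : Γ → (E ≃ₗᵢ[ℝ] E)) : Submodule ℝ (Lp E 2 μ) where
  carrier := {f | ∀ γ : Γ, ∀ᵐ x ∂μ, f (γ • x) = c γ (f x)}
  add_mem' := by
    intro f g hf hg γ
    have e := Lp.coeFn_add f g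
    filter_upwards [e, (h.qΓ γ).ae e, hf γ, hg γ] with x h1 h2 h3 h4
    rw [h2, h1]
    simp only [Pi.add_apply]
    rw [h3, h4, map_add]
  zero_mem' := by
    intro γ
    have e := Lp.coeFn_zero E 2 μ
    filter_upwards [e, (h.qΓ γ).ae e] with x h1 h2
    rw [h2, h1]
    simp
  smul_mem' := by
    intro a f hf γ
    have e := Lp.coeFn_smul a f
    filter_upwards [e, (h.qΓ γ).ae e, hf γ] with x h1 h2 h3
    rw [h2, h1]
    simp only [Pi.smul_apply]
    rw [h3, map_smul]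

omit [CompleteSpace E] in
theorem mem_sec {h : SecMeas Γ G μ} {c : Γ → (E ≃ₗᵢ[ℝ] E)} {f : Lp E 2 μ} :
    f ∈ sec h c ↔ ∀ γ : Γ, ∀ᵐ x ∂μ, f (γ • x) = c γ (f x) := Iff.rfl

omit [CompleteSpace E] in
theorem isClosed_sec (h : SecMeas Γ G μ) (c : Γ → (E ≃ₗᵢ[ℝ] E)) :
    IsClosed (sec h c : Set (Lp E 2 μ)) := by
  rw [← isSeqClosed_iff_isClosed]
  intro u f hu hf γ
  obtain ⟨ns, -, hns⟩ := (tendstoInMeasure_of_tendsto_Lp hf).exists_seq_tendsto_ae
  have h2 : ∀ᵐ x ∂μ, ∀ n, u (ns n) (γ • x) = c γ (u (ns n) x) :=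
    ae_all_iff.2 fun n => hu (ns n) γ
  filter_upwards [hns, (h.qΓ γ).ae hns, h2] with x h3 h4 h5
  refine tendsto_nhds_unique h4 ?_
  simp_rw [h5]
  exact ((c γ).continuous.tendsto _).comp h3

instance (h : SecMeas Γ G μ) (c : Γ → (E ≃ₗᵢ[ℝ] E)) : CompleteSpace (sec h c) :=
  (isClosed_sec h c).completeSpace_coe

omit [CompleteSpace E] in
theorem eLpNorm_smul_eq (h : SecMeas Γ G μ) {c : Γ → (E ≃ₗᵢ[ℝ] E)} {f : X → E}
    (hf : AEStronglyMeasurable f μ) (hc : ∀ γ : Γ, ∀ᵐ x ∂μ, f (γ • x) = c γ (f x)) (g : G) :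
    eLpNorm (fun x => f (g • x)) 2 μ = eLpNorm f 2 μ := by
  rw [eLpNorm_eq_lintegral_rpow_enorm_toReal (by norm_num) (by norm_num),
    eLpNorm_eq_lintegral_rpow_enorm_toReal (by norm_num) (by norm_num)]
  congr 1
  refine h.inv (fun x => ‖f x‖ₑ ^ (2 : ℝ≥0∞).toReal) (hf.enorm.pow_const _) ?_ g
  intro γ
  filter_upwards [hc γ] with x hx
  rw [hx, LinearIsometryEquiv.enorm_map]

omit [CompleteSpace E] in
theorem memLp_smul (h : SecMeas Γ G μ) {c : Γ → (E ≃ₗᵢ[ℝ] E)} (f : sec h c) (g : G) :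
    MemLp (fun x => (f : Lp E 2 μ) (g • x)) 2 μ :=
  ⟨(Lp.aestronglyMeasurable _).comp_quasiMeasurePreserving (h.qG g), by
    rw [eLpNorm_smul_eq h (Lp.aestronglyMeasurable _) f.2 g]
    exact Lp.eLpNorm_lt_top _⟩

variable [SMulCommClass Γ G X]

/-- Translation by `g`. -/
def actFun (h : SecMeas Γ G μ) (c : Γ → (E ≃ₗᵢ[ℝ] E)) (g : G) (f : sec h c) : sec h c :=
  ⟨(memLp_smul h f g⁻¹).toLp _, by
    intro γ
    have e := (memLp_smul h f g⁻¹).coeFn_toLp
    filter_upwards [e, (h.qΓ γ).ae e, (h.qG g⁻¹).ae (f.2 γ)] with x h1 h2 h3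
    rw [h2, h1, ← smul_comm γ g⁻¹ x, h3]⟩

omit [CompleteSpace E] in
theorem actFun_coe (h : SecMeas Γ G μ) (c : Γ → (E ≃ₗᵢ[ℝ] E)) (g : G) (f : sec h c) :
    ∀ᵐ x ∂μ, (actFun h c g f : Lp E 2 μ) x = (f : Lp E 2 μ) (g⁻¹ • x) :=
  (memLp_smul h f g⁻¹).coeFn_toLp

omit [CompleteSpace E] in
theorem sec_ext {h : SecMeas Γ G μ} {c : Γ → (E ≃ₗᵢ[ℝ] E)} {f f' : sec h c}
    (e : ∀ᵐ x ∂μ, (f : Lp E 2 μ) x = (f' : Lp E 2 μ) x) : f = f' :=
  Subtype.ext (Lp.ext e)

/-- The isometric action of `G` on the sections. -/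
def piRep (h : SecMeas Γ G μ) (c : Γ → (E ≃ₗᵢ[ℝ] E)) : G →* (sec h c ≃ₗᵢ[ℝ] sec h c) where
  toFun g :=
    { toFun := actFun h c g
      invFun := actFun h c g⁻¹
      map_add' := by
        intro f f'
        apply sec_ext
        have e1 := actFun_coe h c g (f + f')
        have e2 := actFun_coe h c g f
        have e3 := actFun_coe h c g f'
        have e4 := Lp.coeFn_add (f : Lp E 2 μ) (f' : Lp E 2 μ)
        have e5 := Lp.coeFn_add (actFun h c g f : Lp E 2 μ) (actFun h c g f' : Lp E 2 μ)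
        filter_upwards [e1, e2, e3, (h.qG g⁻¹).ae e4, e5] with x h1 h2 h3 h4 h5
        rw [h1, Submodule.coe_add, Submodule.coe_add, h5, h4]
        simp only [Pi.add_apply]
        rw [h2, h3]
      map_smul' := by
        intro a f
        apply sec_ext
        have e1 := actFun_coe h c g (a • f)
        have e2 := actFun_coe h c g f
        have e4 := Lp.coeFn_smul a (f : Lp E 2 μ)
        have e5 := Lp.coeFn_smul a (actFun h c g f : Lp E 2 μ)
        filter_upwards [e1, e2, (h.qG g⁻¹).ae e4, e5] with x h1 h2 h4 h5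
        rw [h1, RingHom.id_apply, Submodule.coe_smul, Submodule.coe_smul, h5, h4]
        simp only [Pi.smul_apply]
        rw [h2]
      left_inv := by
        intro f
        apply sec_ext
        have e1 := actFun_coe h c g⁻¹ (actFun h c g f)
        have e2 := actFun_coe h c g f
        filter_upwards [e1, (h.qG g⁻¹⁻¹).ae e2] with x h1 h2
        rw [h1, h2, inv_inv, inv_smul_smul]
      right_inv := by
        intro f
        apply sec_ext
        have e1 := actFun_coe h c g (actFun h c g⁻¹ f)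
        have e2 := actFun_coe h c g⁻¹ f
        filter_upwards [e1, (h.qG g⁻¹).ae e2] with x h1 h2
        rw [h1, h2, inv_inv, smul_inv_smul]
      norm_map' := by
        intro f
        change ‖(actFun h c g f : Lp E 2 μ)‖ = ‖(f : Lp E 2 μ)‖
        change ‖(memLp_smul h f g⁻¹).toLp _‖ = _
        rw [Lp.norm_toLp, eLpNorm_smul_eq h (Lp.aestronglyMeasurable _) f.2 g⁻¹, Lp.norm_def] }
  map_one' := by
    ext1 f
    apply sec_ext
    filter_upwards [actFun_coe h c (1 : G) f] with x h1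
    change (actFun h c (1 : G) f : Lp E 2 μ) x = _
    rw [h1, inv_one, one_smul]
    rfl
  map_mul' := by
    intro g g'
    ext1 f
    apply sec_ext
    have e1 := actFun_coe h c (g * g') f
    have e2 := actFun_coe h c g (actFun h c g' f)
    have e3 := actFun_coe h c g' f
    filter_upwards [e1, e2, (h.qG g⁻¹).ae e3] with x h1 h2 h3
    change (actFun h c (g * g') f : Lp E 2 μ) x = (actFun h c g (actFun h c g' f) : Lp E 2 μ) x
    rw [h1, h2, h3, mul_inv_rev, mul_smul]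

omit [CompleteSpace E] in
theorem piRep_coe (h : SecMeas Γ G μ) (c : Γ → (E ≃ₗᵢ[ℝ] E)) (g : G) (f : sec h c) :
    ∀ᵐ x ∂μ, (piRep h c g f : Lp E 2 μ) x = (f : Lp E 2 μ) (g⁻¹ • x) :=
  actFun_coe h c g f

end hilbert

end

end Vale.Agent.P011.H219
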