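import Vale.Agent.P011.H219.Kernel

/-!
# The space `H × Y`

`Γ` acts on `H × Y` by `γ (h, y) = (ι γ h, γ y)`, `G₀` by `g (h, y) = (h (j g)⁻¹, y)`; `Y` is
countable.  Weights, the kernel hypothesis, and the normality theorem on this space, stated
without the type synonym.
-/

open MeasureTheory Filter Topology
open scoped ENNReal NNReal Pointwise

namespace Vale.Agent.P011.H219

noncomputable section

universe u v w

/-- `H × Y`, with its two actions. -/
def Sp {Γ G₀ H : Type*} [Group Γ] [Group G₀] [Group H] (_ : Γ →* H) (_ : G₀ →* H)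
    (Y : Type*) : Type _ := H × Y

section actions

variable {Γ G₀ H : Type*} [Group Γ] [Group G₀] [Group H] {ι : Γ →* H} {j : G₀ →* H}
  {Y : Type*}

instance [MeasurableSpace H] [MeasurableSpace Y] : MeasurableSpace (Sp ι j Y) :=
  inferInstanceAs (MeasurableSpace (H × Y))

instance actΓ [MulAction Γ Y] : MulAction Γ (Sp ι j Y) where
  smul γ x := (ι γ * x.1, γ • x.2)
  one_smul x := by
    show (ι 1 * x.1, (1 : Γ) • x.2) = x
    rw [map_one, one_mul, one_smul]
    rfl
  mul_smul a b x := by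
    show (ι (a * b) * x.1, (a * b) • x.2) = (ι a * (ι b * x.1), a • b • x.2)
    rw [map_mul, mul_assoc, mul_smul]

instance actG : MulAction G₀ (Sp ι j Y) where
  smul g x := (x.1 * (j g)⁻¹, x.2)
  one_smul x := by
    show (x.1 * (j 1)⁻¹, x.2) = x
    rw [map_one, inv_one, mul_one]
    rfl
  mul_smul a b x := by
    show (x.1 * (j (a * b))⁻¹, x.2) = (x.1 * (j b)⁻¹ * (j a)⁻¹, x.2)
    rw [map_mul, mul_inv_rev, mul_assoc]

instance [MulAction Γ Y] : SMulCommClass Γ G₀ (Sp ι j Y) where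
  smul_comm γ g x := by
    show (ι γ * (x.1 * (j g)⁻¹), γ • x.2) = (ι γ * x.1 * (j g)⁻¹, γ • x.2)
    rw [mul_assoc]

variable [MeasurableSpace H] [MeasurableMul H] [MeasurableSpace Y] [DiscreteMeasurableSpace Y]

instance [MulAction Γ Y] : MeasurableConstSMul Γ (Sp ι j Y) where
  measurable_const_smul γ := by
    show Measurable fun x : H × Y => (ι γ * x.1, γ • x.2)
    exact (measurable_fst.const_mul _).prodMk ((Measurable.of_discrete).comp measurable_snd)

instance : MeasurableConstSMul G₀ (Sp ι j Y) where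
  measurable_const_smul g := by
    show Measurable fun x : H × Y => (x.1 * (j g)⁻¹, x.2)
    exact (measurable_fst.mul_const _).prodMk measurable_snd

/-- The product measure. -/
def spM (ι : Γ →* H) (j : G₀ →* H) (μ : Measure H) (ν : Measure Y) : Measure (Sp ι j Y) :=
  μ.prod ν

variable {μ : Measure H} [SFinite μ] {ν : Measure Y} [SFinite ν]

instance [MulAction Γ Y] [μ.IsMulLeftInvariant] [SMulInvariantMeasure Γ Y ν] :
    SMulInvariantMeasure Γ (Sp ι j Y) (spM ι j μ ν) where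
  measure_preimage_smul γ s hs := by
    haveI : MeasurableConstSMul Γ Y := ⟨fun _ => Measurable.of_discrete⟩
    have h1 : MeasurePreserving (fun x : H × Y => (ι γ * x.1, γ • x.2)) (μ.prod ν) (μ.prod ν) :=
      (measurePreserving_mul_left μ (ι γ)).prod (measurePreserving_smul γ ν)
    exact h1.measure_preimage hs.nullMeasurableSet

theorem smulInv_G (hj : ∀ g : G₀, MeasurePreserving (· * j g) μ μ) :
    SMulInvariantMeasure G₀ (Sp ι j Y) (spM ι j μ ν) where
  measure_preimage_smul g s hs := by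
    have h1 : MeasurePreserving (fun x : H × Y => (x.1 * (j g)⁻¹, x.2)) (μ.prod ν) (μ.prod ν) := by
      have h2 := hj g⁻¹
      rw [map_inv] at h2
      exact h2.prod (MeasurePreserving.id ν)
    exact h1.measure_preimage hs.nullMeasurableSet

end actions

section ae

variable {H Y : Type*} [MeasurableSpace H] [MeasurableSpace Y] [MeasurableSingletonClass Y]
  {μ : Measure H} [SFinite μ] {ν : Measure Y} [SFinite ν]

theorem ae_slice {P : H × Y → Prop} (h : ∀ᵐ p ∂(μ.prod ν), P p) {y : Y} (hy : ν {y} ≠ 0) :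
    ∀ᵐ a ∂μ, P (a, y) := by
  filter_upwards [Measure.ae_ae_of_ae_prod h] with a ha
  by_contra hn
  apply hy
  rw [ae_iff] at ha
  exact measure_mono_null (by simpa using hn) ha

theorem ae_of_slices [Countable Y] {P : H × Y → Prop}
    (h : ∀ y, ν {y} ≠ 0 → ∀ᵐ a ∂μ, P (a, y)) : ∀ᵐ p ∂(μ.prod ν), P p := by
  rw [ae_iff]
  have h1 : {p : H × Y | ¬ P p} ⊆ ⋃ y : Y, {a | ¬ P (a, y)} ×ˢ {y} := by
    rintro ⟨a, y⟩ hp
    exact Set.mem_iUnion.2 ⟨y, hp, rfl⟩
  refine measure_mono_null h1 (measure_iUnion_null fun y => ?_)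
  rw [Measure.prod_prod]
  by_cases hy : ν {y} = 0
  · rw [hy, mul_zero]
  · have := h y hy
    rw [ae_iff] at this
    rw [this, zero_mul]

end ae

section kernel

variable {Γ G₀ H : Type*} [Group Γ] [Group G₀] [Group H]
  [TopologicalSpace H] [IsTopologicalGroup H] [T2Space H]
  [LocallyCompactSpace H] [SecondCountableTopology H] [MeasurableSpace H] [BorelSpace H]
  {μ : Measure H} [SFinite μ] [μ.IsMulLeftInvariant] [IsFiniteMeasureOnCompacts μ]
  [μ.InnerRegularCompactLTTop]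
variable [MeasurableSpace G₀] [MeasurableMul G₀] {μ₀ : Measure G₀}
  [SFinite μ₀] [μ₀.IsMulLeftInvariant]
variable {ι : Γ →* H} {j : G₀ →* H} {Y : Type*} [MulAction Γ Y] [Countable Y]
  [MeasurableSpace Y] [DiscreteMeasurableSpace Y] {ν : Measure Y} [SFinite ν]
variable {E : Type*} [NormedAddCommGroup E] [InnerProductSpace ℝ E]

/-- **Kernel lemma on `H × Y`**: an equivariant `G₀`-invariant section is fixed by `A`, if for
every `y` there are `γ` fixing `y`, with `c γ = A`, arbitrarily close to `j G₀`. -/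
theorem section_fixed (hμ₀ : μ₀ ≠ 0) (hj : Measurable j) (hN : j.range.Normal)
    (hq : ∀ g : G₀, MeasurePreserving (· * j g) μ μ)
    {c : Γ → (E ≃ₗᵢ[ℝ] E)} {w : Sp ι j Y → E} (hw : AEStronglyMeasurable w (spM ι j μ ν))
    (heq : ∀ γ : Γ, ∀ᵐ x ∂(spM ι j μ ν), w (γ • x) = c γ (w x))
    (hinv : ∀ g : G₀, ∀ᵐ x ∂(spM ι j μ ν), w (g • x) = w x) (A : E ≃ₗᵢ[ℝ] E)
    (happ : ∀ y : Y, ν {y} ≠ 0 → ∀ O ∈ 𝓝 (1 : H), ∃ γ : Γ, γ • y = y ∧ c γ = A ∧
      ∃ o ∈ O, ∃ g : G₀, ι γ = o * j g) :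
    ∀ᵐ x ∂(spM ι j μ ν), A (w x) = w x := by
  have key : ∀ y, ν {y} ≠ 0 → ∀ᵐ a ∂μ, A (w (a, y)) = w (a, y) := by
    intro y hy
    refine slice_fixed (f := fun a => w (a, y)) hμ₀ j hj hN
      (fun g => (hq g).quasiMeasurePreserving) ?_ ?_ A ?_
    · set w₁ := hw.mk w with hw₁
      have h1 : ∀ᵐ a ∂μ, w (a, y) = w₁ (a, y) :=
        ae_slice (P := fun p : H × Y => w p = w₁ p) hw.ae_eq_mk hy
      have h2 : StronglyMeasurable fun a : H => w₁ (a, y) :=
        hw.stronglyMeasurable_mk.comp_measurable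
          (show Measurable fun a : H => ((a, y) : H × Y) from measurable_prodMk_right)
      exact ⟨_, h2, h1⟩
    · intro g
      have h1 : ∀ᵐ a ∂μ, w (a * (j g⁻¹)⁻¹, y) = w (a, y) :=
        ae_slice (P := fun p : H × Y => w (p.1 * (j g⁻¹)⁻¹, p.2) = w p) (hinv g⁻¹) hy
      simpa using h1
    · intro O hO
      obtain ⟨γ, h1, h2, o, ho, g, h3⟩ := happ y hy O hO
      refine ⟨ι γ, ?_, o, ho, g, h3⟩
      have h4 : ∀ᵐ a ∂μ, w (ι γ * a, γ • y) = c γ (w (a, y)) :=
        ae_slice (P := fun p : H × Y => w (ι γ * p.1, γ • p.2) = c γ (w p)) (heq γ) hy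
      rw [h1, h2] at h4
      exact h4
  exact ae_of_slices (P := fun p : H × Y => A (w p) = w p) key

end kernel

end

end Vale.Agent.P011.H219
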