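import Mathlib

/-!
# The group lemma of the spread step

`R` a finite nonabelian simple group, `T` a conjugation invariant subset of `R` such that
`a * (r b r⁻¹)` and `a * (r⁻¹ b r)` are conjugate for all `a, b ∈ T` and all `r`.
Then `T ⊆ {1}`.  No classification, no characters.
-/

namespace Vale.Agent.P011.H219

variable {R : Type*} [Group R]

private theorem mem_conjugatesOf_iff {a b : R} : b ∈ conjugatesOf a ↔ IsConj a b := Iff.rfl

/-- The subgroup generated by the squares of a non-commutative simple group is everything. -/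
theorem closure_squares_eq_top [IsSimpleGroup R] (hnc : ∃ a b : R, a * b ≠ b * a) :
    Subgroup.closure (Set.range fun r : R => r * r) = ⊤ := by
  have hn : (Subgroup.closure (Set.range fun r : R => r * r)).Normal := by
    refine ⟨fun n hn g => ?_⟩
    induction hn using Subgroup.closure_induction with
    | mem x hx =>
      obtain ⟨r, rfl⟩ := hx
      refine Subgroup.subset_closure ⟨g * r * g⁻¹, ?_⟩
      simp [mul_assoc]
    | one => simp [Subgroup.one_mem]
    | mul x y _ _ hx hy =>
      have : g * (x * y) * g⁻¹ = (g * x * g⁻¹) * (g * y * g⁻¹) := by group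
      rw [this]
      exact Subgroup.mul_mem _ hx hy
    | inv x _ hx =>
      have : g * x⁻¹ * g⁻¹ = (g * x * g⁻¹)⁻¹ := by group
      rw [this]
      exact Subgroup.inv_mem _ hx
  rcases hn.eq_bot_or_eq_top with h | h
  · exfalso
    obtain ⟨a, b, hab⟩ := hnc
    have hsq : ∀ r : R, r * r = 1 := by
      intro r
      have : r * r ∈ Subgroup.closure (Set.range fun r : R => r * r) :=
        Subgroup.subset_closure ⟨r, rfl⟩
      rw [h] at this
      simpa using this
    have hinv : ∀ r : R, r⁻¹ = r := fun r => inv_eq_of_mul_eq_one_left (hsq r)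
    apply hab
    have h1 := hinv (a * b)
    rw [mul_inv_rev, hinv a, hinv b] at h1
    exact h1.symm
  · exact h

/-- A conjugation invariant set `T` of a finite nonabelian simple group such that
`a * (r b r⁻¹)` is conjugate to `a * (r⁻¹ b r)` for all `a b ∈ T` and all `r`
contains at most the neutral element. -/
theorem squareClass [Finite R] [IsSimpleGroup R] (hnc : ∃ a b : R, a * b ≠ b * a) (T : Set R)
    (hT : ∀ g : R, ∀ a ∈ T, g * a * g⁻¹ ∈ T)
    (h : ∀ a ∈ T, ∀ b ∈ T, ∀ r : R, IsConj (a * (r * b * r⁻¹)) (a * (r⁻¹ * b * r))) :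
    T ⊆ {1} := by
  -- step 1 and 2
  have key : ∀ a ∈ T, ∀ g : R, ∀ b ∈ T, IsConj (a * (g * b * g⁻¹)) (a * b) := by
    intro a ha g
    have hg : g ∈ Subgroup.closure (Set.range fun r : R => r * r) := by
      rw [closure_squares_eq_top hnc]; trivial
    induction hg using Subgroup.closure_induction with
    | mem x hx =>
      obtain ⟨r, rfl⟩ := hx
      intro b hb
      have h1 := h a ha (r * b * r⁻¹) (hT r b hb) r
      have e1 : r * (r * b * r⁻¹) * r⁻¹ = (r * r) * b * (r * r)⁻¹ := by group
      have e2 : r⁻¹ * (r * b * r⁻¹) * r = b := by group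
      rw [e1, e2] at h1
      exact h1
    | one => intro b hb; rw [one_mul, inv_one, mul_one]
    | mul x y _ _ hx hy =>
      intro b hb
      have h1 := hx (y * b * y⁻¹) (hT y b hb)
      have h2 := hy b hb
      have e1 : x * (y * b * y⁻¹) * x⁻¹ = (x * y) * b * (x * y)⁻¹ := by group
      rw [e1] at h1
      exact h1.trans h2
    | inv x _ hx =>
      intro b hb
      have h1 := hx (x⁻¹ * b * x⁻¹⁻¹) (hT x⁻¹ b hb)
      have e1 : x * (x⁻¹ * b * x⁻¹⁻¹) * x⁻¹ = b := by group
      rw [e1] at h1
      exact h1.symm
  -- step 3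
  intro a ha
  have coset : ∀ a ∈ T, (fun k => a * k) '' conjugatesOf a = conjugatesOf (a * a) := by
    intro a ha
    apply Set.eq_of_subset_of_ncard_le _ _ (Set.toFinite _)
    · rintro _ ⟨k, hk, rfl⟩
      rw [mem_conjugatesOf_iff] at hk ⊢
      obtain ⟨g, rfl⟩ := isConj_iff.1 hk
      exact (key a ha g a ha).symm
    · rw [Set.ncard_image_of_injective _ (mul_right_injective a)]
      have hsur : conjugatesOf (a * a) ⊆ (fun k => k * k) '' conjugatesOf a := by
        intro x hx
        rw [mem_conjugatesOf_iff] at hx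
        obtain ⟨g, rfl⟩ := isConj_iff.1 hx
        refine ⟨g * a * g⁻¹, ?_, by group⟩
        rw [mem_conjugatesOf_iff]
        exact isConj_iff.2 ⟨g, rfl⟩
      exact (Set.ncard_le_ncard hsur (Set.toFinite _)).trans
        (Set.ncard_image_le (Set.toFinite _))
  -- all left translates agree
  have heq : ∀ a' ∈ conjugatesOf a, (fun k => a' * k) '' conjugatesOf a
      = (fun k => a * k) '' conjugatesOf a := by
    intro a' ha'
    rw [mem_conjugatesOf_iff] at ha'
    obtain ⟨g, rfl⟩ := isConj_iff.1 ha'
    have h1 := coset _ (hT g a ha)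
    have h2 : conjugatesOf (g * a * g⁻¹) = conjugatesOf a := by
      ext x
      simp only [mem_conjugatesOf_iff]
      exact ⟨fun hx => ha'.trans hx, fun hx => ha'.symm.trans hx⟩
    have h3 : conjugatesOf (g * a * g⁻¹ * (g * a * g⁻¹)) = conjugatesOf (a * a) := by
      have hc : IsConj (a * a) (g * a * g⁻¹ * (g * a * g⁻¹)) := isConj_iff.2 ⟨g, by group⟩
      ext x
      simp only [mem_conjugatesOf_iff]
      exact ⟨fun hx => hc.trans hx, fun hx => hc.symm.trans hx⟩
    rw [h2, h3] at h1
    rw [h1, coset a ha]
  -- the stabiliser of the class under left translation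
  let L : Subgroup R :=
    { carrier := {g | ∀ k, k ∈ conjugatesOf a ↔ g * k ∈ conjugatesOf a}
      one_mem' := by intro k; simp
      mul_mem' := by
        intro x y hx hy k
        rw [hy k, hx (y * k), mul_assoc]
      inv_mem' := by
        intro x hx k
        have := hx (x⁻¹ * k)
        rw [mul_inv_cancel_left] at this
        exact this.symm }
  have hLn : L.Normal := by
    refine ⟨fun n hn g => ?_⟩
    have hcl : ∀ (x k : R), k ∈ conjugatesOf a ↔ x * k * x⁻¹ ∈ conjugatesOf a := by
      intro x k
      simp only [mem_conjugatesOf_iff]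
      have : IsConj k (x * k * x⁻¹) := isConj_iff.2 ⟨x, rfl⟩
      exact ⟨fun hx => hx.trans this, fun hx => hx.trans this.symm⟩
    intro k
    have e1 : g * n * g⁻¹ * k = g * (n * (g⁻¹ * k * g⁻¹⁻¹)) * g⁻¹ := by group
    rw [e1, ← hcl g, ← hn (g⁻¹ * k * g⁻¹⁻¹), ← hcl g⁻¹]
  have hLmem : ∀ a' ∈ conjugatesOf a, a'⁻¹ * a ∈ L := by
    intro a' ha' k
    have h1 := heq a' ha'
    constructor
    · intro hk
      have : a * k ∈ (fun k => a' * k) '' conjugatesOf a := by
        rw [h1]; exact ⟨k, hk, rfl⟩
      obtain ⟨k', hk', hkk⟩ := this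
      have : a'⁻¹ * a * k = k' := by
        rw [mul_assoc, inv_mul_eq_iff_eq_mul]; exact hkk.symm
      rw [this]; exact hk'
    · intro hk
      have : a' * (a'⁻¹ * a * k) ∈ (fun k => a * k) '' conjugatesOf a := by
        rw [← h1]; exact ⟨_, hk, rfl⟩
      obtain ⟨k', hk', hkk⟩ := this
      have : k' = k := by
        have h5 : a * k' = a * k := by rw [show a * k' = _ from hkk]; group
        exact mul_left_cancel h5
      rw [← this]; exact hk'
  have haa : a ∈ conjugatesOf a := IsConj.refl a
  rcases hLn.eq_bot_or_eq_top with hb | ht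
  · -- `a` is central
    have hcen : a ∈ Subgroup.center R := by
      rw [Subgroup.mem_center_iff]
      intro g
      have hm : g * a * g⁻¹ ∈ conjugatesOf a := by
        rw [mem_conjugatesOf_iff]; exact isConj_iff.2 ⟨g, rfl⟩
      have h7 := hLmem _ hm
      rw [hb, Subgroup.mem_bot, inv_mul_eq_one] at h7
      calc g * a = (g * a * g⁻¹) * g := by group
        _ = a * g := by rw [h7]
    rcases (inferInstance : (Subgroup.center R).Normal).eq_bot_or_eq_top with hc | hc
    · rw [hc, Subgroup.mem_bot] at hcen
      simpa using hcen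
    · exfalso
      obtain ⟨x, y, hxy⟩ := hnc
      apply hxy
      have : y ∈ Subgroup.center R := by rw [hc]; trivial
      exact (Subgroup.mem_center_iff.1 this x)
  · -- the class is everything
    have : a⁻¹ ∈ L := by rw [ht]; trivial
    have h1 := (this a).1 haa
    rw [inv_mul_cancel, mem_conjugatesOf_iff] at h1
    obtain ⟨g, hg⟩ := isConj_iff.1 h1
    have : a = 1 := by
      have := congrArg (fun z => g⁻¹ * z * g) hg
      simpa [mul_assoc] using this
    simpa using this

end Vale.Agent.P011.H219
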