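import Mathlib

/-!
# The group lemma, relative version

`Q` finite, generated by its squares, `R₀` normal in `Q` such that for every normal `X ≤ R₀` of `Q`
an element of `R₀` which is central modulo `X` lies in `X`.  `T ⊆ Q` conjugation invariant,
`a * (r b r⁻¹) ~ a * (r⁻¹ b r)` for `a, b ∈ T`, `r ∈ Q`.  Then `T ∩ R₀ ⊆ {1}`.
-/

namespace Vale.Agent.P011.H219

variable {Q : Type*} [Group Q]

/-- The subgroup generated by the squares. -/
def sqGroup (Q : Type*) [Group Q] : Subgroup Q := Subgroup.closure (Set.range fun r : Q => r * r)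

theorem sq_mem_sqGroup (r : Q) : r * r ∈ sqGroup Q := Subgroup.subset_closure ⟨r, rfl⟩

/-- Commutators are products of squares. -/
theorem comm_mem_sqGroup (a b : Q) : a * b * a⁻¹ * b⁻¹ ∈ sqGroup Q := by
  have : a * b * a⁻¹ * b⁻¹ = (a * b * (a * b)) * ((b⁻¹ * a⁻¹ * b) * (b⁻¹ * a⁻¹ * b)) *
      (b⁻¹ * b⁻¹) := by group
  rw [this]
  exact Subgroup.mul_mem _ (Subgroup.mul_mem _ (sq_mem_sqGroup _) (sq_mem_sqGroup _))
    (sq_mem_sqGroup _)

/-- `Q` is generated by its squares if `R₀` is perfect and `Q / R₀` has odd exponent. -/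
theorem sqGroup_eq_top (R₀ : Subgroup Q) (hperf : R₀ ≤ ⁅R₀, R₀⁆)
    (hodd : ∀ g : Q, ∃ k : ℕ, g ^ (2 * k + 1) ∈ R₀) : sqGroup Q = ⊤ := by
  have h1 : R₀ ≤ sqGroup Q := by
    refine hperf.trans ?_
    rw [Subgroup.commutator_le]
    intro a _ b _
    rw [commutatorElement_def]
    exact comm_mem_sqGroup a b
  rw [eq_top_iff]
  intro g _
  obtain ⟨k, hk⟩ := hodd g
  have h2 : (g * g) ^ k ∈ sqGroup Q := Subgroup.pow_mem _ (sq_mem_sqGroup g) k
  have h3 : g ^ (2 * k + 1) = (g * g) ^ k * g := by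
    rw [pow_succ, pow_mul, pow_two]
  have h4 := h1 hk
  rw [h3] at h4
  exact (Subgroup.mul_mem_cancel_left _ h2).1 h4

/-- **Relative group lemma.** -/
theorem squareClassRel [Finite Q] (hsq : sqGroup Q = ⊤) (R₀ : Subgroup Q) [R₀.Normal]
    (hR : ∀ X : Subgroup Q, X.Normal → X ≤ R₀ → ∀ b ∈ R₀,
      (∀ g : Q, b⁻¹ * (g * b * g⁻¹) ∈ X) → b ∈ X)
    (T : Set Q) (hT : ∀ g : Q, ∀ a ∈ T, g * a * g⁻¹ ∈ T)
    (h : ∀ a ∈ T, ∀ b ∈ T, ∀ r : Q, IsConj (a * (r * b * r⁻¹)) (a * (r⁻¹ * b * r))) :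
    ∀ b ∈ T, b ∈ R₀ → b = 1 := by
  have key : ∀ a ∈ T, ∀ g : Q, ∀ b ∈ T, IsConj (a * (g * b * g⁻¹)) (a * b) := by
    intro a ha g
    have hg : g ∈ sqGroup Q := by rw [hsq]; trivial
    unfold sqGroup at hg
    induction hg using Subgroup.closure_induction with
    | mem x hx =>
      obtain ⟨r, rfl⟩ := hx
      intro b hb
      have h1 := h a ha (r * b * r⁻¹) (hT r b hb) r
      have e1 : r * (r * b * r⁻¹) * r⁻¹ = (r * r) * b * (r * r)⁻¹ := by group
      have e2 : r⁻¹ * (r * b * r⁻¹) * r = b := by group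
      rw [e1, e2] at h1
      exact h1
    | one => intro b hb; rw [one_mul, inv_one, mul_one]
    | mul x y _ _ hx hy =>
      intro b hb
      have h1 := hx (y * b * y⁻¹) (hT y b hb)
      have h2 := hy b hb
      have e1 : x * (y * b * y⁻¹) * x⁻¹ = (x * y) * b * (x * y)⁻¹ := by group
      rw [e1] at h1
      exact h1.trans h2
    | inv x _ hx =>
      intro b hb
      have h1 := hx (x⁻¹ * b * x⁻¹⁻¹) (hT x⁻¹ b hb)
      have e1 : x * (x⁻¹ * b * x⁻¹⁻¹) * x⁻¹ = b := by group
      rw [e1] at h1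
      exact h1.symm
  intro b hb hbR
  have coset : ∀ a ∈ T, (fun k => a * k) '' conjugatesOf a = conjugatesOf (a * a) := by
    intro a ha
    apply Set.eq_of_subset_of_ncard_le _ _ (Set.toFinite _)
    · rintro _ ⟨k, hk, rfl⟩
      obtain ⟨g, rfl⟩ := isConj_iff.1 (show IsConj a k from hk)
      exact (key a ha g a ha).symm
    · rw [Set.ncard_image_of_injective _ (mul_right_injective a)]
      have hsur : conjugatesOf (a * a) ⊆ (fun k => k * k) '' conjugatesOf a := by
        intro x hx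
        obtain ⟨g, rfl⟩ := isConj_iff.1 (show IsConj (a * a) x from hx)
        exact ⟨g * a * g⁻¹, isConj_iff.2 ⟨g, rfl⟩, by group⟩
      exact (Set.ncard_le_ncard hsur (Set.toFinite _)).trans
        (Set.ncard_image_le (Set.toFinite _))
  have heq : ∀ a' ∈ conjugatesOf b, (fun k => a' * k) '' conjugatesOf b
      = (fun k => b * k) '' conjugatesOf b := by
    intro a' ha'
    obtain ⟨g, rfl⟩ := isConj_iff.1 (show IsConj b a' from ha')
    have h1 := coset _ (hT g b hb)
    have h2 : conjugatesOf (g * b * g⁻¹) = conjugatesOf b := by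
      ext x
      exact ⟨fun hx => IsConj.trans ha' hx, fun hx => (IsConj.symm ha').trans hx⟩
    have h3 : conjugatesOf (g * b * g⁻¹ * (g * b * g⁻¹)) = conjugatesOf (b * b) := by
      have hc : IsConj (b * b) (g * b * g⁻¹ * (g * b * g⁻¹)) := isConj_iff.2 ⟨g, by group⟩
      ext x
      exact ⟨fun hx => hc.trans hx, fun hx => hc.symm.trans hx⟩
    rw [h2, h3] at h1
    rw [h1, coset b hb]
  let L : Subgroup Q :=
    { carrier := {g | ∀ k, k ∈ conjugatesOf b ↔ g * k ∈ conjugatesOf b}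
      one_mem' := by intro k; simp
      mul_mem' := by
        intro x y hx hy k
        rw [hy k, hx (y * k), mul_assoc]
      inv_mem' := by
        intro x hx k
        have := hx (x⁻¹ * k)
        rw [mul_inv_cancel_left] at this
        exact this.symm }
  have hLn : L.Normal := by
    refine ⟨fun n hn g => ?_⟩
    have hcl : ∀ (x k : Q), k ∈ conjugatesOf b ↔ x * k * x⁻¹ ∈ conjugatesOf b := by
      intro x k
      have : IsConj k (x * k * x⁻¹) := isConj_iff.2 ⟨x, rfl⟩
      exact ⟨fun hx => IsConj.trans hx this, fun hx => IsConj.trans hx this.symm⟩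
    intro k
    have e1 : g * n * g⁻¹ * k = g * (n * (g⁻¹ * k * g⁻¹⁻¹)) * g⁻¹ := by group
    rw [e1, ← hcl g, ← hn (g⁻¹ * k * g⁻¹⁻¹), ← hcl g⁻¹]
  have hLmem : ∀ a' ∈ conjugatesOf b, a'⁻¹ * b ∈ L := by
    intro a' ha' k
    have h1 := heq a' ha'
    constructor
    · intro hk
      have : b * k ∈ (fun k => a' * k) '' conjugatesOf b := by
        rw [h1]; exact ⟨k, hk, rfl⟩
      obtain ⟨k', hk', hkk⟩ := this
      have : a'⁻¹ * b * k = k' := by
        rw [mul_assoc, inv_mul_eq_iff_eq_mul]; exact hkk.symm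
      rw [this]; exact hk'
    · intro hk
      have : a' * (a'⁻¹ * b * k) ∈ (fun k => b * k) '' conjugatesOf b := by
        rw [← h1]; exact ⟨_, hk, rfl⟩
      obtain ⟨k', hk', hkk⟩ := this
      have : k' = k := by
        have h5 : b * k' = b * k := by rw [show b * k' = _ from hkk]; group
        exact mul_left_cancel h5
      rw [← this]; exact hk'
  have hbb : b ∈ conjugatesOf b := IsConj.refl b
  have hLR : L ≤ R₀ := by
    intro g hg
    have h1 : g * b ∈ conjugatesOf b := (hg b).1 hbb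
    obtain ⟨x, hx⟩ := isConj_iff.1 (show IsConj b (g * b) from h1)
    have h2 : g * b ∈ R₀ := by
      rw [← hx]
      exact Subgroup.Normal.conj_mem inferInstance b hbR x
    exact (Subgroup.mul_mem_cancel_right _ hbR).1 h2
  have hbL : b ∈ L := by
    refine hR L hLn hLR b hbR fun g => ?_
    have h1 := hLmem (g * b * g⁻¹) (isConj_iff.2 ⟨g, rfl⟩)
    have h2 := L.inv_mem h1
    have e : ((g * b * g⁻¹)⁻¹ * b)⁻¹ = b⁻¹ * (g * b * g⁻¹) := by group
    rwa [e] at h2
  have h1 := (L.inv_mem hbL b).1 hbb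
  rw [inv_mul_cancel] at h1
  obtain ⟨g, hg⟩ := isConj_iff.1 (show IsConj b 1 from h1)
  have := congrArg (fun z => g⁻¹ * z * g) hg
  simpa [mul_assoc] using this

end Vale.Agent.P011.H219
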