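import Mathlib

/-!
# A spectral gap for three closed subspaces

`U₀, U₁, U₂` closed subspaces of a real Hilbert space such that for `{i,j,l} = {0,1,2}`,
`u ∈ U i`, `v ∈ U j`:
`⟪u,v⟫ ≤ ⟪P_l u, P_l v⟫ + λ ‖u - P_l u‖ ‖v - P_l v‖` with `λ < 1/2`.
Then a vector which is close to the three subspaces is close to their intersection.
(Garland / trickling down; the proof is a gradient descent and needs no spectral theorem.)
-/

open scoped InnerProductSpace

namespace Vale.Agent.P011.H219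

noncomputable section

variable {H : Type*} [NormedAddCommGroup H] [InnerProductSpace ℝ H]

/-- The hypothesis on the angles: `u ∈ A`, `v ∈ B`, seen from `C`. -/
def AngleLe (A B C : Submodule ℝ H) [C.HasOrthogonalProjection] (lam : ℝ) : Prop :=
  ∀ u ∈ A, ∀ v ∈ B, ⟪u, v⟫_ℝ ≤ ⟪C.starProjection u, C.starProjection v⟫_ℝ +
    lam * (‖u - C.starProjection u‖ * ‖v - C.starProjection v‖)

variable (A B C : Submodule ℝ H) [A.HasOrthogonalProjection] [B.HasOrthogonalProjection]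
  [C.HasOrthogonalProjection]

/-- The quadratic form. -/
def qf (x y z : H) : ℝ := (‖x - y‖ ^ 2 + ‖y - z‖ ^ 2 + ‖z - x‖ ^ 2) / 2

/-- first component of the gradient -/
def gr (x y z : H) : H := x - (1 / 2 : ℝ) • A.starProjection (y + z)

omit [InnerProductSpace ℝ H] in
theorem qf_nonneg (x y z : H) : 0 ≤ qf x y z := by unfold qf; positivity

theorem gr_mem {x : H} (hx : x ∈ A) (y z : H) : gr A x y z ∈ A :=
  A.sub_mem hx (A.smul_mem _ (A.starProjection_apply_mem _))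

theorem qf_eq (x y z : H) :
    qf x y z = ‖x‖ ^ 2 + ‖y‖ ^ 2 + ‖z‖ ^ 2 - ⟪x, y⟫_ℝ - ⟪y, z⟫_ℝ - ⟪z, x⟫_ℝ := by
  unfold qf
  rw [norm_sub_sq_real, norm_sub_sq_real, norm_sub_sq_real]
  ring

theorem inner_gr {x' : H} (hx' : x' ∈ A) (x y z : H) :
    ⟪gr A x y z, x'⟫_ℝ = ⟪x, x'⟫_ℝ - (⟪y, x'⟫_ℝ + ⟪z, x'⟫_ℝ) / 2 := by
  unfold gr
  rw [inner_sub_left, real_inner_smul_left, A.inner_starProjection_left_eq_right,
    (A.starProjection_eq_self_iff).2 hx', inner_add_left]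
  ring

theorem norm_gr_sq {x : H} (hx : x ∈ A) (y z : H) :
    ‖gr A x y z‖ ^ 2 = ‖x‖ ^ 2 - ⟪y, x⟫_ℝ - ⟪z, x⟫_ℝ +
      (‖A.starProjection y‖ ^ 2 + ‖A.starProjection z‖ ^ 2 +
        2 * ⟪A.starProjection y, A.starProjection z⟫_ℝ) / 4 := by
  unfold gr
  rw [norm_sub_sq_real, real_inner_smul_right, norm_smul,
    ← A.inner_starProjection_left_eq_right, (A.starProjection_eq_self_iff).2 hx, inner_add_right,
    map_add, mul_pow, norm_add_sq_real, real_inner_comm x y, real_inner_comm x z]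
  norm_num
  ring

theorem norm_sub_proj_sq (y : H) :
    ‖y - A.starProjection y‖ ^ 2 = ‖y‖ ^ 2 - ‖A.starProjection y‖ ^ 2 := by
  have h1 := A.starProjection_inner_eq_zero y (A.starProjection y) (A.starProjection_apply_mem y)
  have h2 : ‖y‖ ^ 2 = ‖(y - A.starProjection y) + A.starProjection y‖ ^ 2 := by simp
  rw [norm_add_sq_real, h1] at h2
  linarith

variable {A B C}

theorem angle_bound {lam : ℝ} (h0 : 0 ≤ lam) (h : AngleLe A B C lam) {u v : H} (hu : u ∈ A)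
    (hv : v ∈ B) :
    ⟪u, v⟫_ℝ ≤ ⟪C.starProjection u, C.starProjection v⟫_ℝ +
      lam / 2 * (‖u‖ ^ 2 - ‖C.starProjection u‖ ^ 2 + (‖v‖ ^ 2 - ‖C.starProjection v‖ ^ 2)) := by
  have h1 := h u hu v hv
  have h2 : ‖u - C.starProjection u‖ * ‖v - C.starProjection v‖ ≤
      (‖u - C.starProjection u‖ ^ 2 + ‖v - C.starProjection v‖ ^ 2) / 2 := by
    nlinarith [sq_nonneg (‖u - C.starProjection u‖ - ‖v - C.starProjection v‖)]
  have h3 := mul_le_mul_of_nonneg_left h2 h0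
  rw [norm_sub_proj_sq, norm_sub_proj_sq] at h3
  linarith

/-- The gap inequality `(1-2λ) Q(f) ≤ (1-λ) ‖Bf‖²`. -/
theorem gap_ineq {lam : ℝ} (h0 : 0 ≤ lam) (hBC : AngleLe B C A lam) (hCA : AngleLe C A B lam)
    (hAB : AngleLe A B C lam) {x y z : H} (hx : x ∈ A) (hy : y ∈ B) (hz : z ∈ C) :
    (1 - 2 * lam) * qf x y z ≤
      (1 - lam) * (‖gr A x y z‖ ^ 2 + ‖gr B y z x‖ ^ 2 + ‖gr C z x y‖ ^ 2) := by
  have e1 := angle_bound h0 hBC hy hz
  have e2 := angle_bound h0 hCA hz hx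
  have e3 := angle_bound h0 hAB hx hy
  rw [norm_gr_sq A hx, norm_gr_sq B hy, norm_gr_sq C hz, qf_eq]
  rw [real_inner_comm x y, real_inner_comm y z, real_inner_comm z x]
  have cs : ∀ (p q : H), ⟪p, q⟫_ℝ ≤ (‖p‖ ^ 2 + ‖q‖ ^ 2) / 2 := by
    intro p q
    have := sq_nonneg ‖p - q‖
    rw [norm_sub_sq_real] at this
    linarith
  have c1 := cs (A.starProjection y) (A.starProjection z)
  have c2 := cs (B.starProjection z) (B.starProjection x)
  have c3 := cs (C.starProjection x) (C.starProjection y)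
  have m1 := mul_le_mul_of_nonneg_left c1 (by linarith : (0 : ℝ) ≤ 1 + lam)
  have m2 := mul_le_mul_of_nonneg_left c2 (by linarith : (0 : ℝ) ≤ 1 + lam)
  have m3 := mul_le_mul_of_nonneg_left c3 (by linarith : (0 : ℝ) ≤ 1 + lam)
  linarith

/-- Descent: one gradient step decreases the form by a factor. -/
theorem qf_step {lam : ℝ} (h0 : 0 ≤ lam) (h1 : lam < 1 / 2) (hBC : AngleLe B C A lam)
    (hCA : AngleLe C A B lam) (hAB : AngleLe A B C lam) {x y z : H} (hx : x ∈ A) (hy : y ∈ B)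
    (hz : z ∈ C) :
    qf (x - (1 / 2 : ℝ) • gr A x y z) (y - (1 / 2 : ℝ) • gr B y z x)
      (z - (1 / 2 : ℝ) • gr C z x y) ≤ (1 - (1 - 2 * lam) / (2 * (1 - lam))) * qf x y z := by
  have hg := gap_ineq h0 hBC hCA hAB hx hy hz
  have ha := gr_mem A hx y z
  have hb := gr_mem B hy z x
  have hc := gr_mem C hz x y
  -- exact expansion
  have e : qf (x - (1 / 2 : ℝ) • gr A x y z) (y - (1 / 2 : ℝ) • gr B y z x)
      (z - (1 / 2 : ℝ) • gr C z x y) = qf x y z -
        (‖gr A x y z‖ ^ 2 + ‖gr B y z x‖ ^ 2 + ‖gr C z x y‖ ^ 2) +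
        qf (gr A x y z) (gr B y z x) (gr C z x y) / 4 := by
    have i1 := inner_gr A ha x y z
    have i2 := inner_gr B hb y z x
    have i3 := inner_gr C hc z x y
    rw [real_inner_self_eq_norm_sq] at i1 i2 i3
    rw [qf_eq, qf_eq, qf_eq]
    simp only [norm_sub_sq_real, inner_sub_left, inner_sub_right, real_inner_smul_left,
      real_inner_smul_right, norm_smul, mul_pow]
    generalize gr A x y z = a at *
    generalize gr B y z x = b at *
    generalize gr C z x y = c at *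
    rw [real_inner_comm y a, real_inner_comm z b, real_inner_comm x c]
    norm_num
    linarith
  -- `Q ≤ 2‖·‖²`
  have hq : qf (gr A x y z) (gr B y z x) (gr C z x y) ≤
      2 * (‖gr A x y z‖ ^ 2 + ‖gr B y z x‖ ^ 2 + ‖gr C z x y‖ ^ 2) := by
    have t : ∀ p q : H, ‖p - q‖ ^ 2 ≤ 2 * (‖p‖ ^ 2 + ‖q‖ ^ 2) := by
      intro p q
      have h3 := parallelogram_law_with_norm ℝ p q
      have h4 := mul_self_nonneg ‖p + q‖
      nlinarith
    have t1 := t (gr A x y z) (gr B y z x)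
    have t2 := t (gr B y z x) (gr C z x y)
    have t3 := t (gr C z x y) (gr A x y z)
    unfold qf
    linarith
  rw [e]
  have hpos : (0 : ℝ) < 1 - lam := by linarith
  have hdiv : (1 - 2 * lam) / (2 * (1 - lam)) * qf x y z ≤
      (‖gr A x y z‖ ^ 2 + ‖gr B y z x‖ ^ 2 + ‖gr C z x y‖ ^ 2) / 2 := by
    rw [div_mul_eq_mul_div, div_le_iff₀ (by linarith)]
    nlinarith
  linarith

/-- `‖Bf‖² ≤ 2 Q(f)`, componentwise. -/
theorem norm_gr_sq_le {x : H} (hx : x ∈ A) (y z : H) :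
    ‖gr A x y z‖ ^ 2 ≤ 2 * qf x y z := by
  have e : gr A x y z = (1 / 2 : ℝ) • A.starProjection ((x - y) + (x - z)) := by
    unfold gr
    have : (x - y) + (x - z) = (2 : ℝ) • x - (y + z) := by
      rw [two_smul]; abel
    rw [this, map_sub, map_smul, (A.starProjection_eq_self_iff).2 hx, smul_sub, smul_smul]
    norm_num
  have h1 : ‖gr A x y z‖ ≤ 1 / 2 * (‖x - y‖ + ‖x - z‖) := by
    rw [e, norm_smul]
    have h2 := A.norm_starProjection_apply_le ((x - y) + (x - z))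
    have h3 := norm_add_le (x - y) (x - z)
    have : ‖(1 / 2 : ℝ)‖ = 1 / 2 := by norm_num
    rw [this]
    linarith
  have h4 : ‖gr A x y z‖ ^ 2 ≤ (1 / 2 * (‖x - y‖ + ‖x - z‖)) ^ 2 :=
    pow_le_pow_left₀ (norm_nonneg _) h1 2
  have h5 : ‖x - z‖ = ‖z - x‖ := norm_sub_rev x z
  unfold qf
  rw [h5] at h4
  nlinarith [sq_nonneg (‖x - y‖ - ‖z - x‖), sq_nonneg ‖y - z‖, sq_nonneg ‖x - y‖,
    sq_nonneg ‖z - x‖]

/-- The gap constant. -/
def gapConst (lam : ℝ) : ℝ :=
  1 + 1 / (1 - √(1 - (1 - 2 * lam) / (2 * (1 - lam))))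

theorem kappa_bounds {lam : ℝ} (h0 : 0 ≤ lam) (h1 : lam < 1 / 2) :
    0 ≤ 1 - (1 - 2 * lam) / (2 * (1 - lam)) ∧ 1 - (1 - 2 * lam) / (2 * (1 - lam)) < 1 := by
  have hp : (0 : ℝ) < 2 * (1 - lam) := by linarith
  constructor
  · rw [sub_nonneg, div_le_one hp]; linarith
  · have : 0 < (1 - 2 * lam) / (2 * (1 - lam)) := div_pos (by linarith) hp
    linarith

theorem sqrt_kappa_lt_one {lam : ℝ} (h0 : 0 ≤ lam) (h1 : lam < 1 / 2) :
    √(1 - (1 - 2 * lam) / (2 * (1 - lam))) < 1 := by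
  rw [Real.sqrt_lt' one_pos]
  simpa using (kappa_bounds h0 h1).2

theorem gapConst_pos {lam : ℝ} (h0 : 0 ≤ lam) (h1 : lam < 1 / 2) : 0 < gapConst lam := by
  unfold gapConst
  have := sqrt_kappa_lt_one h0 h1
  have : 0 < 1 / (1 - √(1 - (1 - 2 * lam) / (2 * (1 - lam)))) := by
    apply one_div_pos.2; linarith
  linarith

variable (A B C) in
/-- One step of the gradient descent. -/
def stepFn (p : H × H × H) : H × H × H :=
  (p.1 - (1 / 2 : ℝ) • gr A p.1 p.2.1 p.2.2, p.2.1 - (1 / 2 : ℝ) • gr B p.2.1 p.2.2 p.1,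
    p.2.2 - (1 / 2 : ℝ) • gr C p.2.2 p.1 p.2.1)

/-- **Spectral gap for three subspaces.** -/
theorem three_subspace_gap [CompleteSpace H] {lam : ℝ} (h0 : 0 ≤ lam) (h1 : lam < 1 / 2)
    (hA : IsClosed (A : Set H)) (hB : IsClosed (B : Set H)) (hC : IsClosed (C : Set H))
    (hBC : AngleLe B C A lam) (hCA : AngleLe C A B lam) (hAB : AngleLe A B C lam) (v : H) :
    ∃ w, w ∈ A ∧ w ∈ B ∧ w ∈ C ∧ ‖v - w‖ ≤ gapConst lam *
      (‖v - A.starProjection v‖ + ‖v - B.starProjection v‖ + ‖v - C.starProjection v‖) := by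
  obtain ⟨k0, k1⟩ := kappa_bounds h0 h1
  have hρ1 := sqrt_kappa_lt_one h0 h1
  set kap : ℝ := 1 - (1 - 2 * lam) / (2 * (1 - lam)) with hkap
  let F : ℕ → H × H × H := fun n =>
    (stepFn A B C)^[n] (A.starProjection v, B.starProjection v, C.starProjection v)
  have hF0 : F 0 = (A.starProjection v, B.starProjection v, C.starProjection v) := rfl
  have hFs : ∀ n, F (n + 1) = stepFn A B C (F n) := fun n => Function.iterate_succ_apply' _ _ _
  have hmem : ∀ n, (F n).1 ∈ A ∧ (F n).2.1 ∈ B ∧ (F n).2.2 ∈ C := by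
    intro n
    induction n with
    | zero =>
      exact ⟨A.starProjection_apply_mem _, B.starProjection_apply_mem _,
        C.starProjection_apply_mem _⟩
    | succ n ih =>
      rw [hFs]
      obtain ⟨a, b, c⟩ := ih
      exact ⟨A.sub_mem a (A.smul_mem _ (gr_mem A a _ _)),
        B.sub_mem b (B.smul_mem _ (gr_mem B b _ _)), C.sub_mem c (C.smul_mem _ (gr_mem C c _ _))⟩
  let q : ℕ → ℝ := fun n => qf (F n).1 (F n).2.1 (F n).2.2
  have hq0 : 0 ≤ q 0 := qf_nonneg _ _ _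
  have hq : ∀ n, q n ≤ kap ^ n * q 0 := by
    intro n
    induction n with
    | zero => simp
    | succ n ih =>
      obtain ⟨a, b, c⟩ := hmem n
      have h3 := qf_step h0 h1 hBC hCA hAB a b c
      have h4 : q (n + 1) ≤ kap * q n := by
        have : q (n + 1) = qf (stepFn A B C (F n)).1 (stepFn A B C (F n)).2.1
          (stepFn A B C (F n)).2.2 := by simp only [q, hFs]
        rw [this]
        exact h3
      calc q (n + 1) ≤ kap * q n := h4
        _ ≤ kap * (kap ^ n * q 0) := mul_le_mul_of_nonneg_left ih k0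
        _ = kap ^ (n + 1) * q 0 := by ring
  have hgr : ∀ g : H, ∀ n, ‖g‖ ^ 2 ≤ 2 * q n → ‖(1 / 2 : ℝ) • g‖ ≤ √(q 0 / 2) * √kap ^ n := by
    intro g n hg
    have h5 : (√(q 0 / 2) * √kap ^ n) ^ 2 = q 0 / 2 * kap ^ n := by
      rw [mul_pow, Real.sq_sqrt (by linarith), ← pow_mul, mul_comm n 2, pow_mul, Real.sq_sqrt k0]
    have h6 : ‖(1 / 2 : ℝ) • g‖ ^ 2 ≤ (√(q 0 / 2) * √kap ^ n) ^ 2 := by
      rw [h5, norm_smul, mul_pow]
      have : ‖(1 / 2 : ℝ)‖ ^ 2 = 1 / 4 := by norm_num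
      rw [this]
      have := hq n
      linarith
    exact le_of_sq_le_sq h6 (by positivity)
  have hdist : ∀ n, dist (F n) (F (n + 1)) ≤ √(q 0 / 2) * √kap ^ n := by
    intro n
    obtain ⟨a, b, c⟩ := hmem n
    have ea : dist (F n).1 (F (n + 1)).1 = ‖(1 / 2 : ℝ) • gr A (F n).1 (F n).2.1 (F n).2.2‖ := by
      rw [hFs, dist_eq_norm]; simp [stepFn]
    have eb : dist (F n).2.1 (F (n + 1)).2.1 =
        ‖(1 / 2 : ℝ) • gr B (F n).2.1 (F n).2.2 (F n).1‖ := by
      rw [hFs, dist_eq_norm]; simp [stepFn]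
    have ec : dist (F n).2.2 (F (n + 1)).2.2 =
        ‖(1 / 2 : ℝ) • gr C (F n).2.2 (F n).1 (F n).2.1‖ := by
      rw [hFs, dist_eq_norm]; simp [stepFn]
    have qb : qf (F n).2.1 (F n).2.2 (F n).1 = q n := by simp only [q, qf]; ring
    have qc : qf (F n).2.2 (F n).1 (F n).2.1 = q n := by simp only [q, qf]; ring
    rw [Prod.dist_eq, Prod.dist_eq, ea, eb, ec]
    refine max_le (hgr _ n (norm_gr_sq_le a _ _)) (max_le (hgr _ n ?_) (hgr _ n ?_))
    · rw [← qb]; exact norm_gr_sq_le b _ _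
    · rw [← qc]; exact norm_gr_sq_le c _ _
  obtain ⟨a, ha⟩ := cauchySeq_tendsto_of_complete (cauchySeq_of_le_geometric _ _ hρ1 hdist)
  have hda := dist_le_of_le_geometric_of_tendsto₀ _ _ hρ1 hdist ha
  have t1 : Filter.Tendsto (fun n => (F n).1) Filter.atTop (nhds a.1) :=
    (continuous_fst.tendsto a).comp ha
  have t2 : Filter.Tendsto (fun n => (F n).2.1) Filter.atTop (nhds a.2.1) :=
    ((continuous_fst.comp continuous_snd).tendsto a).comp ha
  have t3 : Filter.Tendsto (fun n => (F n).2.2) Filter.atTop (nhds a.2.2) :=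
    ((continuous_snd.comp continuous_snd).tendsto a).comp ha
  have m1 : a.1 ∈ A := hA.mem_of_tendsto t1 (Filter.Eventually.of_forall fun n => (hmem n).1)
  have m2 : a.2.1 ∈ B := hB.mem_of_tendsto t2 (Filter.Eventually.of_forall fun n => (hmem n).2.1)
  have m3 : a.2.2 ∈ C := hC.mem_of_tendsto t3 (Filter.Eventually.of_forall fun n => (hmem n).2.2)
  have tq : Filter.Tendsto q Filter.atTop (nhds (qf a.1 a.2.1 a.2.2)) := by
    simp only [q, qf]
    exact ((((t1.sub t2).norm.pow 2).add ((t2.sub t3).norm.pow 2)).add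
      ((t3.sub t1).norm.pow 2)).div_const 2
  have tq0 : Filter.Tendsto q Filter.atTop (nhds 0) := by
    refine squeeze_zero (fun n => qf_nonneg _ _ _) hq ?_
    have := (tendsto_pow_atTop_nhds_zero_of_lt_one k0 k1).mul_const (q 0)
    simpa using this
  have hq00 : qf a.1 a.2.1 a.2.2 = 0 := tendsto_nhds_unique tq tq0
  have e12 : a.1 = a.2.1 := by
    have : ‖a.1 - a.2.1‖ ^ 2 = 0 := by
      unfold qf at hq00
      nlinarith [sq_nonneg ‖a.1 - a.2.1‖, sq_nonneg ‖a.2.1 - a.2.2‖, sq_nonneg ‖a.2.2 - a.1‖]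
    exact sub_eq_zero.1 (norm_eq_zero.1 (pow_eq_zero_iff (two_ne_zero)|>.1 this))
  have e13 : a.1 = a.2.2 := by
    have : ‖a.2.2 - a.1‖ ^ 2 = 0 := by
      unfold qf at hq00
      nlinarith [sq_nonneg ‖a.1 - a.2.1‖, sq_nonneg ‖a.2.1 - a.2.2‖, sq_nonneg ‖a.2.2 - a.1‖]
    exact (sub_eq_zero.1 (norm_eq_zero.1 (pow_eq_zero_iff (two_ne_zero)|>.1 this))).symm
  refine ⟨a.1, m1, e12 ▸ m2, e13 ▸ m3, ?_⟩
  have hfst : dist (F 0).1 a.1 ≤ √(q 0 / 2) / (1 - √kap) :=
    (le_max_left _ _).trans hda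
  rw [hF0, dist_eq_norm] at hfst
  simp only at hfst
  set α := ‖v - A.starProjection v‖ with hα
  set β := ‖v - B.starProjection v‖ with hβ
  set γ := ‖v - C.starProjection v‖ with hγ
  have hα0 : 0 ≤ α := norm_nonneg _
  have hβ0 : 0 ≤ β := norm_nonneg _
  have hγ0 : 0 ≤ γ := norm_nonneg _
  have tri : ∀ p r : H, ‖p - r‖ ≤ ‖v - p‖ + ‖v - r‖ := by
    intro p r
    have : p - r = (v - r) - (v - p) := by abel
    rw [this]
    exact (norm_sub_le _ _).trans (by linarith)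
  have hq0le : q 0 ≤ (α + β + γ) ^ 2 := by
    have h7 : q 0 = qf (A.starProjection v) (B.starProjection v) (C.starProjection v) := rfl
    rw [h7]
    unfold qf
    have u1 := pow_le_pow_left₀ (norm_nonneg _) (tri (A.starProjection v) (B.starProjection v)) 2
    have u2 := pow_le_pow_left₀ (norm_nonneg _) (tri (B.starProjection v) (C.starProjection v)) 2
    have u3 := pow_le_pow_left₀ (norm_nonneg _) (tri (C.starProjection v) (A.starProjection v)) 2
    rw [← hα, ← hβ] at u1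
    rw [← hβ, ← hγ] at u2
    rw [← hγ, ← hα] at u3
    nlinarith [mul_nonneg hα0 hβ0, mul_nonneg hβ0 hγ0, mul_nonneg hγ0 hα0]
  have hD : √(q 0 / 2) ≤ α + β + γ := by
    rw [Real.sqrt_le_left (by positivity)]
    linarith
  have h1ρ : 0 < 1 - √kap := by linarith
  calc ‖v - a.1‖ ≤ ‖v - A.starProjection v‖ + ‖A.starProjection v - a.1‖ := by
        have : v - a.1 = (v - A.starProjection v) + (A.starProjection v - a.1) := by abel
        rw [this]; exact norm_add_le _ _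
    _ ≤ (α + β + γ) + (α + β + γ) / (1 - √kap) := by
        have : √(q 0 / 2) / (1 - √kap) ≤ (α + β + γ) / (1 - √kap) :=
          div_le_div_of_nonneg_right hD h1ρ.le
        linarith
    _ = gapConst lam * (α + β + γ) := by
        unfold gapConst
        rw [← hkap]
        ring

end

end Vale.Agent.P011.H219
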